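import Mathlib

/-!
Elementary facts about expansions in unit fractions.
-/

open Finset
open scoped BigOperators

namespace Vale.Agent.P012

/-- Sum of reciprocals of a multiset. -/
def recSum (s : Multiset ℕ) : ℚ := (s.map fun n : ℕ => (1 : ℚ) / (n : ℚ)).sum

lemma recSum_cons (n : ℕ) (s : Multiset ℕ) : recSum (n ::ₘ s) = 1 / (n : ℚ) + recSum s := by
  simp [recSum]

lemma recSum_nonneg (s : Multiset ℕ) : 0 ≤ recSum s := by
  refine Multiset.sum_nonneg fun x hx => ?_
  obtain ⟨n, -, rfl⟩ := Multiset.mem_map.1 hx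
  positivity

lemma elems_bounded : ∀ (k : ℕ) (q : ℚ), ∃ B : ℕ, ∀ s : Multiset ℕ, s.card = k →
    (∀ n ∈ s, 1 ≤ n) → recSum s = q → ∀ n ∈ s, n ≤ B := by
  intro k
  induction k with
  | zero =>
    intro q
    exact ⟨0, fun s hs _ _ n hn => by
      rw [Multiset.card_eq_zero.1 hs] at hn; simp at hn⟩
  | succ k ih =>
    intro q
    choose Bf hBf using ih
    set N0 := Nat.ceil (((k + 1 : ℕ) : ℚ) / q) with hN0
    refine ⟨N0 + ∑ n0 ∈ Finset.range (N0 + 1), Bf (q - 1 / (n0 : ℚ)), fun s hs hpos hq n hn => ?_⟩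
    have hne : s.toFinset.Nonempty := ⟨n, Multiset.mem_toFinset.2 hn⟩
    set n0 := s.toFinset.min' hne with hn0
    have hmem : n0 ∈ s := Multiset.mem_toFinset.1 (s.toFinset.min'_mem hne)
    have hn0pos : (0 : ℚ) < n0 := by exact_mod_cast (hpos n0 hmem)
    have hle : recSum s ≤ ((k + 1 : ℕ) : ℚ) * (1 / (n0 : ℚ)) := by
      have := Multiset.sum_le_card_nsmul (s.map fun n : ℕ => (1 : ℚ) / (n : ℚ)) (1 / (n0 : ℚ)) (fun x hx => by
        obtain ⟨m, hm, rfl⟩ := Multiset.mem_map.1 hx
        exact one_div_le_one_div_of_le hn0pos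
          (by exact_mod_cast s.toFinset.min'_le m (Multiset.mem_toFinset.2 hm)))
      simpa [recSum, hs, nsmul_eq_mul] using this
    obtain ⟨rest, hrest⟩ := Multiset.exists_cons_of_mem hmem
    have hq0 : 0 < q := by
      rw [← hq, hrest, recSum_cons]
      exact add_pos_of_pos_of_nonneg (by positivity) (recSum_nonneg _)
    have hn0N : n0 ≤ N0 := by
      have h1 : (n0 : ℚ) ≤ ((k + 1 : ℕ) : ℚ) / q := by
        rw [le_div_iff₀ hq0]
        rw [hq, ← div_eq_mul_one_div, le_div_iff₀ hn0pos] at hle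
        linarith [mul_comm (n0 : ℚ) q]
      exact_mod_cast h1.trans (Nat.le_ceil _)
    rw [hrest, Multiset.mem_cons] at hn
    rcases hn with rfl | hn
    · omega
    · have h1 := hBf (q - 1 / (n0 : ℚ)) rest (by rw [hrest, Multiset.card_cons] at hs; omega)
        (fun m hm => hpos m (by rw [hrest]; exact Multiset.mem_cons_of_mem hm))
        (by rw [← hq, hrest, recSum_cons]; ring) n hn
      have h2 : Bf (q - 1 / (n0 : ℚ)) ≤ ∑ n0 ∈ Finset.range (N0 + 1), Bf (q - 1 / (n0 : ℚ)) :=
        Finset.single_le_sum (f := fun n0 : ℕ => Bf (q - 1 / (n0 : ℚ))) (fun _ _ => Nat.zero_le _)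
          (Finset.mem_range.2 (Nat.lt_succ_of_le hn0N))
      omega

/-- Repeated denominators can be removed without lengthening the expansion. -/
theorem make_distinct (s : Multiset ℕ) (hpos : ∀ n ∈ s, 1 ≤ n) (hlt : recSum s < 1) :
    ∃ t : Finset ℕ, (∀ n ∈ t, 2 ≤ n) ∧ t.card ≤ s.card ∧ ∑ n ∈ t, (1 : ℚ) / n = recSum s := by
  classical
  suffices h : ∀ k : ℕ, ∀ s : Multiset ℕ, s.card = k → (∀ n ∈ s, 1 ≤ n) → recSum s < 1 →
      ∃ t : Finset ℕ, (∀ n ∈ t, 2 ≤ n) ∧ t.card ≤ k ∧ ∑ n ∈ t, (1 : ℚ) / n = recSum s from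
    h _ s rfl hpos hlt
  intro k
  induction k using Nat.strong_induction_on with
  | _ k ih =>
    intro s hs hpos hlt
    obtain ⟨B, hB⟩ := elems_bounded k (recSum s)
    suffices h : ∀ d : ℕ, ∀ s' : Multiset ℕ, s'.card = k → (∀ n ∈ s', 1 ≤ n) →
        recSum s' = recSum s → k * B - s'.sum ≤ d →
        ∃ t : Finset ℕ, (∀ n ∈ t, 2 ≤ n) ∧ t.card ≤ k ∧ ∑ n ∈ t, (1 : ℚ) / n = recSum s from
      h _ s hs hpos rfl le_rfl
    intro d
    induction d using Nat.strong_induction_on with
    | _ d ihd =>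
      intro s' hs' hpos' hsum' hd
      by_cases hnd : s'.Nodup
      · refine ⟨⟨s', hnd⟩, fun n hn => ?_, le_of_eq hs', ?_⟩
        · have hn' : n ∈ s' := hn
          rcases Nat.lt_or_ge n 2 with h2 | h2
          · exfalso
            have h1 : n = 1 := by have := hpos' n hn'; omega
            obtain ⟨r, hr⟩ := Multiset.exists_cons_of_mem hn'
            have := recSum_nonneg r
            rw [← hsum', hr, recSum_cons, h1] at hlt
            norm_num at hlt
            linarith
          · exact h2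
        · rw [← hsum']; rfl
      · rw [Multiset.nodup_iff_le] at hnd
        push Not at hnd
        obtain ⟨n, hn⟩ := hnd
        obtain ⟨r, hr⟩ := Multiset.le_iff_exists_add.1 hn
        have hr' : s' = n ::ₘ n ::ₘ r := by rw [hr]; simp
        subst hr'
        have hn1 : 1 ≤ n := hpos' n (by simp)
        have hnq : (0 : ℚ) < n := by exact_mod_cast hn1
        rcases Nat.even_or_odd' n with ⟨m, rfl | rfl⟩
        · have hm : 1 ≤ m := by omega
          have hmq : (0 : ℚ) < m := by exact_mod_cast hm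
          have e : recSum (m ::ₘ r) = recSum s := by
            rw [← hsum']; simp only [recSum_cons]; push_cast; field_simp; ring
          obtain ⟨t, t1, t2, t3⟩ := ih (k - 1) (by simp at hs'; omega) (m ::ₘ r)
            (by simp at hs' ⊢; omega)
            (fun x hx => by
              rcases Multiset.mem_cons.1 hx with rfl | hx
              · exact hm
              · exact hpos' x (by simp [hx]))
            (by rw [e]; exact hlt)
          exact ⟨t, t1, by omega, by rw [t3, e]⟩
        · rcases Nat.eq_zero_or_pos m with rfl | hm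
          · exfalso
            rw [← hsum'] at hlt
            simp only [recSum_cons] at hlt
            have := recSum_nonneg r
            push_cast at hlt
            norm_num at hlt
            linarith
          set s'' : Multiset ℕ := (m + 1) ::ₘ ((2 * m + 1) * (m + 1)) ::ₘ r with hs''
          have e : recSum s'' = recSum s := by
            rw [← hsum', hs'']; simp only [recSum_cons]; push_cast; field_simp; ring
          have hc : s''.card = k := by rw [← hs']; simp [hs'']
          have hp : ∀ x ∈ s'', 1 ≤ x := by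
            intro x hx
            simp only [hs'', Multiset.mem_cons] at hx
            rcases hx with rfl | rfl | hx
            · omega
            · exact Nat.mul_pos (by omega) (by omega)
            · exact hpos' x (by simp [hx])
          have hbound : s''.sum ≤ k * B := by
            have := Multiset.sum_le_card_nsmul s'' B (fun x hx => hB s'' hc hp e x hx)
            simpa [hc] using this
          have hgrow : ((2 * m + 1) ::ₘ (2 * m + 1) ::ₘ r).sum < s''.sum := by
            simp only [hs'', Multiset.sum_cons]; nlinarith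
          exact ihd (k * B - s''.sum) (by omega) s'' hc hp e le_rfl

/-- Greedy steps bring the remainder into a range where the denominator dominates. -/
theorem greedy_state (a b : ℕ) (ha : 1 ≤ a) (hab : a < b) (hb : 2 ≤ b) :
    ∀ j : ℕ, ∃ (l : Multiset ℕ) (a' b' : ℕ), (∀ n ∈ l, 1 ≤ n) ∧ l.card ≤ j + 1 ∧
      (a : ℚ) / b = recSum l + (a' : ℚ) / b' ∧ a' ≤ a ∧ 1 ≤ b' ∧
      (a' = 0 ∨ (b ^ 4 ≤ b' ∧ b' ≤ b ^ 8 ∧ a' < b') ∨
        (b' < b ^ 4 ∧ a' * 2 ^ (2 ^ j) ≤ b' ∧ a' < b')) := by
  have hb1 : 1 ≤ b := by omega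
  have step : ∀ a' b' : ℕ, 1 ≤ a' → a' < b' → ∃ n a'' : ℕ, 2 ≤ n ∧ n ≤ b' ∧ a'' < a' ∧
      b' ≤ n * a' ∧ (a' : ℚ) / b' = 1 / (n : ℚ) + (a'' : ℚ) / ((b' * n : ℕ) : ℚ) := by
    intro a' b' h1 h2
    have h3 : b' ≤ (b' + a' - 1) / a' * a' := by
      have := Nat.lt_div_mul_add (a := b' + a' - 1) h1
      omega
    have h4 : (b' + a' - 1) / a' * a' ≤ b' + a' - 1 := Nat.div_mul_le_self _ _
    set n := (b' + a' - 1) / a' with hn
    have hn2 : 2 ≤ n := by nlinarith
    have hnb : n ≤ b' := by
      rw [hn]; refine Nat.div_le_of_le_mul ?_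
      obtain ⟨u, rfl⟩ : ∃ u, a' = u + 1 := ⟨a' - 1, by omega⟩
      rw [add_mul, one_mul]
      have : u ≤ u * b' := Nat.le_mul_of_pos_right _ (by omega)
      omega
    refine ⟨n, n * a' - b', hn2, hnb, by omega, h3, ?_⟩
    push_cast [Nat.cast_sub h3]
    have : (0 : ℚ) < n := by exact_mod_cast (show 0 < n by omega)
    have : (0 : ℚ) < b' := by exact_mod_cast (show 0 < b' by omega)
    field_simp
    ring
  intro j
  induction j with
  | zero =>
    obtain ⟨n, a'', hn2, hnb, ha'', -, heq⟩ := step a b ha hab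
    refine ⟨{n}, a'', b * n, by simp; omega, by simp, by simpa [recSum] using heq, by omega,
      Nat.mul_pos (by omega) (by omega), ?_⟩
    rcases Nat.eq_zero_or_pos a'' with h0 | h0
    · exact Or.inl h0
    have h2 : 2 * a'' ≤ b * n := by nlinarith
    have hlt : a'' < b * n := by omega
    rcases le_or_gt (b ^ 4) (b * n) with h | h
    · refine Or.inr (Or.inl ⟨h, ?_, hlt⟩)
      calc b * n ≤ b ^ 1 * b ^ 1 := by simpa using Nat.mul_le_mul_left b hnb
        _ = b ^ 2 := by ring
        _ ≤ b ^ 8 := Nat.pow_le_pow_right hb1 (by norm_num)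
    · exact Or.inr (Or.inr ⟨h, by rw [pow_zero, pow_one, mul_comm]; exact h2, hlt⟩)
  | succ j ih =>
    obtain ⟨l, a', b', hl, hcard, heq, haa, hb', hcase⟩ := ih
    rcases hcase with h0 | h1 | ⟨hlt, hsq, ha'b⟩
    · exact ⟨l, a', b', hl, by omega, heq, haa, hb', Or.inl h0⟩
    · exact ⟨l, a', b', hl, by omega, heq, haa, hb', Or.inr (Or.inl h1)⟩
    rcases Nat.eq_zero_or_pos a' with h0 | h0
    · exact ⟨l, a', b', hl, by omega, heq, haa, hb', Or.inl h0⟩
    obtain ⟨n, a'', hn2, hnb, ha'', hna, heq'⟩ := step a' b' h0 ha'b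
    refine ⟨n ::ₘ l, a'', b' * n, fun x hx => ?_, by simp; omega, ?_, by omega,
      Nat.mul_pos (by omega) (by omega), ?_⟩
    · rcases Multiset.mem_cons.1 hx with rfl | hx
      · omega
      · exact hl x hx
    · rw [heq, recSum_cons, heq']; ring
    rcases Nat.eq_zero_or_pos a'' with h | hpos
    · exact Or.inl h
    have hlt' : a'' < b' * n := by nlinarith
    rcases le_or_gt (b ^ 4) (b' * n) with h | h
    · refine Or.inr (Or.inl ⟨h, ?_, hlt'⟩)
      calc b' * n ≤ b ^ 4 * b ^ 4 := Nat.mul_le_mul hlt.le (hnb.trans hlt.le)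
        _ = b ^ 8 := by ring
    · refine Or.inr (Or.inr ⟨h, ?_, hlt'⟩)
      set e := 2 ^ (2 ^ j) with he
      rw [show (2 : ℕ) ^ (2 ^ (j + 1)) = e * e by rw [he, ← pow_add, pow_succ]; congr 1; ring]
      calc a'' * (e * e) ≤ (a' * e) * e := by rw [← mul_assoc]; gcongr
        _ ≤ b' * e := Nat.mul_le_mul_right _ hsq
        _ ≤ b' * n := by
            refine Nat.mul_le_mul_left _ ?_
            exact Nat.le_of_mul_le_mul_right (by rw [mul_comm e]; exact hsq.trans hna) h0

/-- Denominator bound for gaps below `p / q`. -/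
def gapDen : ℕ → ℕ → ℕ
  | 0, q => q
  | k + 1, q => max (2 * q) (gapDen k (2 * (k + 1) * q * q))

lemma gapDen_mono : ∀ k q q', q ≤ q' → gapDen k q ≤ gapDen k q' := by
  intro k
  induction k with
  | zero => intro q q' h; exact h
  | succ k ih =>
    intro q q' h
    simp only [gapDen]
    exact max_le_max (Nat.mul_le_mul_left _ h)
      (ih _ _ (Nat.mul_le_mul (Nat.mul_le_mul_left _ h) h))

lemma gap_lower : ∀ (k : ℕ) (s : Multiset ℕ), s.card ≤ k → (∀ n ∈ s, 1 ≤ n) → ∀ p q : ℕ,
    1 ≤ q → recSum s < (p : ℚ) / q → 1 / (gapDen k q : ℚ) ≤ (p : ℚ) / q - recSum s := by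
  intro k
  induction k with
  | zero =>
    intro s hs _ p q hq hlt
    rw [Multiset.card_eq_zero.1 (Nat.le_zero.1 hs)] at hlt ⊢
    have hq' : (0 : ℚ) < q := by exact_mod_cast hq
    simp only [recSum, Multiset.map_zero, Multiset.sum_zero, sub_zero, gapDen] at hlt ⊢
    gcongr
    have : (0 : ℕ) < p := by
      rcases Nat.eq_zero_or_pos p with rfl | h
      · simp at hlt
      · exact h
    exact_mod_cast this
  | succ k ih =>
    intro s hs hpos p q hq hlt
    have hq' : (0 : ℚ) < q := by exact_mod_cast hq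
    have hp1 : (1 : ℚ) / q ≤ (p : ℚ) / q := by
      gcongr
      rcases Nat.eq_zero_or_pos p with rfl | h
      · exfalso
        have := recSum_nonneg s
        simp at hlt
        linarith
      · exact_mod_cast h
    have h2q : ((2 * q : ℕ) : ℚ) ≤ (gapDen (k + 1) q : ℚ) := by
      exact_mod_cast le_max_left _ _
    by_cases hhalf : 1 / (2 * (q : ℚ)) ≤ (p : ℚ) / q - recSum s
    · refine le_trans ?_ hhalf
      refine one_div_le_one_div_of_le (by positivity) ?_
      push_cast at h2q; exact h2q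
    push Not at hhalf
    have hbig : 1 / (2 * (q : ℚ)) < recSum s := by
      have : 1 / (2 * (q : ℚ)) + 1 / (2 * (q : ℚ)) = 1 / q := by field_simp; ring
      linarith
    have hne : s.toFinset.Nonempty := by
      rcases Multiset.empty_or_exists_mem s with rfl | ⟨x, hx⟩
      · exfalso
        simp only [recSum, Multiset.map_zero, Multiset.sum_zero] at hbig
        linarith [show (0 : ℚ) < 1 / (2 * (q : ℚ)) by positivity]
      · exact ⟨x, Multiset.mem_toFinset.2 hx⟩
    set n := s.toFinset.min' hne with hn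
    have hmem : n ∈ s := Multiset.mem_toFinset.1 (s.toFinset.min'_mem hne)
    have hnpos : (0 : ℚ) < n := by exact_mod_cast (hpos n hmem)
    have hle : recSum s ≤ ((k + 1 : ℕ) : ℚ) * (1 / (n : ℚ)) := by
      have := Multiset.sum_le_card_nsmul (s.map fun n : ℕ => (1 : ℚ) / (n : ℚ)) (1 / (n : ℚ)) (fun x hx => by
        obtain ⟨m, hm, rfl⟩ := Multiset.mem_map.1 hx
        exact one_div_le_one_div_of_le hnpos
          (by exact_mod_cast s.toFinset.min'_le m (Multiset.mem_toFinset.2 hm)))
      rw [Multiset.card_map, nsmul_eq_mul] at this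
      exact this.trans (mul_le_mul_of_nonneg_right (by exact_mod_cast hs) (by positivity))
    have hnq : n ≤ 2 * (k + 1) * q := by
      have h := hbig.trans_le hle
      rw [← div_eq_mul_one_div, div_lt_div_iff₀ (by positivity) hnpos] at h
      have h' : ((n : ℕ) : ℚ) ≤ ((2 * (k + 1) * q : ℕ) : ℚ) := by push_cast; push_cast at h; linarith
      exact_mod_cast h'
    obtain ⟨r, hr⟩ := Multiset.exists_cons_of_mem hmem
    rw [hr, recSum_cons] at hlt ⊢
    have hqn : q ≤ p * n := by
      have h1 : 1 / (n : ℚ) < (p : ℚ) / q := by linarith [recSum_nonneg r]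
      rw [div_lt_div_iff₀ hnpos hq'] at h1
      have : (q : ℚ) ≤ ((p * n : ℕ) : ℚ) := by push_cast; linarith
      exact_mod_cast this
    have e : ((p * n - q : ℕ) : ℚ) / ((q * n : ℕ) : ℚ) = (p : ℚ) / q - 1 / (n : ℚ) := by
      push_cast [Nat.cast_sub hqn]; field_simp
    have h := ih r (by rw [hr, Multiset.card_cons] at hs; omega)
      (fun m hm => hpos m (by rw [hr]; exact Multiset.mem_cons_of_mem hm))
      (p * n - q) (q * n) (Nat.mul_pos (by omega) (hpos n hmem)) (by rw [e]; linarith)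
    rw [e] at h
    have hmono : gapDen k (q * n) ≤ gapDen (k + 1) q := by
      simp only [gapDen]
      refine le_trans (gapDen_mono k _ _ ?_) (le_max_right _ _)
      calc q * n ≤ q * (2 * (k + 1) * q) := Nat.mul_le_mul_left _ hnq
        _ = _ := by ring
    have hpos' : 0 < gapDen k (q * n) := by
      have : ∀ k q, 0 < q → 0 < gapDen k q := by
        intro k
        induction k with
        | zero => intro q h; exact h
        | succ k _ => intro q h; simp only [gapDen]; exact lt_max_of_lt_left (by omega)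
      exact this _ _ (Nat.mul_pos (by omega) (hpos n hmem))
    calc 1 / (gapDen (k + 1) q : ℚ) ≤ 1 / (gapDen k (q * n) : ℚ) :=
          one_div_le_one_div_of_le (by exact_mod_cast hpos') (by exact_mod_cast hmono)
      _ ≤ (p : ℚ) / q - 1 / (n : ℚ) - recSum r := h
      _ = _ := by ring

lemma gapDen_le : ∀ (k q : ℕ), 1 ≤ q → gapDen k q ≤ (2 ^ (k + 1) * q) ^ (2 ^ k) := by
  intro k
  induction k with
  | zero => intro q _; simp [gapDen]; omega
  | succ k ih =>
    intro q hq
    simp only [gapDen]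
    refine max_le ?_ ((ih _ (Nat.mul_pos (Nat.mul_pos (by omega) hq) hq)).trans ?_)
    · calc 2 * q = 2 ^ 1 * q := by ring
        _ ≤ 2 ^ (k + 1 + 1) * q :=
            Nat.mul_le_mul_right _ (Nat.pow_le_pow_right (by norm_num) (by omega))
        _ ≤ _ := Nat.le_self_pow (by positivity) _
    · rw [show (2 ^ (k + 1 + 1) * q) ^ (2 ^ (k + 1)) = ((2 ^ (k + 1 + 1) * q) ^ 2) ^ (2 ^ k) by
        rw [← pow_mul]; congr 1; rw [pow_succ]; ring]
      refine Nat.pow_le_pow_left ?_ _
      have hk : k + 1 ≤ 2 ^ (k + 1) := Nat.lt_two_pow_self.le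
      calc 2 ^ (k + 1) * (2 * (k + 1) * q * q) ≤ 2 ^ (k + 1) * (2 * 2 ^ (k + 1) * q * q) := by gcongr
        _ ≤ 2 ^ (k + 1 + 1) * 2 ^ (k + 1 + 1) * (q * q) := by
            rw [pow_succ 2 (k + 1)]; nlinarith [Nat.zero_le (2 ^ (k + 1) * 2 ^ (k + 1) * (q * q))]
        _ = _ := by ring

/-- Erdős's lower bound, in exponential form. -/
theorem lower_bound (b : ℕ) (hb : 2 ≤ b) (s : Finset ℕ) (hs : ∀ n ∈ s, 2 ≤ n)
    (hsum : ∑ n ∈ s, (1 : ℚ) / n = ((b - 1 : ℕ) : ℚ) / b) :
    b ≤ 2 ^ (2 ^ (2 * s.card + 1)) := by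
  have h := gap_lower s.card s.val le_rfl (fun n hn => by have := hs n hn; omega) 1 1 le_rfl
  have e : recSum s.val = ((b - 1 : ℕ) : ℚ) / b := hsum
  have hb' : (0 : ℚ) < b := by exact_mod_cast (show 0 < b by omega)
  have e2 : (1 : ℚ) - ((b - 1 : ℕ) : ℚ) / b = 1 / (b : ℚ) := by
    push_cast [Nat.cast_sub (show 1 ≤ b by omega)]; field_simp; ring
  rw [e, Nat.cast_one, div_one] at h
  have h1 := h (by linarith [show (0 : ℚ) < 1 / (b : ℚ) by positivity])
  rw [e2] at h1
  have hg0 : 0 < gapDen s.card 1 := by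
    cases s.card with
    | zero => simp [gapDen]
    | succ k => simp only [gapDen]; exact lt_max_of_lt_left (by norm_num)
  rw [one_div_le_one_div (by exact_mod_cast hg0) hb'] at h1
  have h2 : b ≤ gapDen s.card 1 := by exact_mod_cast h1
  refine h2.trans ((gapDen_le _ _ le_rfl).trans ?_)
  rw [mul_one, ← pow_mul]
  refine Nat.pow_le_pow_right (by norm_num) ?_
  calc (s.card + 1) * 2 ^ s.card ≤ 2 ^ (s.card + 1) * 2 ^ s.card :=
        Nat.mul_le_mul_right _ Nat.lt_two_pow_self.le
    _ = _ := by rw [← pow_add]; congr 1; omega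

end Vale.Agent.P012
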