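import Vale.Agent.P012.Block
import Vale.Agent.P012.Egypt

/-!
Assembly of the bounds.
-/

open Finset
open scoped BigOperators

namespace Vale.Agent.P012

lemma winLen_pos (t : ℕ) : 0 < winLen t := Nat.two_pow_pos _

lemma winLen_succ (t : ℕ) (ht : 1 ≤ t) : winLen (t + 1) ≤ winLen t ^ 512 := by
  unfold winLen
  rw [← pow_mul]
  refine Nat.pow_le_pow_right (by norm_num) ?_
  rw [show 8 * (t + 1) = 8 * t + 8 by ring, pow_add, show (2 : ℕ) ^ 8 = 256 by norm_num]
  calc (t + 1) * (2 ^ (8 * t) * 256) = 2 ^ (8 * t) * (256 * (t + 1)) := by ring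
    _ ≤ 2 ^ (8 * t) * (512 * t) := Nat.mul_le_mul_left _ (by omega)
    _ = _ := by ring

/-- Windows can be stacked. -/
lemma stack {N h z Λ : ℕ} (hΛ : 0 < Λ) (hw : ∀ n, z ≤ n → n < z + Λ → Reps N h n) :
    ∀ l : ℕ, ∃ Z, ∀ n, Z ≤ n → n < Z + Λ ^ (l + 1) → Reps (N * Λ ^ l) ((l + 1) * h) n := by
  intro l
  induction l with
  | zero => exact ⟨z, fun n h1 h2 => by simpa using hw n h1 (by simpa using h2)⟩
  | succ l ih =>
    obtain ⟨Z, hZ⟩ := ih
    refine ⟨z + Λ * Z, fun n h1 h2 => ?_⟩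
    have h1' : z ≤ n := le_trans (Nat.le_add_right _ _) h1
    have e := Nat.div_add_mod (n - z) Λ
    set m := (n - z) / Λ with hm
    set r := (n - z) % Λ with hr
    have hmZ : Z ≤ m := by
      rw [hm, Nat.le_div_iff_mul_le hΛ, mul_comm]; omega
    have hmU : m < Z + Λ ^ (l + 1) := by
      rw [hm, Nat.div_lt_iff_lt_mul hΛ, add_mul, ← pow_succ, mul_comm Z]; omega
    have r1 : Reps (N * Λ ^ (l + 1)) h (z + r) :=
      (hw _ (Nat.le_add_right _ _) (Nat.add_lt_add_left (Nat.mod_lt _ hΛ) _)).of_dvd_right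
        (dvd_mul_right _ _)
    have r2 : Reps (N * Λ ^ (l + 1)) ((l + 1) * h) (m * Λ) := by
      have := (hZ m hmZ hmU).scale Λ
      rwa [mul_assoc, ← pow_succ] at this
    have := r2.add r1
    rw [show (l + 1) * h + h = (l + 1 + 1) * h by ring] at this
    rwa [show m * Λ + (z + r) = n by rw [mul_comm]; omega] at this

lemma reps_to_units {N h n c : ℕ} (hN : 0 < N) (hc : 0 < c) (hr : Reps N h n) :
    ∃ s : Multiset ℕ, s.card ≤ h ∧ (∀ x ∈ s, 1 ≤ x) ∧ recSum s = (n : ℚ) / ((c : ℚ) * N) := by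
  obtain ⟨l, h1, h2, rfl⟩ := hr
  refine ⟨(l.map fun d => c * (N / d) : List ℕ), by simpa using h1, fun x hx => ?_, ?_⟩
  · obtain ⟨d, hd, rfl⟩ := List.mem_map.1 (Multiset.mem_coe.1 hx)
    have hd0 : 0 < d := Nat.pos_of_dvd_of_pos (h2 d hd) hN
    exact Nat.mul_pos hc (Nat.div_pos (Nat.le_of_dvd hN (h2 d hd)) hd0)
  · clear h1
    induction l with
    | nil => simp [recSum]
    | cons d l ih =>
      have hd : d ∣ N := h2 d List.mem_cons_self
      have hd0 : 0 < d := Nat.pos_of_dvd_of_pos hd hN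
      rw [List.map_cons, ← Multiset.cons_coe, recSum_cons,
        ih (fun x hx => h2 x (List.mem_cons_of_mem d hx)), List.sum_cons]
      obtain ⟨e, rfl⟩ := hd
      rw [Nat.mul_div_cancel_left _ hd0]
      have he : (0 : ℚ) < e := by
        exact_mod_cast Nat.pos_of_mul_pos_left hN
      have : (0 : ℚ) < d := by exact_mod_cast hd0
      have : (0 : ℚ) < c := by exact_mod_cast hc
      push_cast
      field_simp

theorem upper_nat : ∃ K b0 : ℕ, ∀ b, b0 ≤ b → ∀ a, 1 ≤ a → a < b →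
    ∃ s : Finset ℕ, (∀ n ∈ s, 2 ≤ n) ∧ ∑ n ∈ s, (1 : ℚ) / n = (a : ℚ) / b ∧
      s.card ≤ K * (Nat.log 2 (Nat.log 2 b) + 4) := by
  classical
  obtain ⟨K, hK, hwin⟩ := window
  set σ := 1024 * K with hσ
  refine ⟨1 + 2 * σ * K, winLen 2 ^ σ + 2, fun b hb a ha hab => ?_⟩
  have hb2 : 2 ≤ b := by omega
  suffices h : ∃ s : Multiset ℕ, (∀ n ∈ s, 1 ≤ n) ∧ recSum s = (a : ℚ) / b ∧
      s.card ≤ (1 + 2 * σ * K) * (Nat.log 2 (Nat.log 2 b) + 4) by
    obtain ⟨s, h1, h2, h3⟩ := h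
    have hlt : recSum s < 1 := by
      rw [h2, div_lt_one (by exact_mod_cast (show 0 < b by omega))]
      exact_mod_cast hab
    obtain ⟨t, t1, t2, t3⟩ := make_distinct s h1 hlt
    exact ⟨t, t1, t3.trans h2, t2.trans h3⟩
  set J := Nat.log 2 (Nat.log 2 b) + 3 with hJ
  have hlog : Nat.log 2 b + 1 ≤ 2 ^ (J - 2) := by
    rw [show J - 2 = Nat.log 2 (Nat.log 2 b) + 1 by omega]
    exact Nat.lt_pow_succ_log_self (by norm_num) _
  have hbJ : b < 2 ^ (2 ^ (J - 2)) :=
    lt_of_lt_of_le (Nat.lt_pow_succ_log_self (by norm_num) _) (Nat.pow_le_pow_right (by norm_num) hlog)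
  have hJ4 : 2 ^ (J - 2) * 4 = 2 ^ J := by
    rw [show (4 : ℕ) = 2 ^ 2 by norm_num, ← pow_add, Nat.sub_add_cancel (by omega)]
  have hb4 : b ^ 4 < 2 ^ (2 ^ J) := by
    rw [← hJ4, pow_mul]
    exact Nat.pow_lt_pow_left hbJ (by norm_num)
  obtain ⟨l, a', b', hl1, hl2, heq, haa, hb'1, hcase⟩ := greedy_state a b ha hab hb2 J
  have hcardbound : ∀ x : ℕ, x ≤ J + 1 + 2 * σ * K * J →
      x ≤ (1 + 2 * σ * K) * (Nat.log 2 (Nat.log 2 b) + 4) := by
    intro x hx
    refine hx.trans ?_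
    rw [show Nat.log 2 (Nat.log 2 b) + 4 = J + 1 by omega, add_mul, one_mul]
    exact Nat.add_le_add_left (Nat.mul_le_mul_left _ (Nat.le_succ _)) _
  rcases Nat.eq_zero_or_pos a' with h0 | ha'
  · refine ⟨l, hl1, ?_, hcardbound _ (hl2.trans (Nat.le_add_right _ _))⟩
    rw [heq, h0]; simp
  rcases hcase with h0 | ⟨hlo, hhi, -⟩ | ⟨hlt, hsq, -⟩
  · omega
  swap
  · exfalso
    have : 2 ^ (2 ^ J) ≤ a' * 2 ^ (2 ^ J) := Nat.le_mul_of_pos_left _ ha'
    omega
  -- choose the scale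
  have hex : ∃ t, b' ≤ winLen t ^ σ := by
    refine ⟨b', ?_⟩
    calc b' ≤ 2 ^ b' := Nat.lt_two_pow_self.le
      _ ≤ winLen b' := by
          unfold winLen
          exact Nat.pow_le_pow_right (by norm_num) (Nat.le_mul_of_pos_right _ (Nat.two_pow_pos _))
      _ ≤ _ := Nat.le_self_pow (by omega) _
  set t := Nat.find hex with ht
  have hbig : winLen 2 ^ σ < b' := by
    have : b ≤ b ^ 4 := Nat.le_self_pow (by norm_num) _
    omega
  have hmono : ∀ u v, u ≤ v → winLen u ^ σ ≤ winLen v ^ σ := fun u v h =>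
    Nat.pow_le_pow_left (Nat.pow_le_pow_right (by norm_num)
      (Nat.mul_le_mul h (Nat.pow_le_pow_right (by norm_num) (by omega)))) _
  have ht3 : 3 ≤ t := by
    by_contra hc
    have h1 := Nat.find_spec hex
    rw [← ht] at h1
    have := hmono t 2 (by omega)
    omega
  have hprev : winLen (t - 1) ^ σ < b' := not_le.1 (Nat.find_min hex (by omega))
  have hle : b' ≤ winLen t ^ σ := Nat.find_spec hex
  obtain ⟨N, z, hN1, hNK, hw⟩ := hwin t (by omega)
  set Λ := winLen t with hΛ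
  have hΛ0 : 0 < Λ := winLen_pos t
  obtain ⟨σ', hσ'⟩ : ∃ σ', σ = σ' + 1 := ⟨σ - 1, by omega⟩
  obtain ⟨Z, hZ⟩ := stack hΛ0 hw σ'
  rw [← hσ'] at hZ
  set N' := N * Λ ^ σ' with hN'
  have hN'0 : 0 < N' := Nat.mul_pos hN1 (pow_pos hΛ0 _)
  set W := Λ ^ σ with hW
  have hkey : a' * N' < b' * W := by
    have h2K : (Λ ^ K) ^ 2 < b' := by
      calc (Λ ^ K) ^ 2 = Λ ^ (2 * K) := by rw [← pow_mul, mul_comm]
        _ ≤ (winLen (t - 1) ^ 512) ^ (2 * K) := by
            refine Nat.pow_le_pow_left ?_ _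
            have := winLen_succ (t - 1) (by omega)
            rwa [show t - 1 + 1 = t by omega] at this
        _ = winLen (t - 1) ^ σ := by rw [← pow_mul, hσ]; congr 1; ring
        _ < b' := hprev
    have hb2' : b ^ 2 ≤ b' := le_trans (Nat.pow_le_pow_right (by omega) (by norm_num)) hlo
    have h3 : (b * Λ ^ K) ^ 2 ≤ b' ^ 2 := by
      rw [mul_pow, sq b']; exact Nat.mul_le_mul hb2' h2K.le
    have h4 : b * Λ ^ K ≤ b' := (Nat.pow_le_pow_iff_left (by norm_num)).1 h3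
    calc a' * N' < b * N' := Nat.mul_lt_mul_of_pos_right (by omega) hN'0
      _ ≤ b * (Λ ^ K * Λ ^ σ') := Nat.mul_le_mul_left _ (Nat.mul_le_mul_right _ hNK)
      _ = b * Λ ^ K * Λ ^ σ' := (mul_assoc _ _ _).symm
      _ ≤ b' * Λ ^ σ' := Nat.mul_le_mul_right _ h4
      _ ≤ b' * W := Nat.mul_le_mul_left _ (Nat.pow_le_pow_right hΛ0 (by omega))
  set T := (Z * b' + Z) / (a' * N') + 1 with hT
  have haN : 0 < a' * N' := Nat.mul_pos ha' hN'0
  have hT1 : Z * b' + Z < a' * N' * T := Nat.lt_mul_div_succ _ haN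
  have hT2 : a' * N' * T ≤ Z * b' + Z + a' * N' := by
    rw [hT, Nat.mul_add, mul_one, mul_comm]
    exact Nat.add_le_add_right (Nat.div_mul_le_self _ _) _
  set X := a' * N' * T with hX
  set Qd := (X - Z) / b' with hQd
  set r := Z + (X - Z) % b' with hr
  have hsplit : X = Qd * b' + r := by
    have := Nat.div_add_mod (X - Z) b'
    rw [hQd, hr, mul_comm]; omega
  have hQlo : Z ≤ Qd := by rw [hQd, Nat.le_div_iff_mul_le (by omega)]; omega
  have hQhi : Qd < Z + W := by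
    rw [hQd, Nat.div_lt_iff_lt_mul (by omega), add_mul, mul_comm W]; omega
  have hrhi : r < Z + W := by
    have := Nat.mod_lt (X - Z) (show b' > 0 by omega)
    have : b' ≤ W := hle
    omega
  have repQ := hZ Qd hQlo hQhi
  have repR := hZ r (Nat.le_add_right _ _) hrhi
  have hT0 : 0 < T := Nat.succ_pos _
  obtain ⟨s1, c1, p1, e1⟩ := reps_to_units hN'0 hT0 repQ
  obtain ⟨s2, c2, p2, e2⟩ := reps_to_units hN'0 (Nat.mul_pos (show 0 < b' by omega) hT0) repR
  refine ⟨l + (s1 + s2), fun n hn => ?_, ?_, hcardbound _ ?_⟩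
  · simp only [Multiset.mem_add] at hn
    rcases hn with h | h | h
    · exact hl1 n h
    · exact p1 n h
    · exact p2 n h
  · have eadd : ∀ u v : Multiset ℕ, recSum (u + v) = recSum u + recSum v := fun u v => by
      simp [recSum]
    rw [eadd, eadd, heq, e1, e2]
    congr 1
    have : (0 : ℚ) < b' := by exact_mod_cast (show 0 < b' by omega)
    have : (0 : ℚ) < N' := by exact_mod_cast hN'0
    have : (0 : ℚ) < T := by exact_mod_cast hT0
    have hXq : (a' : ℚ) * N' * T = (Qd : ℚ) * b' + r := by exact_mod_cast hsplit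
    push_cast
    field_simp
    linarith
  · have htJ : t ≤ J := by
      have h1 : 2 ^ (2 ^ (8 * (t - 1))) ≤ winLen (t - 1) ^ σ := by
        refine le_trans ?_ (Nat.le_self_pow (by omega) _)
        unfold winLen
        exact Nat.pow_le_pow_right (by norm_num) (Nat.le_mul_of_pos_left _ (by omega))
      have h2 : b' < 2 ^ (2 ^ (J - 2) * 8) := by
        rw [pow_mul]
        exact lt_of_le_of_lt hhi (Nat.pow_lt_pow_left hbJ (by norm_num))
      have h3 : 2 ^ (8 * (t - 1)) < 2 ^ (J - 2) * 8 :=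
        (Nat.pow_lt_pow_iff_right (by norm_num : (1 : ℕ) < 2)).1
          (lt_of_le_of_lt h1 (hprev.trans h2))
      rw [show (8 : ℕ) = 2 ^ 3 by norm_num, ← pow_add] at h3
      have := (Nat.pow_lt_pow_iff_right (by norm_num : (1 : ℕ) < 2)).1 h3
      omega
    simp only [Multiset.card_add]
    have : σ * (K * t) + σ * (K * t) ≤ 2 * σ * K * J := by
      calc σ * (K * t) + σ * (K * t) = 2 * σ * K * t := by ring
        _ ≤ _ := Nat.mul_le_mul_left _ htJ
    omega

theorem order_loglog : ∃ c C : ℝ, 0 < c ∧ 0 < C ∧ ∃ b₀ : ℕ, ∀ b : ℕ, b₀ ≤ b →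
    (∀ a : ℕ, 1 ≤ a → a < b → ∃ s : Finset ℕ, (∀ n ∈ s, 2 ≤ n) ∧
      ∑ n ∈ s, (1 : ℚ) / n = (a : ℚ) / b ∧ (s.card : ℝ) ≤ C * Real.log (Real.log b)) ∧
    (∀ s : Finset ℕ, (∀ n ∈ s, 2 ≤ n) → ∑ n ∈ s, (1 : ℚ) / n = ((b : ℚ) - 1) / b →
      c * Real.log (Real.log b) ≤ s.card) := by
  obtain ⟨K, b0, hK⟩ := upper_nat
  refine ⟨1 / 4, 8 * K + 1, by norm_num, by positivity, max b0 (2 ^ 16), fun b hb => ?_⟩
  have hbb0 : b0 ≤ b := le_trans (le_max_left _ _) hb
  have hb16 : 2 ^ 16 ≤ b := le_trans (le_max_right _ _) hb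
  have hbR : ((2 : ℝ) ^ 16) ≤ b := by exact_mod_cast hb16
  have hlog2 := Real.log_two_gt_d9
  have hlog2' := Real.log_two_lt_d9
  have hlogb : 11 ≤ Real.log b := by
    have := Real.log_le_log (by positivity) hbR
    rw [Real.log_pow] at this
    push_cast at this
    linarith
  have hLL : 2 ≤ Real.log (Real.log b) := by
    rw [Real.le_log_iff_exp_le (by linarith)]
    have h1 : Real.exp 2 = Real.exp 1 * Real.exp 1 := by rw [← Real.exp_add]; norm_num
    have h2 := Real.exp_one_lt_three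
    have h3 := Real.exp_pos 1
    nlinarith
  refine ⟨fun a ha hab => ?_, fun s hs hsum => ?_⟩
  · obtain ⟨s, s1, s2, s3⟩ := hK b hbb0 a ha hab
    refine ⟨s, s1, s2, ?_⟩
    set l1 := Nat.log 2 b with hl1
    have hb0' : (0 : ℝ) < b := by linarith [show (0 : ℝ) < 2 ^ 16 by positivity]
    have hl1pos : 1 ≤ l1 := Nat.le_log_of_pow_le (by norm_num) (le_trans (by norm_num) hb16)
    have hl1le : (l1 : ℝ) * Real.log 2 ≤ Real.log b := by
      rw [← Real.log_pow]
      exact Real.log_le_log (by positivity)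
        (by exact_mod_cast Nat.pow_log_le_self 2 (show b ≠ 0 by omega))
    have hl2le : (Nat.log 2 l1 : ℝ) * Real.log 2 ≤ Real.log (Real.log b) + 1 := by
      have h1 : (Nat.log 2 l1 : ℝ) * Real.log 2 ≤ Real.log l1 := by
        rw [← Real.log_pow]
        exact Real.log_le_log (by positivity)
          (by exact_mod_cast Nat.pow_log_le_self 2 (show l1 ≠ 0 by omega))
      have h2 : Real.log l1 ≤ Real.log (2 * Real.log b) := by
        refine Real.log_le_log (by exact_mod_cast hl1pos) ?_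
        nlinarith [show (0 : ℝ) ≤ l1 from Nat.cast_nonneg _]
      rw [Real.log_mul (by norm_num) (by linarith)] at h2
      linarith
    have h4 : ((Nat.log 2 l1 + 4 : ℕ) : ℝ) ≤ 8 * Real.log (Real.log b) := by
      push_cast
      nlinarith [show (0 : ℝ) ≤ (Nat.log 2 l1 : ℝ) from Nat.cast_nonneg _]
    calc (s.card : ℝ) ≤ ((K * (Nat.log 2 l1 + 4) : ℕ) : ℝ) := by exact_mod_cast s3
      _ = (K : ℝ) * ((Nat.log 2 l1 + 4 : ℕ) : ℝ) := by push_cast; ring
      _ ≤ (K : ℝ) * (8 * Real.log (Real.log b)) := mul_le_mul_of_nonneg_left h4 (Nat.cast_nonneg _)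
      _ ≤ _ := by nlinarith
  · have h := lower_bound b (by omega) s hs (by
      rw [hsum, Nat.cast_sub (show 1 ≤ b by omega)]; simp)
    have h1 : Real.log b ≤ (2 : ℝ) ^ (2 * s.card + 1) * Real.log 2 := by
      have : (b : ℝ) ≤ (2 : ℝ) ^ (2 ^ (2 * s.card + 1)) := by exact_mod_cast h
      have := Real.log_le_log (by linarith [show (0 : ℝ) < 2 ^ 16 by positivity]) this
      rw [Real.log_pow] at this
      push_cast at this
      exact this
    have h2 : Real.log b ≤ (2 : ℝ) ^ (2 * s.card + 1) := by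
      refine h1.trans (mul_le_of_le_one_right (by positivity) (by linarith))
    have h3 : Real.log (Real.log b) ≤ ((2 * s.card + 1 : ℕ) : ℝ) * Real.log 2 := by
      rw [← Real.log_pow]; exact Real.log_le_log (by linarith) h2
    push_cast at h3
    nlinarith [show (0 : ℝ) ≤ (s.card : ℝ) from Nat.cast_nonneg _]

end Vale.Agent.P012
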