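import Vale.Agent.P012.Transfer

/-!
The distribution of one building block.
-/

open Finset
open scoped BigOperators

namespace Vale.Agent.P012

/-- All numerical conditions needed by the building block. -/
structure Big {P Q : ℕ} (π : Pools P Q) (t C : ℕ) : Prop where
  base : Params π t
  hC : 1 ≤ C
  hP8 : 8 ≤ P
  hQW : 2 * P * (2 ^ (4 * t) * (P + 3)) ≤ Q
  hw : 4 * t * (2 * (P + 1) * π.w) < π.B
  hB3 : 3 ≤ π.B
  hBC : π.B ≤ 2 ^ (C * t)

lemma class_count {n g : ℕ} (_hg : 0 < g) (c : ZMod g) :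
    (Finset.univ.filter fun a : Fin n => (((a : ℕ) : ℤ) : ZMod g) = c).card ≤ n / g + 1 := by
  classical
  have h := Finset.card_le_card_of_injOn (s := Finset.univ.filter
      fun a : Fin n => (((a : ℕ) : ℤ) : ZMod g) = c) (t := Finset.range (n / g + 1))
    (fun a => (a : ℕ) / g) (fun a _ => by
      simp only [Finset.coe_range, Set.mem_Iio]
      exact Nat.lt_succ_of_le (Nat.div_le_div_right a.2.le))
    (fun a ha b hb hab => by
      simp only [Finset.coe_filter, Finset.mem_univ, true_and, Set.mem_ofPred_eq] at ha hb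
      have h1 : (((a : ℕ) : ℕ) : ZMod g) = ((b : ℕ) : ZMod g) := by
        have := ha.trans hb.symm; exact_mod_cast this
      rw [ZMod.natCast_eq_natCast_iff'] at h1
      exact Fin.ext (by
        have h2 : (a : ℕ) / g = (b : ℕ) / g := hab
        rw [← Nat.div_add_mod (a : ℕ) g, ← Nat.div_add_mod (b : ℕ) g, h1, h2]))
  simpa using h

lemma window_count {n G : ℕ} (hG : 0 < G) (T : ℕ) (c : ℤ) :
    (Finset.univ.filter fun b : Fin n => (c - ((b : ℕ) : ℤ) * (G : ℤ)).natAbs ≤ T).card ≤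
      2 * T / G + 1 := by
  classical
  set F := Finset.univ.filter fun b : Fin n => (c - ((b : ℕ) : ℤ) * (G : ℤ)).natAbs ≤ T with hF
  rcases F.eq_empty_or_nonempty with h | h
  · simp [h]
  set b0 := F.min' h with hb0
  have h0 : (c - ((b0 : ℕ) : ℤ) * (G : ℤ)).natAbs ≤ T := (Finset.mem_filter.1 (F.min'_mem h)).2
  have hm := Finset.card_le_card_of_injOn (s := F) (t := Finset.range (2 * T / G + 1))
    (fun b => (b : ℕ) - (b0 : ℕ)) (fun b hb => by
      simp only [Finset.coe_range, Set.mem_Iio]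
      refine Nat.lt_succ_of_le ((Nat.le_div_iff_mul_le hG).2 ?_)
      have hle : (b0 : ℕ) ≤ (b : ℕ) := F.min'_le b hb
      have h1 : (c - ((b : ℕ) : ℤ) * (G : ℤ)).natAbs ≤ T := (Finset.mem_filter.1 hb).2
      obtain ⟨d, hd⟩ := Nat.exists_eq_add_of_le hle
      rw [show (b : ℕ) - (b0 : ℕ) = d by omega]
      rw [hd] at h1
      push_cast at h1
      rw [add_mul] at h1
      have h3 : ((d * G : ℕ) : ℤ) ≤ ((2 * T : ℕ) : ℤ) := by push_cast; omega
      exact_mod_cast h3)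
    (fun a ha b hb hab => Fin.ext (by
      have h1 : (b0 : ℕ) ≤ (a : ℕ) := F.min'_le a ha
      have h2 : (b0 : ℕ) ≤ (b : ℕ) := F.min'_le b hb
      have h3 : (a : ℕ) - (b0 : ℕ) = (b : ℕ) - (b0 : ℕ) := hab
      omega))
  simpa using hm

namespace Pools

variable {P Q : ℕ} (π : Pools P Q) (t : ℕ)

/-- Number of values of each of the two small extra summands. -/
abbrev G₀ : ℕ := π.B ^ 8

/-- The step of the coarse extra summand. -/
abbrev G₁ : ℕ := π.B ^ (P + 1 - 8)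

/-- The sample space of a block. -/
abbrev Sample : Type := (Fin (4 * t) → Word P P) × (Fin π.G₀ × Fin π.G₀)

/-- The value of a block. -/
def block (δ : Choice P Q P) (p : π.Sample t) : ℤ :=
  π.tsum le_rfl δ (4 * t) p.1 + (((p.2.1 : ℕ) : ℤ) + ((p.2.2 : ℕ) : ℤ) * (π.G₁ : ℤ))

/-- The spread of a block. -/
abbrev U : ℕ := 3 * π.B ^ (P + 1)

variable {t} {C : ℕ}

lemma block_diff (h : Big π t C) (δ : Choice P Q P) (p p' : π.Sample t) :
    (π.block t δ p - π.block t δ p').natAbs < π.U := by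
  have h1 := π.tsum_diff le_rfl h.hw δ p.1 p'.1
  have hP := h.hP8
  have hB := h.hB3
  have e8 : π.G₀ ≤ π.B ^ (P + 1) := Nat.pow_le_pow_right (by omega) (by omega)
  have e9 : π.G₀ * π.G₁ = π.B ^ (P + 1) := by
    rw [← pow_add]; congr 1; omega
  have a1 : (((p.2.1 : ℕ) : ℤ) - ((p'.2.1 : ℕ) : ℤ)).natAbs < π.G₀ := by
    have := p.2.1.2; have := p'.2.1.2; omega
  have a2 : (((p.2.2 : ℕ) : ℤ) - ((p'.2.2 : ℕ) : ℤ)).natAbs ≤ π.G₀ := by
    have := p.2.2.2; have := p'.2.2.2; omega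
  have a3 : ((((p.2.2 : ℕ) : ℤ) - ((p'.2.2 : ℕ) : ℤ)) * (π.G₁ : ℤ)).natAbs ≤ π.B ^ (P + 1) := by
    rw [Int.natAbs_mul, Int.natAbs_natCast, ← e9]; exact Nat.mul_le_mul_right _ a2
  have heq : π.block t δ p - π.block t δ p' =
      (π.tsum le_rfl δ (4 * t) p.1 - π.tsum le_rfl δ (4 * t) p'.1) +
      (((p.2.1 : ℕ) : ℤ) - ((p'.2.1 : ℕ) : ℤ)) +
      (((p.2.2 : ℕ) : ℤ) - ((p'.2.2 : ℕ) : ℤ)) * (π.G₁ : ℤ) := by
    unfold block; ring
  rw [heq]
  have u1 := Int.natAbs_add_le ((π.tsum le_rfl δ (4 * t) p.1 - π.tsum le_rfl δ (4 * t) p'.1) +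
      (((p.2.1 : ℕ) : ℤ) - ((p'.2.1 : ℕ) : ℤ)))
    ((((p.2.2 : ℕ) : ℤ) - ((p'.2.2 : ℕ) : ℤ)) * (π.G₁ : ℤ))
  have u2 := Int.natAbs_add_le (π.tsum le_rfl δ (4 * t) p.1 - π.tsum le_rfl δ (4 * t) p'.1)
      (((p.2.1 : ℕ) : ℤ) - ((p'.2.1 : ℕ) : ℤ))
  show _ < 3 * π.B ^ (P + 1)
  omega

lemma coll_block_small (hB : 0 < π.B) {g : ℕ} (hg : 0 < g) (hgB : g ≤ π.G₀) (δ : Choice P Q P)
    [Nonempty (π.Sample t)] :
    coll g (π.block t δ) ≤ 2 / (g : ℝ) := by
  classical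
  have hG0 : (0 : ℝ) < π.G₀ := by exact_mod_cast pow_pos hB 8
  unfold coll
  refine Finset.expect_le Finset.univ_nonempty fun p _ => ?_
  simp only [← Finset.univ_product_univ, Finset.expect_product]
  have : Nonempty (Fin π.G₀) := ⟨⟨0, pow_pos hB 8⟩⟩
  have : Nonempty (Fin (4 * t) → Word P P) := ⟨p.1⟩
  refine Finset.expect_le Finset.univ_nonempty fun h' _ => ?_
  rw [Finset.expect_comm]
  refine Finset.expect_le Finset.univ_nonempty fun b' _ => ?_
  rw [Fintype.expect_eq_sum_div_card, Finset.sum_boole, Fintype.card_fin,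
    div_le_div_iff₀ hG0 (by exact_mod_cast hg)]
  have hsub : (Finset.univ.filter fun a' : Fin π.G₀ =>
      ((π.block t δ p : ℤ) : ZMod g) = ((π.block t δ (h', (a', b')) : ℤ) : ZMod g)).card ≤
      π.G₀ / g + 1 := by
    refine le_trans (le_of_eq ?_) (class_count hg
      ((((π.block t δ p : ℤ) : ZMod g)) -
        ((π.tsum le_rfl δ (4 * t) h' + ((b' : ℕ) : ℤ) * (π.G₁ : ℤ) : ℤ) : ZMod g)))
    refine congrArg Finset.card (Finset.filter_congr fun a' _ => ?_)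
    show ((π.block t δ p : ℤ) : ZMod g) =
      (((π.tsum le_rfl δ (4 * t) h' + (((a' : ℕ) : ℤ) + ((b' : ℕ) : ℤ) * (π.G₁ : ℤ))) : ℤ) : ZMod g) ↔ _
    push_cast
    constructor <;> intro hh
    · rw [hh]; ring
    · rw [hh]; ring
  have h2 : (π.G₀ / g + 1) * g ≤ 2 * π.G₀ := by
    have := Nat.div_mul_le_self π.G₀ g
    rw [add_mul, one_mul]; omega
  calc ((Finset.univ.filter fun a' : Fin π.G₀ =>
      ((π.block t δ p : ℤ) : ZMod g) = ((π.block t δ (h', (a', b')) : ℤ) : ZMod g)).card : ℝ) * g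
      ≤ ((π.G₀ / g + 1 : ℕ) : ℝ) * g := by gcongr
    _ ≤ _ := by exact_mod_cast h2

lemma close_block_small (hB : 0 < π.B) (hP : 8 ≤ P + 1) {j : ℕ} (hj : 2 ^ j ≤ π.G₀)
    (δ : Choice P Q P) [Nonempty (π.Sample t)] :
    closeP (π.U / 2 ^ j) (π.block t δ) ≤ 7 / (2 : ℝ) ^ j := by
  classical
  have hG0 : (0 : ℝ) < π.G₀ := by exact_mod_cast pow_pos hB 8
  unfold closeP
  refine Finset.expect_le Finset.univ_nonempty fun p _ => ?_
  simp only [← Finset.univ_product_univ, Finset.expect_product]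
  have : Nonempty (Fin π.G₀) := ⟨⟨0, pow_pos hB 8⟩⟩
  have : Nonempty (Fin (4 * t) → Word P P) := ⟨p.1⟩
  refine Finset.expect_le Finset.univ_nonempty fun h' _ => ?_
  refine Finset.expect_le Finset.univ_nonempty fun a' _ => ?_
  rw [Fintype.expect_eq_sum_div_card, Finset.sum_boole, Fintype.card_fin,
    div_le_div_iff₀ hG0 (by positivity)]
  have hsub : (Finset.univ.filter fun b' : Fin π.G₀ =>
      (π.block t δ p - π.block t δ (h', (a', b'))).natAbs ≤ π.U / 2 ^ j).card ≤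
      2 * (π.U / 2 ^ j) / π.G₁ + 1 := by
    refine le_trans (le_of_eq ?_) (window_count (n := π.G₀) (pow_pos hB _) (π.U / 2 ^ j)
      (π.block t δ p - (π.tsum le_rfl δ (4 * t) h' + ((a' : ℕ) : ℤ))))
    refine congrArg Finset.card (Finset.filter_congr fun b' _ => ?_)
    show (π.block t δ p - (π.tsum le_rfl δ (4 * t) h' + (((a' : ℕ) : ℤ) + ((b' : ℕ) : ℤ) * (π.G₁ : ℤ)))).natAbs
      ≤ _ ↔ _
    rw [show π.block t δ p - (π.tsum le_rfl δ (4 * t) h' + (((a' : ℕ) : ℤ) + ((b' : ℕ) : ℤ) * (π.G₁ : ℤ)))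
      = π.block t δ p - (π.tsum le_rfl δ (4 * t) h' + ((a' : ℕ) : ℤ)) - ((b' : ℕ) : ℤ) * (π.G₁ : ℤ) by ring]
  have h2 : (2 * (π.U / 2 ^ j) / π.G₁ + 1) * 2 ^ j ≤ 7 * π.G₀ := by
    have e9 : π.G₀ * π.G₁ = π.B ^ (P + 1) := by rw [← pow_add]; congr 1; omega
    have a1 := Nat.div_mul_le_self (2 * (π.U / 2 ^ j)) π.G₁
    have a2 := Nat.div_mul_le_self π.U (2 ^ j)
    have a3 : 2 * (π.U / 2 ^ j) / π.G₁ * 2 ^ j * π.G₁ ≤ (6 * π.G₀) * π.G₁ := by
      calc 2 * (π.U / 2 ^ j) / π.G₁ * 2 ^ j * π.G₁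
          = (2 * (π.U / 2 ^ j) / π.G₁ * π.G₁) * 2 ^ j := by ring
        _ ≤ 2 * (π.U / 2 ^ j) * 2 ^ j := Nat.mul_le_mul_right _ a1
        _ = 2 * (π.U / 2 ^ j * 2 ^ j) := by ring
        _ ≤ 2 * π.U := Nat.mul_le_mul_left _ a2
        _ = _ := by rw [Nat.mul_assoc 6, e9]; show 2 * (3 * π.B ^ (P + 1)) = _; ring
    have a4 := Nat.le_of_mul_le_mul_right a3 (pow_pos hB _)
    rw [add_mul, one_mul]; omega
  calc ((Finset.univ.filter fun b' : Fin π.G₀ =>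
      (π.block t δ p - π.block t δ (h', (a', b'))).natAbs ≤ π.U / 2 ^ j).card : ℝ) * 2 ^ j
      ≤ ((2 * (π.U / 2 ^ j) / π.G₁ + 1 : ℕ) : ℝ) * 2 ^ j := by gcongr
    _ ≤ _ := by exact_mod_cast h2

lemma power_absorb {C t e i : ℕ} {x g : ℝ} (hx : x = (1 / 2 : ℝ) ^ t) (hg : g ≤ (2 : ℝ) ^ (C * t * (e + 1)))
    (hei : e + 1 ≤ 4 * i) (c : ℝ) (hc : 0 ≤ c) :
    (c * x ^ i) ^ (4 * C) * g ≤ c ^ (4 * C) := by
  have hxi : 0 ≤ (x ^ i) ^ (4 * C) := by rw [hx]; positivity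
  have h1 : (x ^ i) ^ (4 * C) * g ≤ 1 := by
    calc (x ^ i) ^ (4 * C) * g ≤ (x ^ i) ^ (4 * C) * (2 : ℝ) ^ (t * i * (4 * C)) := by
          refine mul_le_mul_of_nonneg_left (hg.trans (pow_le_pow_right₀ (by norm_num) ?_)) hxi
          calc C * t * (e + 1) ≤ C * t * (4 * i) := Nat.mul_le_mul_left _ hei
            _ = _ := by ring
      _ = 1 := by
          rw [hx, ← pow_mul, ← pow_mul, ← mul_assoc, ← mul_pow]
          norm_num
  calc (c * x ^ i) ^ (4 * C) * g = c ^ (4 * C) * ((x ^ i) ^ (4 * C) * g) := by rw [mul_pow]; ring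
    _ ≤ c ^ (4 * C) * 1 := mul_le_mul_of_nonneg_left h1 (by positivity)
    _ = _ := mul_one _

lemma sample_nonempty (h : Big π t C) : Nonempty (π.Sample t) := by
  have hP := h.hP8
  have hB : 0 < π.G₀ := pow_pos (by have := h.hB3; omega) 8
  exact ⟨(fun _ => (⟨0, by omega⟩, fun _ => true), (⟨0, hB⟩, ⟨0, hB⟩))⟩

/-- A block is equidistributed modulo every `g ≤ U`, with a power saving. -/
lemma block_mod [NeZero Q] (h : Big π t C) {g : ℕ} (hg : 0 < g) (hgU : g ≤ π.U) :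
    (𝔼 δ : Choice P Q P, coll g (π.block t δ)) ^ (4 * C) * (g : ℝ) ≤ 7 ^ (4 * C) := by
  have : Nonempty (π.Sample t) := π.sample_nonempty h
  have : Nonempty (Fin π.G₀ × Fin π.G₀) :=
    ⟨(Classical.arbitrary (π.Sample t)).2⟩
  have hP := h.hP8
  have hB := h.hB3
  have hC := h.hC
  have hg' : (1 : ℝ) ≤ g := by exact_mod_cast hg
  set p := 𝔼 δ : Choice P Q P, coll g (π.block t δ) with hp
  have hp0 : 0 ≤ p := Finset.expect_nonneg fun δ _ => coll_nonneg _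
  by_cases hs : g ≤ π.G₀
  · have h1 : p ≤ 2 / (g : ℝ) :=
      Finset.expect_le Finset.univ_nonempty fun δ _ => π.coll_block_small (by omega) hg hs δ
    calc p ^ (4 * C) * (g : ℝ) ≤ (2 / (g : ℝ)) ^ (4 * C) * (g : ℝ) ^ (4 * C) := by
          gcongr; exact le_self_pow₀ hg' (by omega)
      _ = 2 ^ (4 * C) := by rw [← mul_pow, div_mul_cancel₀ _ (by linarith : (g : ℝ) ≠ 0)]
      _ ≤ _ := by gcongr; norm_num
  push Not at hs
  haveI : NeZero g := ⟨hg.ne'⟩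
  set e := Nat.log π.B g with he
  have he1 : π.B ^ e ≤ g := Nat.pow_log_le_self _ hg.ne'
  have he2 : g < π.B ^ (e + 1) := Nat.lt_pow_succ_log_self (by omega) _
  have he8 : 8 ≤ e := Nat.le_log_of_pow_le (by omega) hs.le
  have hU : π.U < π.B ^ (P + 3) := by
    show 3 * π.B ^ (P + 1) < _
    rw [show P + 3 = (P + 1) + 2 by ring, pow_add π.B (P + 1) 2, mul_comm]
    exact Nat.mul_lt_mul_of_pos_left (by nlinarith) (pow_pos (by omega) _)
  have heP : e < P + 3 := (Nat.pow_lt_pow_iff_right (by omega : 1 < π.B)).1 (by omega)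
  set i := e / 2 - 1 with hi
  have hiP : i ≤ P := by omega
  have hgL : g < π.B ^ (P + 3 + 1) := by
    have : π.B ^ (P + 3) ≤ π.B ^ (P + 3 + 1) := Nat.pow_le_pow_right (by omega) (by omega)
    omega
  set x : ℝ := (1 / 2) ^ t with hx
  have hq := q_bound h.base i hiP
  have hbad := π.bad_bound (i := i) (W := 2 ^ (4 * t)) (e := e) hg hgL Nat.one_le_two_pow
    (by omega) he1 h.hQW
  set bad := 𝔼 d' : Hi P i → Bool → Fin Q,
      if Nat.gcd g (π.sufAll d') * π.B ^ (i + 1) ≤ g then (0 : ℝ) else 1 with hbad'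
  have hbad0 : 0 ≤ bad := Finset.expect_nonneg fun _ _ => by split_ifs <;> norm_num
  have hbad2 : bad ≤ 3 * x ^ i := by
    have hWr : (2 : ℝ) ^ (t * i) ≤ ((2 ^ (4 * t) : ℕ) : ℝ) ^ (e / 4) := by
      push_cast
      rw [← pow_mul]
      refine pow_le_pow_right₀ (by norm_num) ?_
      calc t * i ≤ t * (4 * (e / 4)) := Nat.mul_le_mul_left _ (by omega)
        _ = _ := by ring
    have h2 : (2 : ℝ) ^ (t * i) * bad ≤ 3 := le_trans (mul_le_mul_of_nonneg_right hWr hbad0) hbad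
    have h3 : x ^ i * (2 : ℝ) ^ (t * i) = 1 := by
      rw [hx, ← pow_mul, ← mul_pow]; norm_num
    calc bad = x ^ i * ((2 : ℝ) ^ (t * i) * bad) := by rw [← mul_assoc, h3, one_mul]
      _ ≤ x ^ i * 3 := mul_le_mul_of_nonneg_left h2 (by positivity)
      _ = _ := mul_comm _ _
  have hp2 : p ≤ 4 * x ^ i := by
    have := π.coll_big (E := Fin π.G₀ × Fin π.G₀) (i := i) (k := 4 * t) (by omega)
      (by have := h.base.two_le; omega) hiP h.hw (g := g)
      (fun q => ((q.1 : ℕ) : ℤ) + ((q.2 : ℕ) : ℤ) * (π.G₁ : ℤ))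
    have hpe : p ≤ π.q hiP (4 * t) + bad := this
    linarith
  have hgC : (g : ℝ) ≤ (2 : ℝ) ^ (C * t * (e + 1)) := by
    have : g ≤ (2 ^ (C * t)) ^ (e + 1) := he2.le.trans (Nat.pow_le_pow_left h.hBC _)
    rw [pow_mul]; exact_mod_cast this
  calc p ^ (4 * C) * (g : ℝ) ≤ (4 * x ^ i) ^ (4 * C) * (g : ℝ) := by gcongr
    _ ≤ 4 ^ (4 * C) := power_absorb hx hgC (by omega) 4 (by norm_num)
    _ ≤ _ := by gcongr; norm_num

/-- A block is spread out at every scale, with a power saving. -/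
lemma block_close [NeZero Q] (h : Big π t C) {j : ℕ} (hjU : 2 ^ j ≤ π.U) :
    (𝔼 δ : Choice P Q P, closeP (π.U / 2 ^ j) (π.block t δ)) ^ (4 * C) * (2 : ℝ) ^ j ≤
      7 ^ (4 * C) := by
  have : Nonempty (π.Sample t) := π.sample_nonempty h
  have : Nonempty (Fin π.G₀ × Fin π.G₀) :=
    ⟨(Classical.arbitrary (π.Sample t)).2⟩
  have hP := h.hP8
  have hB := h.hB3
  have hC := h.hC
  set p := 𝔼 δ : Choice P Q P, closeP (π.U / 2 ^ j) (π.block t δ) with hp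
  have hp0 : 0 ≤ p := Finset.expect_nonneg fun δ _ => closeP_nonneg _
  by_cases hs : 2 ^ j ≤ π.G₀
  · have h1 : p ≤ 7 / (2 : ℝ) ^ j :=
      Finset.expect_le Finset.univ_nonempty fun δ _ => π.close_block_small (by omega) (by omega) hs δ
    calc p ^ (4 * C) * (2 : ℝ) ^ j ≤ (7 / (2 : ℝ) ^ j) ^ (4 * C) * ((2 : ℝ) ^ j) ^ (4 * C) := by
          gcongr; exact le_self_pow₀ (one_le_pow₀ (by norm_num)) (by omega)
      _ = 7 ^ (4 * C) := by rw [← mul_pow, div_mul_cancel₀ _ (by positivity)]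
  push Not at hs
  set e := Nat.log π.B (2 ^ j) with he
  have he1 : π.B ^ e ≤ 2 ^ j := Nat.pow_log_le_self _ (by positivity)
  have he2 : 2 ^ j < π.B ^ (e + 1) := Nat.lt_pow_succ_log_self (by omega) _
  have he8 : 8 ≤ e := Nat.le_log_of_pow_le (by omega) hs.le
  have hU : π.U < π.B ^ (P + 3) := by
    show 3 * π.B ^ (P + 1) < _
    rw [show P + 3 = (P + 1) + 2 by ring, pow_add π.B (P + 1) 2, mul_comm]
    exact Nat.mul_lt_mul_of_pos_left (by nlinarith) (pow_pos (by omega) _)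
  have heP : e < P + 3 := (Nat.pow_lt_pow_iff_right (by omega : 1 < π.B)).1 (by omega)
  set i := e - 3 with hi
  have hiP : i ≤ P := by omega
  set x : ℝ := (1 / 2) ^ t with hx
  have hT : 2 * (π.U / 2 ^ j) < π.B ^ (P - i) := by
    refine Nat.lt_of_mul_lt_mul_right (a := π.B ^ e) ?_
    calc 2 * (π.U / 2 ^ j) * π.B ^ e ≤ 2 * (π.U / 2 ^ j) * 2 ^ j := Nat.mul_le_mul_left _ he1
      _ = 2 * (π.U / 2 ^ j * 2 ^ j) := by ring
      _ ≤ 2 * π.U := Nat.mul_le_mul_left _ (Nat.div_mul_le_self _ _)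
      _ = 6 * π.B ^ (P + 1) := by show 2 * (3 * π.B ^ (P + 1)) = _; ring
      _ < π.B ^ 2 * π.B ^ (P + 1) :=
          Nat.mul_lt_mul_of_pos_right (by nlinarith) (pow_pos (by omega) _)
      _ = π.B ^ (P - i) * π.B ^ e := by rw [← pow_add, ← pow_add]; congr 1; omega
  have hp2 : p ≤ 2 * x ^ i := by
    have := π.closeP_big (E := Fin π.G₀ × Fin π.G₀) (i := i) (k := 4 * t) (T := π.U / 2 ^ j)
      (by omega) (by have := h.base.two_le; omega) hiP hT
      (fun q => ((q.1 : ℕ) : ℤ) + ((q.2 : ℕ) : ℤ) * (π.G₁ : ℤ))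
    have hpe : p ≤ 2 * π.q hiP (4 * t) := this
    linarith [q_bound h.base i hiP]
  have hgC : (2 : ℝ) ^ j ≤ (2 : ℝ) ^ (C * t * (e + 1)) := by
    have : 2 ^ j ≤ (2 ^ (C * t)) ^ (e + 1) := he2.le.trans (Nat.pow_le_pow_left h.hBC _)
    rw [pow_mul]; exact_mod_cast this
  calc p ^ (4 * C) * (2 : ℝ) ^ j ≤ (2 * x ^ i) ^ (4 * C) * (2 : ℝ) ^ j := by gcongr
    _ ≤ 2 ^ (4 * C) := power_absorb hx hgC (by omega) 2 (by norm_num)
    _ ≤ _ := by gcongr; norm_num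

end Pools

end Vale.Agent.P012
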