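import Vale.Agent.P012.Law

/-!
Many primes in a short interval, by Chebyshev's bound and pigeonhole.
-/

open Finset
open scoped BigOperators

namespace Vale.Agent.P012

lemma primes_lower (n : ℕ) (hn : 4 ≤ n) :
    2 ^ n ≤ 2 * n * ((Finset.range (2 ^ n + 1)).filter Nat.Prime).card := by
  set c := ((Finset.range (2 ^ n + 1)).filter Nat.Prime).card
  have hc : Nat.primeCounting (2 ^ n) = c := by
    rw [Nat.primeCounting, Nat.primeCounting', Nat.count_eq_card_filter_range]
  have h := Chebyshev.pi_ge (2 ^ n)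
  rw [hc] at h
  have hl : 0 < Real.log 2 := Real.log_pos (by norm_num)
  have hn0 : (0 : ℝ) < n := by exact_mod_cast (show 0 < n by omega)
  push_cast at h
  rw [Real.log_pow, div_le_iff₀ (by positivity)] at h
  have hlog : Real.log ((2 : ℝ) ^ n + 1) ≤ ((n : ℝ) + 1) * Real.log 2 := by
    rw [show ((n : ℝ) + 1) = ((n + 1 : ℕ) : ℝ) by push_cast; ring, ← Real.log_pow]
    refine Real.log_le_log (by positivity) ?_
    rw [pow_succ]
    have : (1 : ℝ) ≤ 2 ^ n := one_le_pow₀ (by norm_num)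
    linarith
  have h2 : ((2 : ℝ) ^ n - (n + 1)) * Real.log 2 ≤ ((c : ℝ) * n) * Real.log 2 := by nlinarith
  have h3 := le_of_mul_le_mul_right h2 hl
  have h4 : 2 * (n + 1) ≤ 2 ^ n := by
    clear * - hn
    induction n, hn using Nat.le_induction with
    | base => norm_num
    | succ n hn ih => rw [pow_succ]; omega
  have h5 : (2 : ℝ) * (n + 1) ≤ 2 ^ n := by exact_mod_cast h4
  have h6 : (2 : ℝ) ^ n ≤ 2 * n * c := by linarith
  exact_mod_cast h6

/-- Pools exist for every `t ≥ 2`. -/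
theorem pools_exist (t : ℕ) (ht : 2 ≤ t) :
    ∃ π : Pools (2 ^ (8 * t)) (2 ^ (64 * t)), Big π t 256 ∧ 2 ^ (128 * t) ≤ π.B := by
  classical
  set P := 2 ^ (8 * t) with hP
  set Q := 2 ^ (64 * t) with hQ
  set w := 2 ^ (96 * t) with hw
  set S := ((Finset.range (2 ^ (256 * t) + 1)).filter Nat.Prime).filter
    fun p => 2 ^ (128 * t) ≤ p ∧ p < 2 ^ (256 * t) with hS
  have hbig : 4 * 2 ^ (232 * t) ≤ S.card := by
    have h1 := primes_lower (256 * t) (by omega)
    set all := ((Finset.range (2 ^ (256 * t) + 1)).filter Nat.Prime)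
    have h2 : all.card ≤ S.card + (2 ^ (128 * t) + 1) := by
      have hsub : all ⊆ S ∪ (insert (2 ^ (256 * t)) (Finset.range (2 ^ (128 * t)))) := by
        intro p hp
        have hp' : p < 2 ^ (256 * t) + 1 := Finset.mem_range.1 (Finset.mem_filter.1 hp).1
        by_cases hlow : p < 2 ^ (128 * t)
        · exact Finset.mem_union_right _ (Finset.mem_insert_of_mem (Finset.mem_range.2 hlow))
        by_cases htop : p = 2 ^ (256 * t)
        · exact Finset.mem_union_right _ (htop ▸ Finset.mem_insert_self _ _)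
        · refine Finset.mem_union_left _ (Finset.mem_filter.2 ⟨hp, by omega, by omega⟩)
      refine (Finset.card_le_card hsub).trans ((Finset.card_union_le _ _).trans ?_)
      exact Nat.add_le_add_left ((Finset.card_insert_le _ _).trans (by simp)) _
    have e1 : 2 ^ (232 * t) * 2 ^ (24 * t) = 2 ^ (256 * t) := by rw [← pow_add]; congr 1; omega
    have e2 : 2 ^ (128 * t) + 1 ≤ 2 ^ (232 * t) := by
      have : 2 ^ (128 * t) * 2 ≤ 2 ^ (232 * t) := by
        rw [← pow_succ]; exact Nat.pow_le_pow_right (by norm_num) (by omega)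
      have := Nat.one_le_two_pow (n := 128 * t)
      omega
    by_contra hcon
    push Not at hcon
    have h3 : all.card < 5 * 2 ^ (232 * t) := by omega
    exact absurd h1 (not_le.2 (by
      calc 2 * (256 * t) * all.card < 2 * (256 * t) * (5 * 2 ^ (232 * t)) :=
            Nat.mul_lt_mul_of_pos_left h3 (by omega)
        _ ≤ _ := by
            have h24 : 2 * (256 * t) * 5 ≤ 2 ^ (24 * t) := by
              have h1 : t < 2 ^ t := Nat.lt_two_pow_self
              calc 2 * (256 * t) * 5 ≤ 2 ^ 12 * 2 ^ t := by norm_num; omega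
                _ = 2 ^ (12 + t) := (pow_add _ _ _).symm
                _ ≤ _ := Nat.pow_le_pow_right (by norm_num) (by omega)
            calc 2 * (256 * t) * (5 * 2 ^ (232 * t)) = 2 ^ (232 * t) * (2 * (256 * t) * 5) := by ring
              _ ≤ 2 ^ (232 * t) * 2 ^ (24 * t) := Nat.mul_le_mul_left _ h24
              _ = _ := e1))
  have hslots : 3 * P * Q = 3 * 2 ^ (72 * t) := by
    rw [hP, hQ, mul_assoc, ← pow_add]; congr 2; omega
  obtain ⟨b, -, hb⟩ : ∃ b ∈ Finset.range (2 ^ (160 * t)),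
      3 * P * Q ≤ (S.filter fun p => p / w = b).card := by
    refine Finset.exists_le_card_fiber_of_mul_le_card_of_maps_to (fun p hp => ?_) ?_ ?_
    · have hp' := (Finset.mem_filter.1 hp).2.2
      refine Finset.mem_range.2 (Nat.div_lt_of_lt_mul ?_)
      rw [hw, ← pow_add, show 96 * t + 160 * t = 256 * t by omega]; exact hp'
    · exact ⟨0, Finset.mem_range.2 (Nat.two_pow_pos _)⟩
    · rw [Finset.card_range, hslots]
      calc 2 ^ (160 * t) * (3 * 2 ^ (72 * t)) = 3 * 2 ^ (232 * t) := by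
            rw [show 232 * t = 160 * t + 72 * t by omega, pow_add]; ring
        _ ≤ _ := by omega
  set T := S.filter fun p => p / w = b
  have hcard : Fintype.card (Slot P × Fin Q) = 3 * P * Q := by
    simp only [Fintype.card_prod, Fintype.card_sum, Fintype.card_fin, Fintype.card_bool]; ring
  obtain ⟨emb⟩ : Nonempty ((Slot P × Fin Q) ↪ {p // p ∈ T}) :=
    Function.Embedding.nonempty_of_card_le (by rw [hcard, Fintype.card_coe]; exact hb)
  have hmem : ∀ x, (emb x).1.Prime ∧ 2 ^ (128 * t) ≤ (emb x).1 ∧ (emb x).1 < 2 ^ (256 * t) ∧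
      b * w ≤ (emb x).1 ∧ (emb x).1 < b * w + w := by
    intro x
    obtain ⟨h1, h2⟩ := Finset.mem_filter.1 (emb x).2
    obtain ⟨h3, h4, h5⟩ := Finset.mem_filter.1 h1
    refine ⟨(Finset.mem_filter.1 h3).2, h4, h5, ?_, ?_⟩
    · rw [← h2]; exact Nat.div_mul_le_self _ _
    · rw [← h2]; exact Nat.lt_div_mul_add (Nat.two_pow_pos _)
  have hPpos : 0 < P := Nat.two_pow_pos _
  have hQpos : 0 < Q := Nat.two_pow_pos _
  let x0 : Slot P × Fin Q := (Sum.inl ⟨0, hPpos⟩, ⟨0, hQpos⟩)
  have hB : 2 ^ (128 * t) ≤ b * w := by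
    have h32 : 2 ^ (128 * t) = 2 ^ (32 * t) * w := by rw [hw, ← pow_add]; congr 1; omega
    have h1 : 2 ^ (32 * t) * w < (b + 1) * w := by
      have := hmem x0
      rw [add_mul, one_mul, ← h32]; omega
    rw [h32]
    exact Nat.mul_le_mul_right _ (Nat.lt_succ_iff.1 (Nat.lt_of_mul_lt_mul_right h1))
  have hBhi : b * w ≤ 2 ^ (256 * t) := by have := hmem x0; omega
  have hwB : w ≤ b * w := (Nat.pow_le_pow_right (by norm_num) (by omega)).trans hB
  have h128 : (2 : ℕ) ^ 256 ≤ b * w :=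
    (Nat.pow_le_pow_right (by norm_num) (by omega)).trans hB
  have h2B : 4 ≤ b * w := le_trans (by
    calc (4 : ℕ) = 2 ^ 2 := by norm_num
      _ ≤ 2 ^ 256 := Nat.pow_le_pow_right (by norm_num) (by norm_num)) h128
  refine ⟨⟨b * w, w, fun x => (emb x).1, fun x y h => emb.injective (Subtype.ext h),
    fun x => (hmem x).1, fun x => (hmem x).2.2.2.1, fun x => (hmem x).2.2.2.2, hwB, by omega⟩, ?_, hB⟩
  have ht2 : t < 2 ^ t := Nat.lt_two_pow_self
  refine ⟨⟨ht, le_rfl, ?_, ?_⟩, by norm_num, ?_, ?_, ?_, ?_, hBhi⟩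
  · calc (2 * P + 3) * 2 ^ (8 * t) ≤ (2 ^ 3 * P) * 2 ^ (8 * t) :=
          Nat.mul_le_mul_right _ (by norm_num; omega)
      _ = 2 ^ (3 + 8 * t + 8 * t) := by rw [hP, pow_add, pow_add]
      _ ≤ _ := Nat.pow_le_pow_right (by norm_num) (by omega)
  · show 4 * t ≤ b * w
    calc 4 * t ≤ 2 ^ 2 * 2 ^ t := by norm_num; omega
      _ = 2 ^ (2 + t) := (pow_add _ _ _).symm
      _ ≤ 2 ^ (128 * t) := Nat.pow_le_pow_right (by norm_num) (by omega)
      _ ≤ _ := hB
  · calc 8 = 2 ^ 3 := by norm_num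
      _ ≤ _ := Nat.pow_le_pow_right (by norm_num) (by omega)
  · calc 2 * P * (2 ^ (4 * t) * (P + 3)) ≤ 2 * P * (2 ^ (4 * t) * (2 ^ 2 * P)) := by
          gcongr; norm_num; omega
      _ = 2 ^ (1 + 8 * t + (4 * t + (2 + 8 * t))) := by
          rw [hP, pow_add, pow_add, pow_add, pow_add]; ring
      _ ≤ _ := Nat.pow_le_pow_right (by norm_num) (by omega)
  · show 4 * t * (2 * (P + 1) * w) < b * w
    calc 4 * t * (2 * (P + 1) * w) ≤ 2 ^ 2 * 2 ^ t * (2 ^ 1 * (2 ^ 1 * P) * w) := by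
          gcongr <;> norm_num <;> omega
      _ = 2 ^ (2 + t + (1 + (1 + 8 * t) + 96 * t)) := by
          rw [hP, hw, pow_add, pow_add, pow_add, pow_add, pow_add]
      _ < 2 ^ (128 * t) := Nat.pow_lt_pow_right (by norm_num) (by omega)
      _ ≤ _ := hB
  · show 3 ≤ b * w; omega

end Vale.Agent.P012
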