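import Mathlib

/-!
Sums of few divisors, and the passage from a dense set to an interval.
-/

open Finset
open scoped BigOperators

namespace Vale.Agent.P012

/-- `n` is a sum of at most `h` divisors of `N`, repetition allowed. -/
def Reps (N h n : ℕ) : Prop :=
  ∃ l : List ℕ, l.length ≤ h ∧ (∀ d ∈ l, d ∣ N) ∧ l.sum = n

lemma reps_zero (N h : ℕ) : Reps N h 0 := ⟨[], Nat.zero_le _, by simp, rfl⟩

lemma Reps.add {N h h' n n' : ℕ} (a : Reps N h n) (b : Reps N h' n') :
    Reps N (h + h') (n + n') := by
  obtain ⟨l, h1, h2, rfl⟩ := a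
  obtain ⟨l', h1', h2', rfl⟩ := b
  refine ⟨l ++ l', by simp; omega, fun d hd => ?_, by simp⟩
  rcases List.mem_append.1 hd with hd | hd
  · exact h2 d hd
  · exact h2' d hd

lemma Reps.mono {N h h' n : ℕ} (a : Reps N h n) (hh : h ≤ h') : Reps N h' n := by
  obtain ⟨l, h1, h2, h3⟩ := a
  exact ⟨l, h1.trans hh, h2, h3⟩

lemma reps_ones (N e : ℕ) : Reps N e e :=
  ⟨List.replicate e 1, by simp, fun d hd => by simp [(List.mem_replicate.1 hd).2], by simp⟩

lemma reps_of_dvd {N d : ℕ} (h : d ∣ N) : Reps N 1 d := ⟨[d], by simp, by simpa using h, by simp⟩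

lemma Reps.scale {N h n : ℕ} (a : Reps N h n) (c : ℕ) : Reps (N * c) h (n * c) := by
  obtain ⟨l, h1, h2, rfl⟩ := a
  refine ⟨l.map (· * c), by simpa using h1, fun d hd => ?_, by rw [List.sum_map_mul_right, List.map_id']⟩
  obtain ⟨d', hd', rfl⟩ := List.mem_map.1 hd
  exact Nat.mul_dvd_mul_right (h2 d' hd') c

lemma Reps.of_dvd_right {N N' h n : ℕ} (a : Reps N h n) (hN : N ∣ N') : Reps N' h n := by
  obtain ⟨l, h1, h2, h3⟩ := a
  exact ⟨l, h1, fun d hd => (h2 d hd).trans hN, h3⟩

lemma reps_finsum {ι : Type*} (s : Finset ι) {N h : ℕ} (f : ι → ℕ) (hf : ∀ i ∈ s, Reps N h (f i)) :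
    Reps N (s.card * h) (∑ i ∈ s, f i) := by
  classical
  induction s using Finset.induction_on with
  | empty => simpa using reps_zero N 0
  | insert i s hi ih =>
    rw [Finset.sum_insert hi, Finset.card_insert_of_notMem hi, add_mul, one_mul, add_comm (_ * h)]
    exact (hf i (Finset.mem_insert_self _ _)).add
      (ih fun j hj => hf j (Finset.mem_insert_of_mem hj))

/-- Binary expansion. -/
lemma reps_binary {N c : ℕ} : ∀ (b n : ℕ), n < 2 ^ b → (c * 2 ^ b) ∣ N → Reps N b (c * n) := by
  intro b
  induction b with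
  | zero => intro n hn _; simpa [show n = 0 by simpa using hn] using reps_zero N 0
  | succ b ih =>
    intro n hn hN
    have hN' : c * 2 ^ b ∣ N := dvd_trans (Nat.mul_dvd_mul_left _ (pow_dvd_pow 2 (Nat.le_succ b))) hN
    rcases lt_or_ge n (2 ^ b) with h | h
    · exact (ih n h hN').mono (Nat.le_succ _)
    · have h2 : n - 2 ^ b < 2 ^ b := by rw [pow_succ] at hn; omega
      have := (ih _ h2 hN').add (reps_of_dvd hN')
      rwa [← Nat.mul_add, Nat.sub_add_cancel h] at this

section Interval

variable {E M : ℕ}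

/-- Counting function on `[1, n]`. -/
noncomputable def cnt (S : ℕ → Prop) (n : ℕ) : ℕ :=
  letI := Classical.decPred S
  ((Finset.Icc 1 n).filter S).card

lemma cnt_le (S : ℕ → Prop) (n : ℕ) : cnt S n ≤ n := by
  classical
  unfold cnt
  refine (Finset.card_filter_le _ _).trans ?_
  simp

lemma cnt_zero (S : ℕ → Prop) : cnt S 0 = 0 := Nat.le_zero.1 (cnt_le S 0)

lemma cnt_succ {n : ℕ} (S : ℕ → Prop) [Decidable (S (n + 1))] :
    cnt S (n + 1) = cnt S n + if S (n + 1) then 1 else 0 := by
  classical
  unfold cnt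
  rw [← Finset.insert_Icc_right_eq_Icc_add_one (by omega : (1 : ℕ) ≤ n + 1), Finset.filter_insert]
  split_ifs with h
  · rw [Finset.card_insert_of_notMem (by simp)]
  · simp

/-- Sums of two sets. -/
def addSet (S T : ℕ → Prop) : ℕ → Prop := fun n => ∃ a b, S a ∧ T b ∧ a + b = n

/-- The gap argument of Schnirelmann. -/
lemma gap (S T : ℕ → Prop) (hS : S 0) (hT : T 0)
    (hT' : ∀ x, x < M → x ≤ E * cnt T x) :
    ∀ n, n < M → n + E * cnt S n ≤ E * cnt (addSet S T) n + cnt S n := by
  classical
  intro n
  induction n using Nat.strong_induction_on with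
  | _ n ih =>
    intro hn
    rcases Nat.eq_zero_or_pos n with rfl | hpos
    · simp [cnt_zero]
    by_cases hSn : S n
    · obtain ⟨m, rfl⟩ : ∃ m, n = m + 1 := ⟨n - 1, by omega⟩
      have h1 := ih m (by omega) (by omega)
      have h2 : addSet S T (m + 1) := ⟨m + 1, 0, hSn, hT, rfl⟩
      rw [cnt_succ S, cnt_succ (addSet S T), if_pos hSn, if_pos h2, Nat.mul_add, Nat.mul_add]
      omega
    · have hne : ((Finset.range n).filter S).Nonempty := ⟨0, by simp [hpos, hS]⟩
      set a := ((Finset.range n).filter S).max' hne with ha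
      obtain ⟨han, hSa⟩ : a < n ∧ S a := by
        have := ((Finset.range n).filter S).max'_mem hne
        rw [Finset.mem_filter, Finset.mem_range] at this
        exact this
      have h1 := ih a han (by omega)
      have h2 := hT' (n - a) (by omega)
      have hSeq : cnt S n = cnt S a := by
        unfold cnt
        congr 1
        ext y
        simp only [Finset.mem_filter, Finset.mem_Icc]
        refine ⟨fun hy => ⟨⟨hy.1.1, ?_⟩, hy.2⟩, fun hy => ⟨⟨hy.1.1, by omega⟩, hy.2⟩⟩
        rcases hy.1.2.lt_or_eq with hlt | heq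
        · exact Finset.le_max' _ y (by simp [hlt, hy.2])
        · exact absurd (heq ▸ hy.2) hSn
      have h3 : cnt (addSet S T) a + cnt T (n - a) ≤ cnt (addSet S T) n := by
        unfold cnt
        rw [← Finset.card_image_of_injective ((Finset.Icc 1 (n - a)).filter T) (add_right_injective a),
          ← Finset.card_union_of_disjoint]
        · refine Finset.card_le_card fun y hy => ?_
          simp only [Finset.mem_union, Finset.mem_filter, Finset.mem_Icc, Finset.mem_image] at hy ⊢
          rcases hy with hy | ⟨z, hz, rfl⟩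
          · exact ⟨⟨hy.1.1, by omega⟩, hy.2⟩
          · exact ⟨⟨by omega, by omega⟩, a, z, hSa, hz.2, rfl⟩
        · rw [Finset.disjoint_left]
          intro y hy hy'
          simp only [Finset.mem_filter, Finset.mem_Icc, Finset.mem_image] at hy hy'
          obtain ⟨z, hz, rfl⟩ := hy'
          omega
      rw [hSeq]
      calc n + E * cnt S a = (n - a) + (a + E * cnt S a) := by omega
        _ ≤ E * cnt T (n - a) + (E * cnt (addSet S T) a + cnt S a) := Nat.add_le_add h2 h1
        _ = E * (cnt (addSet S T) a + cnt T (n - a)) + cnt S a := by ring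
        _ ≤ _ := Nat.add_le_add_right (Nat.mul_le_mul_left _ h3) _

lemma bernoulli_nat (a : ℕ) : ∀ r : ℕ, a ^ r * (a + r) ≤ (a + 1) ^ r * a := by
  intro r
  induction r with
  | zero => simp
  | succ r ih =>
    calc a ^ (r + 1) * (a + (r + 1)) ≤ a ^ r * (a + r) * (a + 1) := by
          rw [pow_succ, mul_assoc, mul_assoc]
          exact Nat.mul_le_mul_left _ (by nlinarith)
      _ ≤ (a + 1) ^ r * a * (a + 1) := Nat.mul_le_mul_right _ ih
      _ = _ := by ring

/-- A set of positive density is a basis of bounded order. -/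
lemma bounded_basis (T : ℕ → Prop) (hE : 2 ≤ E) (hT : T 0)
    (hT' : ∀ x, x < M → x ≤ E * cnt T x) (P : ℕ → ℕ → Prop)
    (hP0 : P 0 0) (hPadd : ∀ r n y, P r n → T y → P (r + 1) (n + y))
    (hPsum : ∀ r n r' n', P r n → P r' n' → P (r + r') (n + n')) :
    ∀ n, n < M → P (2 * E) n := by
  classical
  have hP0r : ∀ r, P r 0 := by
    intro r
    induction r with
    | zero => exact hP0
    | succ r ih => simpa using hPadd r 0 0 ih hT
  obtain ⟨a, rfl⟩ : ∃ a, E = a + 1 := ⟨E - 1, by omega⟩
  have main : ∀ r n, n < M → (n - cnt (P r) n) * (a + 1) ^ r ≤ n * a ^ r := by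
    intro r
    induction r with
    | zero => intro n _; simp
    | succ r ih =>
      intro n hn
      have h1 := gap (P r) T (hP0r r) hT hT' n hn
      have h2 : cnt (addSet (P r) T) n ≤ cnt (P (r + 1)) n := by
        unfold cnt
        refine Finset.card_le_card fun y hy => ?_
        simp only [Finset.mem_filter] at hy ⊢
        obtain ⟨hy1, u, v, hu, hv, rfl⟩ := hy
        exact ⟨hy1, hPadd r u v hu hv⟩
      have h3 : (n - cnt (P (r + 1)) n) * (a + 1) ≤ (n - cnt (P r) n) * a := by
        have c1 := cnt_le (P r) n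
        have c2 := cnt_le (P (r + 1)) n
        have c3 := Nat.mul_le_mul_left (a + 1) h2
        obtain ⟨u, hu⟩ := Nat.exists_eq_add_of_le c1
        obtain ⟨v, hv⟩ := Nat.exists_eq_add_of_le c2
        rw [show n - cnt (P (r + 1)) n = v by omega, show n - cnt (P r) n = u by omega]
        nlinarith
      calc (n - cnt (P (r + 1)) n) * (a + 1) ^ (r + 1)
          = ((n - cnt (P (r + 1)) n) * (a + 1)) * (a + 1) ^ r := by ring
        _ ≤ ((n - cnt (P r) n) * a) * (a + 1) ^ r := Nat.mul_le_mul_right _ h3
        _ = ((n - cnt (P r) n) * (a + 1) ^ r) * a := by ring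
        _ ≤ n * a ^ r * a := Nat.mul_le_mul_right _ (ih n hn)
        _ = _ := by ring
  intro n hn
  have h2a : 2 * a ^ (a + 1) ≤ (a + 1) ^ (a + 1) := by
    have h := bernoulli_nat a (a + 1)
    refine Nat.le_of_mul_le_mul_right ?_ (show 0 < a by omega)
    calc 2 * a ^ (a + 1) * a = a ^ (a + 1) * (a + a) := by ring
      _ ≤ a ^ (a + 1) * (a + (a + 1)) := Nat.mul_le_mul_left _ (by omega)
      _ ≤ _ := h
  have hc : 2 * (n - cnt (P (a + 1)) n) ≤ n := by
    refine Nat.le_of_mul_le_mul_right ?_ (pow_pos (show 0 < a + 1 by omega) (a + 1))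
    calc 2 * (n - cnt (P (a + 1)) n) * (a + 1) ^ (a + 1)
        = 2 * ((n - cnt (P (a + 1)) n) * (a + 1) ^ (a + 1)) := by ring
      _ ≤ 2 * (n * a ^ (a + 1)) := Nat.mul_le_mul_left _ (main _ n hn)
      _ = n * (2 * a ^ (a + 1)) := by ring
      _ ≤ _ := Nat.mul_le_mul_left _ h2a
  set F := (Finset.range (n + 1)).filter (P (a + 1)) with hF
  have hcard : cnt (P (a + 1)) n + 1 ≤ F.card := by
    have : insert 0 ((Finset.Icc 1 n).filter (P (a + 1))) ⊆ F := by
      intro y hy
      simp only [hF, Finset.mem_insert, Finset.mem_filter, Finset.mem_Icc, Finset.mem_range] at hy ⊢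
      rcases hy with rfl | hy
      · exact ⟨by omega, hP0r _⟩
      · exact ⟨by omega, hy.2⟩
    have := Finset.card_le_card this
    rw [Finset.card_insert_of_notMem (by simp)] at this
    exact this
  set F' := F.image (fun y => n - y) with hF'
  have hcard' : F'.card = F.card := by
    refine Finset.card_image_of_injOn fun y hy z hz h => ?_
    simp only [hF, Finset.coe_filter, Finset.mem_range, Set.mem_ofPred_eq] at hy hz
    omega
  have hinter : (F ∩ F').Nonempty := by
    rw [← Finset.card_pos]
    have hu : (F ∪ F').card ≤ n + 1 := by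
      refine (Finset.card_le_card (Finset.union_subset (Finset.filter_subset _ _) ?_)).trans
        (Finset.card_range _).le
      intro y hy
      obtain ⟨z, -, rfl⟩ := Finset.mem_image.1 hy
      simp
    have := Finset.card_union_add_card_inter F F'
    omega
  obtain ⟨y, hy⟩ := hinter
  obtain ⟨hy1, hy2⟩ := Finset.mem_inter.1 hy
  obtain ⟨z, hz, hzy⟩ := Finset.mem_image.1 hy2
  simp only [hF, Finset.mem_filter, Finset.mem_range] at hy1 hz
  have := hPsum _ y _ z hy1.2 hz.2
  rwa [← two_mul, show y + z = n by omega] at this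

/-- A dense set yields all integers of an interval as short sums. -/
theorem interval_of_dense {N h base L D : ℕ} (A : Finset ℕ) (hD : 1 ≤ D) (hL : 1 ≤ L)
    (hA : A ⊆ Finset.range L) (hcard : L ≤ D * A.card) (hrep : ∀ a ∈ A, Reps N h (base + a)) :
    ∃ z, ∀ n, z ≤ n → n < z + L → Reps N (2 * D * (8 * D * (h + 4 * D)) + 2 * D) n := by
  classical
  let c : ℕ → ℕ := fun x => (A.filter (· < x)).card
  let F : ℕ → ℤ := fun x => 2 * (D : ℤ) * (c x : ℤ) - (x : ℤ)
  obtain ⟨s, hs, hmin⟩ := Finset.exists_min_image (Finset.range (L + 1)) F ⟨0, by simp⟩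
  have hsL : s ≤ L := Nat.lt_succ_iff.1 (Finset.mem_range.1 hs)
  have hcL : c L = A.card := by
    show (A.filter (· < L)).card = _
    rw [Finset.filter_true_of_mem fun a ha => Finset.mem_range.1 (hA ha)]
  have hmul : (L : ℤ) ≤ (D : ℤ) * (c L : ℤ) := by rw [hcL]; exact_mod_cast hcard
  have hF0 : F s ≤ 0 := by
    have := hmin 0 (by simp)
    simpa [F, c] using this
  let seg : ℕ → ℕ := fun x => (A.filter fun a => s ≤ a ∧ a < x).card
  have hseg : ∀ x, s ≤ x → c x = c s + seg x := by
    intro x hx
    show (A.filter (· < x)).card = (A.filter (· < s)).card + (A.filter fun a => s ≤ a ∧ a < x).card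
    rw [← Finset.card_union_of_disjoint]
    · congr 1
      ext a
      simp only [Finset.mem_filter, Finset.mem_union]
      constructor
      · intro ha
        by_cases h : a < s
        · exact Or.inl ⟨ha.1, h⟩
        · exact Or.inr ⟨ha.1, by omega, ha.2⟩
      · rintro (ha | ha)
        · exact ⟨ha.1, by omega⟩
        · exact ⟨ha.1, ha.2.2⟩
    · rw [Finset.disjoint_left]
      intro a ha hb
      simp only [Finset.mem_filter] at ha hb
      omega
  have hsegge : ∀ x, s ≤ x → x ≤ L → x - s ≤ 2 * D * seg x := by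
    intro x hx hxL
    have h1 := hmin x (Finset.mem_range.2 (by omega))
    simp only [F, hseg x hx] at h1
    push_cast at h1
    have : ((x - s : ℕ) : ℤ) ≤ ((2 * D * seg x : ℕ) : ℤ) := by
      push_cast [Nat.cast_sub hx]; linarith
    exact_mod_cast this
  set M := L - s with hM
  have hMD : L ≤ 2 * D * M := by
    have h1 : (L : ℤ) + (L - s : ℕ) ≤ 2 * (D : ℤ) * (seg L : ℤ) := by
      simp only [F] at hF0
      rw [hseg L hsL] at hmul
      push_cast at hmul
      push_cast [Nat.cast_sub hsL]
      linarith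
    have h2 : seg L ≤ M := by
      refine le_trans (Finset.card_le_card (t := Finset.Ico s L) fun a ha => ?_) (by simp [hM])
      simp only [Finset.mem_filter] at ha
      simp [ha.2]
    have h3 : (2 : ℤ) * D * (seg L : ℤ) ≤ 2 * D * (M : ℤ) :=
      mul_le_mul_of_nonneg_left (by exact_mod_cast h2) (by positivity)
    have h4 : (L : ℤ) ≤ ((2 * D * M : ℕ) : ℤ) := by
      push_cast; linarith [show (0 : ℤ) ≤ ((L - s : ℕ) : ℤ) from Int.natCast_nonneg _]
    exact_mod_cast h4
  have hM0 : 0 < M := by
    rcases Nat.eq_zero_or_pos M with h0 | h0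
    · rw [h0] at hMD; omega
    · exact h0
  have hsA : s ∈ A := by
    have h1 := hsegge (s + 1) (by omega) (by omega)
    have hne : (A.filter fun a => s ≤ a ∧ a < s + 1).Nonempty := by
      rw [← Finset.card_pos]
      rcases Nat.eq_zero_or_pos (seg (s + 1)) with h0 | h0
      · rw [h0] at h1; simp at h1
      · exact h0
    obtain ⟨a, ha⟩ := hne
    simp only [Finset.mem_filter] at ha
    rw [show s = a by omega]; exact ha.1
  let T : ℕ → Prop := fun y => ∃ a ∈ A, ∃ j, j ≤ 4 * D ∧ s ≤ a ∧ y = (a - s) + j
  have hT0 : T 0 := ⟨s, hsA, 0, Nat.zero_le _, le_rfl, by simp⟩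
  have hT' : ∀ x, x < M → x ≤ 4 * D * cnt T x := by
    intro x hx
    rcases le_or_gt x (4 * D) with hx4 | hx4
    · have : cnt T x = x := by
        refine le_antisymm (cnt_le T x) ?_
        unfold cnt
        calc x = (Finset.Icc 1 x).card := by simp
          _ ≤ _ := Finset.card_le_card fun y hy => by
              have hy' := Finset.mem_Icc.1 hy
              simp only [Finset.mem_filter]
              exact ⟨hy, s, hsA, y, by omega, le_rfl, by simp⟩
      rw [this]; exact Nat.le_mul_of_pos_left _ (by omega)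
    · have h1 := hsegge (s + (x + 1)) (by omega) (by omega)
      have h2 : seg (s + (x + 1)) ≤ cnt T x + 1 := by
        unfold cnt
        calc seg (s + (x + 1)) ≤ (insert s (((Finset.Icc 1 x).filter T).image (s + ·))).card := by
              refine Finset.card_le_card fun a ha => ?_
              simp only [Finset.mem_filter] at ha
              simp only [Finset.mem_insert, Finset.mem_image, Finset.mem_filter, Finset.mem_Icc]
              by_cases has : a = s
              · exact Or.inl has
              · exact Or.inr ⟨a - s, ⟨⟨by omega, by omega⟩, a, ha.1, 0, Nat.zero_le _, ha.2.1,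
                  by simp⟩, by omega⟩
          _ ≤ _ := (Finset.card_insert_le _ _).trans (Nat.add_le_add_right (Finset.card_image_le.trans (le_of_eq (by congr))) _)
      have h3 := Nat.mul_le_mul_left (2 * D) h2
      rw [Nat.mul_add, mul_one] at h3
      have h4 : 4 * D * cnt T x = 2 * (2 * D * cnt T x) := by ring
      omega
  let hh := h + 4 * D
  let Z := base + s
  have hTrep : ∀ y, T y → Reps N hh (Z + y) := by
    rintro y ⟨a, ha, j, hj, hsa, rfl⟩
    have := (hrep a ha).add ((reps_ones N j).mono hj)
    rwa [show base + a + j = Z + (a - s + j) by simp only [Z]; omega] at this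
  let P : ℕ → ℕ → Prop := fun r n => Reps N (r * hh) (r * Z + n)
  have hbasis := bounded_basis (E := 4 * D) (M := M) T (by omega) hT0 hT' P
    (by simpa [P] using reps_zero N 0)
    (fun r n y hn hy => by
      have := (show Reps N (r * hh) (r * Z + n) from hn).add (hTrep y hy)
      simpa [P, Nat.succ_mul, add_assoc, add_comm, add_left_comm] using this)
    (fun r n r' n' hn hn' => by
      have := (show Reps N (r * hh) (r * Z + n) from hn).add (show Reps N (r' * hh) (r' * Z + n') from hn')
      simpa [P, Nat.add_mul, add_assoc, add_comm, add_left_comm] using this)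
  have hq : ∀ q y, y ≤ q * (M - 1) → Reps N (q * (8 * D * hh)) (q * (8 * D * Z) + y) := by
    intro q
    induction q with
    | zero => intro y hy; simp only [Nat.zero_mul, Nat.le_zero] at hy; subst hy; simpa using reps_zero N 0
    | succ q ih =>
      intro y hy
      rw [Nat.succ_mul] at hy
      have h1 : min y (M - 1) < M := by omega
      have h2 : y - min y (M - 1) ≤ q * (M - 1) := by omega
      have hb : Reps N (2 * (4 * D) * hh) (2 * (4 * D) * Z + min y (M - 1)) := hbasis _ h1
      rw [show 2 * (4 * D) = 8 * D by ring] at hb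
      have := (ih _ h2).add hb
      rw [show (q + 1) * (8 * D * hh) = q * (8 * D * hh) + 8 * D * hh by ring,
        show (q + 1) * (8 * D * Z) = q * (8 * D * Z) + 8 * D * Z by ring]
      rwa [show q * (8 * D * Z) + (y - min y (M - 1)) + (8 * D * Z + min y (M - 1))
        = q * (8 * D * Z) + 8 * D * Z + y by omega] at this
  refine ⟨2 * D * (8 * D * Z), fun n hn1 hn2 => ?_⟩
  obtain ⟨y, rfl⟩ := Nat.exists_eq_add_of_le hn1
  have hy : y < L := by omega
  set q := 2 * D
  have hqM : q * M = q * (M - 1) + q := by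
    conv_lhs => rw [show M = (M - 1) + 1 by omega, Nat.mul_add, mul_one]
  have := (hq q (min y (q * (M - 1))) (min_le_right _ _)).add
    ((reps_ones N (y - min y (q * (M - 1)))).mono (show _ ≤ q by omega))
  rwa [show q * (8 * D * Z) + min y (q * (M - 1)) + (y - min y (q * (M - 1)))
    = q * (8 * D * Z) + y by omega] at this

end Interval

end Vale.Agent.P012
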