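import Vale.Agent.P012.Dilation
import Vale.Agent.P012.Law
import Vale.Agent.P012.Reps
import Vale.Agent.P012.PoolExist

/-!
Windows: long intervals of integers that are sums of `O(log log)` divisors of one integer.
-/

open Finset
open scoped BigOperators

namespace Vale.Agent.P012

/-- Window length for parameter `t`. -/
def winLen (t : ℕ) : ℕ := 2 ^ (t * 2 ^ (8 * t))

lemma image_card_lb {κ : Type*} [Fintype κ] [Nonempty κ] (f : κ → ℤ) :
    1 ≤ ((Finset.univ.image f).card : ℝ) * collZ f := by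
  have h1 : ∑ e ∈ Finset.univ.image f, mass f e = 1 := by
    have := expect_comp f (fun _ => (1 : ℝ))
    simpa using this.symm
  rw [collZ_eq_mass]
  calc (1 : ℝ) = (∑ e ∈ Finset.univ.image f, mass f e) ^ 2 := by rw [h1]; norm_num
    _ ≤ _ := sq_sum_le_card_mul_sum_sq

namespace Pools

variable {P Q : ℕ} (π : Pools P Q)

/-- The product of all chosen primes. -/
def allPrimes (δ : Choice P Q P) : ℕ :=
  (∏ h : Fin P, π.el (Sum.inl h, δ.1 h)) *
    ∏ z : Fin P × Bool, π.el (Sum.inr z, δ.2 z.1 z.2)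

lemma val_dvd_allPrimes (δ : Choice P Q P) (ω : Word P P) :
    π.val le_rfl δ ω ∣ π.allPrimes δ := by
  unfold val allPrimes
  refine mul_dvd_mul (Finset.dvd_prod_of_mem (fun h : Fin P => π.el (Sum.inl h, δ.1 h))
    (Finset.mem_univ ω.1)) ?_
  rw [← Finset.univ_product_univ, Finset.prod_product]
  refine Finset.prod_dvd_prod_of_dvd _ _ fun j _ => ?_
  rw [Fintype.prod_bool]
  cases h : ω.2 j <;> simp

lemma allPrimes_le (δ : Choice P Q P) : π.allPrimes δ ≤ (2 * π.B) ^ (3 * P) := by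
  unfold allPrimes
  calc _ ≤ (2 * π.B) ^ (Finset.univ : Finset (Fin P)).card *
        (2 * π.B) ^ (Finset.univ : Finset (Fin P × Bool)).card :=
        Nat.mul_le_mul (Finset.prod_le_pow_card _ _ _ fun _ _ => π.el_le _)
          (Finset.prod_le_pow_card _ _ _ fun _ _ => π.el_le _)
    _ = _ := by
        rw [← pow_add]; congr 1
        simp only [Finset.card_univ, Fintype.card_prod, Fintype.card_fin, Fintype.card_bool]; ring

end Pools

theorem block_aux (C : ℕ)
    (hex : ∀ t, 2 ≤ t → ∃ π : Pools (2 ^ (8 * t)) (2 ^ (64 * t)), Big π t C ∧ 2 ^ (128 * t) ≤ π.B) :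
    ∃ K : ℕ, 1 ≤ K ∧ ∀ t, 2 ≤ t → ∃ N z : ℕ, 1 ≤ N ∧ N ≤ winLen t ^ K ∧
      ∀ n, z ≤ n → n < z + winLen t → Reps N (K * t) n := by
  classical
  set m := 4 * C with hm
  set R := 6 * m with hR
  set κ : ℕ := 64 * (7 ^ m) ^ 6 + 2 ^ (R + 1) * (4 * (7 ^ m) ^ 6) with hκ
  set D := (2 * R + 1) * κ with hDdef
  set K₁ := R * (4 + 16 * C) with hK₁
  refine ⟨R * (20 * C) + (2 * D * (8 * D * (K₁ + 4 * D)) + 2 * D) + 1, by omega, fun t ht => ?_⟩
  have hext := hex t ht
  set P := 2 ^ (8 * t) with hP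
  set Q := 2 ^ (64 * t) with hQ
  obtain ⟨π, hbig, hB128⟩ := hext
  haveI : NeZero Q := ⟨(Nat.two_pow_pos _).ne'⟩
  have : Nonempty (π.Sample t) := π.sample_nonempty hbig
  have hC := hbig.hC
  have hB3 := hbig.hB3
  have hU : 0 < π.U := Nat.mul_pos (by norm_num) (pow_pos (by omega) _)
  obtain ⟨δ, w, hcoll⟩ := dilation (U := π.U) (π.block t) m ((7 : ℝ) ^ m) (by positivity) hU
    (π.block_diff hbig) (fun g h1 h2 => π.block_mod hbig h1 h2) (fun j h => π.block_close hbig h)
  set f := comb (π.block t) δ w with hf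
  let blkN : Fin (6 * m) → π.Sample t → ℕ := fun r p =>
    (∑ j, π.val le_rfl (δ r) (p.1 j)) + ((p.2.1 : ℕ) + (p.2.2 : ℕ) * π.G₁)
  let fN : (Fin (6 * m) → π.Sample t) → ℕ := fun ω => ∑ r, (π.U + (w r : ℕ)) * blkN r (ω r)
  have hfN : ∀ ω, f ω = (fN ω : ℤ) := by
    intro ω
    simp only [hf, comb, fN, blkN, Pools.block, Pools.tsum]
    push_cast
    rfl
  obtain ⟨ω₀, -, hmin⟩ := Finset.exists_min_image (Finset.univ : Finset (Fin (6 * m) → π.Sample t))
    fN Finset.univ_nonempty
  set base := fN ω₀ with hbase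
  set A := Finset.univ.image fun ω => fN ω - base with hA
  set L := R * (2 * π.U * π.U) + 1 with hL
  have hAL : A ⊆ Finset.range L := by
    intro a ha
    obtain ⟨ω, -, rfl⟩ := Finset.mem_image.1 ha
    rw [Finset.mem_range]
    have h1 : f ω - f ω₀ ≤ ((R * (2 * π.U * π.U) : ℕ) : ℤ) := by
      rw [hf, comb, comb, ← Finset.sum_sub_distrib]
      refine (Finset.sum_le_sum fun r _ =>
        (?_ : _ ≤ ((2 * π.U * π.U : ℕ) : ℤ))).trans (le_of_eq ?_)
      · rw [← mul_sub]
        have h2 := π.block_diff hbig (δ r) (ω r) (ω₀ r)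
        have h3 : π.block t (δ r) (ω r) - π.block t (δ r) (ω₀ r) ≤ (π.U : ℤ) := by omega
        have h4 := (w r).2
        push_cast
        calc ((π.U : ℤ) + ((w r : ℕ) : ℤ)) * (π.block t (δ r) (ω r) - π.block t (δ r) (ω₀ r))
            ≤ ((π.U : ℤ) + ((w r : ℕ) : ℤ)) * (π.U : ℤ) :=
              mul_le_mul_of_nonneg_left h3 (by positivity)
          _ ≤ _ := by
              have h5 : ((w r : ℕ) : ℤ) < (π.U : ℤ) := by exact_mod_cast h4
              push_cast at h5 ⊢
              refine mul_le_mul_of_nonneg_right ?_ (by positivity)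
              linarith
      · simp [hR]
    rw [hfN, hfN] at h1
    omega
  have hcard : L ≤ D * A.card := by
    have hinj : A.card = (Finset.univ.image f).card := by
      rw [hA, show (fun ω => fN ω - base) = (fun y : ℤ => y.toNat - base) ∘ f by
        funext ω; simp [hfN], ← Finset.image_image]
      refine Finset.card_image_of_injOn fun y hy y' hy' h => ?_
      obtain ⟨ω, -, rfl⟩ := Finset.mem_image.1 hy
      obtain ⟨ω', -, rfl⟩ := Finset.mem_image.1 hy'
      simp only [hfN, Int.toNat_natCast] at h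
      have a1 := hmin ω (Finset.mem_univ _)
      have a2 := hmin ω' (Finset.mem_univ _)
      rw [hfN, hfN]
      omega
    have h1 := image_card_lb f
    rw [← hinj] at h1
    have hUr : (0 : ℝ) < π.U := by exact_mod_cast hU
    have h2 : (π.U : ℝ) ^ 2 ≤ (A.card : ℝ) * (κ : ℝ) := by
      have h3 : (1 : ℝ) ≤ (A.card : ℝ) * ((κ : ℝ) / (π.U : ℝ) ^ 2) := by
        refine h1.trans (mul_le_mul_of_nonneg_left (hcoll.trans (le_of_eq ?_)) (by positivity))
        rw [hκ, hR]; push_cast; ring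
      rw [← mul_div_assoc, le_div_iff₀ (by positivity), one_mul] at h3
      exact h3
    have h4 : π.U ^ 2 ≤ A.card * κ := by exact_mod_cast h2
    have h5 : 1 ≤ π.U ^ 2 := Nat.one_le_pow _ _ hU
    calc L ≤ (2 * R + 1) * π.U ^ 2 := by rw [hL, add_mul, one_mul, sq]; nlinarith
      _ ≤ (2 * R + 1) * (A.card * κ) := Nat.mul_le_mul_left _ h4
      _ = _ := by rw [hDdef]; ring
  set bits := 8 * C * t with hbits
  set N := ∏ r : Fin (6 * m),
    π.allPrimes (δ r) * (π.U + (w r : ℕ)) * (π.G₁ * 2 ^ bits) with hN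
  have hG0 : π.G₀ ≤ 2 ^ bits := by
    calc π.G₀ ≤ (2 ^ (C * t)) ^ 8 := Nat.pow_le_pow_left hbig.hBC 8
      _ = _ := by rw [← pow_mul, hbits]; ring_nf
  have hrep : ∀ a ∈ A, Reps N (K₁ * t) (base + a) := by
    intro a ha
    obtain ⟨ω, -, rfl⟩ := Finset.mem_image.1 ha
    rw [Nat.add_sub_cancel' (hmin ω (Finset.mem_univ _))]
    have hterm : ∀ r ∈ (Finset.univ : Finset (Fin (6 * m))),
        Reps N (4 * t + 2 * bits) ((π.U + (w r : ℕ)) * blkN r (ω r)) := by
      intro r _
      set c := π.U + (w r : ℕ) with hc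
      have hd : π.allPrimes (δ r) * c * (π.G₁ * 2 ^ bits) ∣ N :=
        Finset.dvd_prod_of_mem (fun r => π.allPrimes (δ r) * (π.U + (w r : ℕ)) * (π.G₁ * 2 ^ bits))
          (Finset.mem_univ r)
      have h1 : Reps N (4 * t) (∑ j, c * π.val le_rfl (δ r) ((ω r).1 j)) := by
        have := reps_finsum (Finset.univ : Finset (Fin (4 * t))) (N := N) (h := 1)
          (fun j => c * π.val le_rfl (δ r) ((ω r).1 j)) (fun j _ => reps_of_dvd (dvd_trans ?_ hd))
        · simpa using this
        · rw [mul_comm c]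
          exact dvd_mul_of_dvd_left (mul_dvd_mul_right (π.val_dvd_allPrimes _ _) _) _
      have h2 : Reps N bits (c * ((ω r).2.1 : ℕ)) :=
        reps_binary bits _ (lt_of_lt_of_le (ω r).2.1.2 hG0)
          (dvd_trans (mul_dvd_mul (Dvd.intro_left _ rfl) (Dvd.intro_left _ rfl)) hd)
      have h3 : Reps N bits (c * π.G₁ * ((ω r).2.2 : ℕ)) := by
        refine reps_binary bits _ (lt_of_lt_of_le (ω r).2.2.2 hG0) (dvd_trans ?_ hd)
        rw [mul_assoc c, mul_assoc (π.allPrimes (δ r)) c]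
        exact dvd_mul_left _ _
      have h4 := h1.add (h2.add h3)
      rw [← two_mul bits] at h4
      convert h4 using 1
      simp only [blkN, ← hc]
      rw [Nat.mul_add, Finset.mul_sum, Nat.mul_add]
      ring
    have := reps_finsum Finset.univ (fun r => (π.U + (w r : ℕ)) * blkN r (ω r)) hterm
    refine this.mono (le_of_eq ?_)
    rw [Finset.card_univ, Fintype.card_fin, hK₁, hR, hbits]; ring
  have hD1 : 1 ≤ D := Nat.mul_pos (by omega) (Nat.add_pos_left (by positivity) _)
  obtain ⟨z, hz⟩ := interval_of_dense A hD1 (by omega) hAL hcard hrep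
  have hwin : winLen t ≤ L := by
    have e1 : winLen t ≤ π.B ^ (P + 1) := by
      calc winLen t = 2 ^ (t * P) := rfl
        _ ≤ (2 ^ (128 * t)) ^ (P + 1) := by
            rw [← pow_mul]
            exact Nat.pow_le_pow_right (by norm_num)
              (Nat.mul_le_mul (by omega) (Nat.le_succ P))
        _ ≤ _ := Nat.pow_le_pow_left hB128 _
    have e2 : π.B ^ (P + 1) ≤ π.U := Nat.le_mul_of_pos_left _ (by norm_num)
    have e3 : π.U ≤ R * (2 * π.U * π.U) := by
      calc π.U ≤ 2 * π.U * π.U := Nat.le_mul_of_pos_left _ (by omega)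
        _ ≤ _ := Nat.le_mul_of_pos_left _ (by omega)
    omega
  refine ⟨N, z, ?_, ?_, fun n h1 h2 => (hz n h1 (by omega)).mono ?_⟩
  · exact Finset.prod_pos fun r _ =>
      Nat.mul_pos (Nat.mul_pos (Nat.mul_pos (Finset.prod_pos fun _ _ => π.el_pos _)
        (Finset.prod_pos fun _ _ => π.el_pos _)) (by omega))
        (Nat.mul_pos (pow_pos (by omega) _) (Nat.two_pow_pos _))
  · have hP256 : 256 ≤ P := by
      calc 256 = 2 ^ 8 := by norm_num
        _ ≤ _ := Nat.pow_le_pow_right (by norm_num) (by omega)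
    have hfac : ∀ r, π.allPrimes (δ r) * (π.U + (w r : ℕ)) * (π.G₁ * 2 ^ bits) ≤
        2 ^ (20 * C * (t * P)) := by
      intro r
      have hBC := hbig.hBC
      have a1 : π.allPrimes (δ r) ≤ 2 ^ ((1 + C * t) * (3 * P)) := by
        refine (π.allPrimes_le _).trans ?_
        rw [pow_mul (2 : ℕ)]
        refine Nat.pow_le_pow_left ?_ _
        rw [pow_add]; omega
      have a2 : π.U + (w r : ℕ) ≤ 2 ^ (3 + C * t * (P + 1)) := by
        have := (w r).2
        have e : π.B ^ (P + 1) ≤ 2 ^ (C * t * (P + 1)) := by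
          rw [pow_mul]; exact Nat.pow_le_pow_left hBC _
        have e' : π.U + (w r : ℕ) ≤ 2 ^ 3 * π.B ^ (P + 1) := by
          have : (w r : ℕ) < 3 * π.B ^ (P + 1) := this
          show 3 * π.B ^ (P + 1) + (w r : ℕ) ≤ _
          omega
        rw [pow_add]; exact e'.trans (Nat.mul_le_mul_left _ e)
      have a3 : π.G₁ ≤ 2 ^ (C * t * (P + 1)) := by
        rw [pow_mul]
        exact (Nat.pow_le_pow_right (by omega) (by omega)).trans (Nat.pow_le_pow_left hBC _)
      refine (Nat.mul_le_mul (Nat.mul_le_mul a1 a2) (Nat.mul_le_mul_right _ a3)).trans ?_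
      rw [← pow_add, ← pow_add, ← pow_add]
      refine Nat.pow_le_pow_right (by norm_num) ?_
      rw [hbits]
      have q1 : 256 * (C * t) ≤ C * (t * P) := by
        calc 256 * (C * t) = C * (t * 256) := by ring
          _ ≤ _ := by gcongr
      have q2 : P ≤ C * (t * P) := by
        calc P = 1 * (1 * P) := by ring
          _ ≤ _ := by gcongr; omega
      have q3 : 1 ≤ C * t := Nat.mul_pos (by omega) (by omega)
      calc (1 + C * t) * (3 * P) + (3 + C * t * (P + 1)) + (C * t * (P + 1) + 8 * C * t)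
          = 3 * P + 5 * (C * (t * P)) + 10 * (C * t) + 3 := by ring
        _ ≤ 20 * (C * (t * P)) := by omega
        _ = _ := by ring
    calc N ≤ (2 ^ (20 * C * (t * P))) ^ (6 * m) := by
          refine (Finset.prod_le_pow_card _ _ _ fun r _ => hfac r).trans ?_
          simp
      _ = winLen t ^ (R * (20 * C)) := by
          rw [winLen, ← pow_mul, ← pow_mul, hR, hP]; congr 1; ring
      _ ≤ _ := Nat.pow_le_pow_right (Nat.two_pow_pos _) (by omega)
  · calc 2 * D * (8 * D * (K₁ * t + 4 * D)) + 2 * D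
        ≤ 2 * D * (8 * D * (K₁ * t + 4 * D * t)) + 2 * D * t := by
          refine Nat.add_le_add (Nat.mul_le_mul_left _ (Nat.mul_le_mul_left _
            (Nat.add_le_add_left (Nat.le_mul_of_pos_right _ (by omega)) _))) ?_
          exact Nat.le_mul_of_pos_right _ (by omega)
      _ = (2 * D * (8 * D * (K₁ + 4 * D)) + 2 * D) * t := by ring
      _ ≤ _ := Nat.mul_le_mul_right _ (by omega)

/-- Windows exist. -/
theorem window : ∃ K : ℕ, 1 ≤ K ∧ ∀ t, 2 ≤ t → ∃ N z : ℕ, 1 ≤ N ∧ N ≤ winLen t ^ K ∧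
      ∀ n, z ≤ n → n < z + winLen t → Reps N (K * t) n :=
  block_aux 256 pools_exist

end Vale.Agent.P012
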