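import Vale.Agent.P012.Design

/-!
Power saving for the collision probability of short sums of random prime products.
-/

open Finset
open scoped BigOperators ComplexConjugate

namespace Vale.Agent.P012

lemma split_ineq (a b : ℝ) (ha : 0 ≤ a) (hb : 0 ≤ b) (t : ℕ) :
    ((a + b) / 2) ^ (8 * t) ≤
      (1 / 2) ^ (3 * t) * (a ^ (8 * t) + b ^ (8 * t)) + 2 ^ (4 * t) * (a ^ (4 * t) * b ^ (4 * t)) := by
  wlog hab : b ≤ a generalizing a b with H
  · have := H b a hb ha (le_of_not_ge hab)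
    rw [add_comm b a, add_comm (b ^ (8 * t)), mul_comm (b ^ (4 * t))] at this
    exact this
  have h0 : 0 ≤ (1 / 2 : ℝ) ^ (3 * t) * (a ^ (8 * t) + b ^ (8 * t)) := by positivity
  have h0' : 0 ≤ (2 : ℝ) ^ (4 * t) * (a ^ (4 * t) * b ^ (4 * t)) := by positivity
  rcases le_or_gt (2 * b) a with h | h
  · calc ((a + b) / 2) ^ (8 * t) ≤ (3 / 4 * a) ^ (8 * t) :=
          pow_le_pow_left₀ (by positivity) (by linarith) _
      _ = ((3 / 4 : ℝ) ^ 8) ^ t * a ^ (8 * t) := by rw [mul_pow, ← pow_mul]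
      _ ≤ ((1 / 2 : ℝ) ^ 3) ^ t * a ^ (8 * t) := by
          gcongr; norm_num
      _ = (1 / 2 : ℝ) ^ (3 * t) * a ^ (8 * t) := by rw [← pow_mul]
      _ ≤ _ := by
          have : 0 ≤ (1 / 2 : ℝ) ^ (3 * t) * b ^ (8 * t) := by positivity
          nlinarith
  · calc ((a + b) / 2) ^ (8 * t) ≤ a ^ (8 * t) :=
          pow_le_pow_left₀ (by positivity) (by linarith) _
      _ = a ^ (4 * t) * a ^ (4 * t) := by rw [← pow_add]; ring_nf
      _ ≤ a ^ (4 * t) * (2 * b) ^ (4 * t) := by gcongr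
      _ = 2 ^ (4 * t) * (a ^ (4 * t) * b ^ (4 * t)) := by rw [mul_pow]; ring
      _ ≤ _ := by linarith

section Cross

variable {κ : Type*} [Fintype κ]

/-- The weight of the value `e`. -/
noncomputable def mass (E : κ → ℤ) (e : ℤ) : ℝ := 𝔼 r, if E r = e then 1 else 0

lemma expect_comp (E : κ → ℤ) (g : ℤ → ℝ) :
    (𝔼 r, g (E r)) = ∑ e ∈ Finset.univ.image E, mass E e * g e := by
  simp only [mass, Finset.expect_mul, ite_mul, one_mul, zero_mul]
  rw [← Finset.expect_sum_comm]
  refine Finset.expect_congr rfl fun r _ => ?_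
  simp

lemma collZ_eq_mass (E : κ → ℤ) :
    collZ E = ∑ e ∈ Finset.univ.image E, mass E e ^ 2 := by
  have : collZ E = 𝔼 r, mass E (E r) := by
    refine Finset.expect_congr rfl fun r _ => Finset.expect_congr rfl fun r' _ => ?_
    exact if_congr eq_comm rfl rfl
  rw [this, expect_comp E (mass E)]
  simp [sq]

lemma mass_nonneg (E : κ → ℤ) (e : ℤ) : 0 ≤ mass E e :=
  Finset.expect_nonneg fun r _ => by split_ifs <;> norm_num

lemma cross_single (E : κ → ℤ) {u v : ℕ} (hu : u.Prime) (hv : v.Prime) (huv : u ≠ v) :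
    (𝔼 r, 𝔼 s, if (u : ℤ) * E r + (v : ℤ) * E s = 0 then (1 : ℝ) else 0) ≤
      mass E 0 ^ 2 + ∑ e ∈ (Finset.univ.image E).erase 0, mass E e ^ 2 *
        (((if (v : ℤ) ∣ e then 1 else 0) + (if (u : ℤ) ∣ e then 1 else 0)) / 2) := by
  classical
  set S := Finset.univ.image E with hS
  set m := mass E with hm
  have hu0 : (u : ℤ) ≠ 0 := by exact_mod_cast hu.ne_zero
  have hv0 : (v : ℤ) ≠ 0 := by exact_mod_cast hv.ne_zero
  have hdvd : ∀ {e f : ℤ}, (u : ℤ) * e + (v : ℤ) * f = 0 → (v : ℤ) ∣ e ∧ (u : ℤ) ∣ f := by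
    intro e f h
    constructor
    · exact ((Nat.prime_iff_prime_int.1 hv).dvd_mul.1
        ⟨-f, by linear_combination h⟩).resolve_left fun h' => huv
          ((Nat.prime_dvd_prime_iff_eq hv hu).1 (Int.natCast_dvd_natCast.1 h')).symm
    · exact ((Nat.prime_iff_prime_int.1 hu).dvd_mul.1
        ⟨-e, by linear_combination h⟩).resolve_left fun h' => huv
          ((Nat.prime_dvd_prime_iff_eq hu hv).1 (Int.natCast_dvd_natCast.1 h'))
  let rel : ℤ → ℤ → ℝ := fun e f => if (u : ℤ) * e + (v : ℤ) * f = 0 then 1 else 0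
  have hfull : (𝔼 r, 𝔼 s, rel (E r) (E s)) = ∑ e ∈ S, ∑ f ∈ S, m e * (m f * rel e f) := by
    rw [Finset.expect_congr rfl fun r _ => expect_comp E (rel (E r))]
    rw [expect_comp E (fun e => ∑ f ∈ S, m f * rel e f)]
    simp [Finset.mul_sum, hm, hS]
  have hm0 : ∀ e, 0 ≤ m e := mass_nonneg E
  have hrow : ∀ e, e ≠ 0 → ∑ f ∈ S, rel e f ≤ if (v : ℤ) ∣ e then 1 else 0 := by
    intro e he
    by_cases h : ∃ f ∈ S, (u : ℤ) * e + (v : ℤ) * f = 0
    · obtain ⟨f, hf, h⟩ := h
      rw [if_pos (hdvd h).1, Finset.sum_eq_single_of_mem f hf]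
      · simp only [rel]; split_ifs <;> norm_num
      · intro f' _ hne
        refine if_neg fun h' => hne (mul_left_cancel₀ hv0 ?_)
        linarith
    · push Not at h
      rw [Finset.sum_eq_zero fun f hf => if_neg (h f hf)]
      split_ifs <;> norm_num
  have hcol : ∀ f, f ≠ 0 → ∑ e ∈ S, rel e f ≤ if (u : ℤ) ∣ f then 1 else 0 := by
    intro f hf
    by_cases h : ∃ e ∈ S, (u : ℤ) * e + (v : ℤ) * f = 0
    · obtain ⟨e, he, h⟩ := h
      rw [if_pos (hdvd h).2, Finset.sum_eq_single_of_mem e he]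
      · simp only [rel]; split_ifs <;> norm_num
      · intro e' _ hne
        refine if_neg fun h' => hne (mul_left_cancel₀ hu0 ?_)
        linarith
    · push Not at h
      rw [Finset.sum_eq_zero fun e he => if_neg (h e he)]
      split_ifs <;> norm_num
  have hsplit : ∀ e f, m e * (m f * rel e f) ≤
      (if e = 0 then (if f = 0 then m 0 ^ 2 else 0) else 0) +
      (if e = 0 then 0 else m e ^ 2 * rel e f / 2) + (if f = 0 then 0 else m f ^ 2 * rel e f / 2) := by
    intro e f
    simp only [rel]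
    by_cases h : (u : ℤ) * e + (v : ℤ) * f = 0
    · rcases eq_or_ne e 0 with rfl | he
      · have : f = 0 := by simpa [hv.ne_zero] using h
        subst this; simp [sq]
      · have hf : f ≠ 0 := fun hf => he (by simpa [hf, hu.ne_zero] using h)
        simp only [h, if_true, he, hf, if_false, mul_one, zero_add]
        nlinarith [sq_nonneg (m e - m f)]
    · simp only [h, if_false, mul_zero, zero_div]
      split_ifs <;> positivity
  calc (𝔼 r, 𝔼 s, if (u : ℤ) * E r + (v : ℤ) * E s = 0 then (1 : ℝ) else 0)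
      = ∑ e ∈ S, ∑ f ∈ S, m e * (m f * rel e f) := hfull
    _ ≤ ∑ e ∈ S, ∑ f ∈ S, ((if e = 0 then (if f = 0 then m 0 ^ 2 else 0) else 0) +
      (if e = 0 then 0 else m e ^ 2 * rel e f / 2) + (if f = 0 then 0 else m f ^ 2 * rel e f / 2)) :=
        Finset.sum_le_sum fun e _ => Finset.sum_le_sum fun f _ => hsplit e f
    _ ≤ m 0 ^ 2 + ∑ e ∈ S.erase 0, m e ^ 2 * ((if (v : ℤ) ∣ e then 1 else 0) / 2)
          + ∑ f ∈ S.erase 0, m f ^ 2 * ((if (u : ℤ) ∣ f then 1 else 0) / 2) := by
        simp only [Finset.sum_add_distrib]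
        refine add_le_add (add_le_add ?_ ?_) ?_
        · have h2 : 0 ≤ m 0 ^ 2 := sq_nonneg _
          by_cases h : (0 : ℤ) ∈ S <;> simp [Finset.sum_ite_eq', h, h2]
        · have e1 : ∀ e, ∑ f ∈ S, (if e = 0 then 0 else m e ^ 2 * rel e f / 2) =
              if e = 0 then 0 else m e ^ 2 * ((∑ f ∈ S, rel e f) / 2) := by
            intro e; split_ifs <;> simp [Finset.mul_sum, Finset.sum_div, mul_div_assoc]
          simp only [e1, ← Finset.filter_ne', Finset.sum_filter]
          refine Finset.sum_le_sum fun e _ => ?_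
          by_cases he : e = 0
          · simp [he]
          · rw [if_neg he, if_pos he]
            exact mul_le_mul_of_nonneg_left
              (div_le_div_of_nonneg_right (hrow e he) (by norm_num)) (sq_nonneg _)
        · rw [Finset.sum_comm]
          have e1 : ∀ f, ∑ e ∈ S, (if f = 0 then 0 else m f ^ 2 * rel e f / 2) =
              if f = 0 then 0 else m f ^ 2 * ((∑ e ∈ S, rel e f) / 2) := by
            intro f; split_ifs <;> simp [Finset.mul_sum, Finset.sum_div, mul_div_assoc]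
          simp only [e1, ← Finset.filter_ne', Finset.sum_filter]
          refine Finset.sum_le_sum fun f _ => ?_
          by_cases hf : f = 0
          · simp [hf]
          · rw [if_neg hf, if_pos hf]
            exact mul_le_mul_of_nonneg_left
              (div_le_div_of_nonneg_right (hcol f hf) (by norm_num)) (sq_nonneg _)
    _ = _ := by
        rw [add_assoc, ← Finset.sum_add_distrib]
        congr 1
        exact Finset.sum_congr rfl fun e _ => by ring

/-- Averaged over two prime slots, two scaled copies rarely collide. -/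
lemma cross_bound {Q : ℕ} [NeZero Q] (F : κ → ℤ) (U V : Fin Q → ℕ) (hU : ∀ x, (U x).Prime)
    (hV : ∀ y, (V y).Prime) (hUV : ∀ x y, U x ≠ V y) (L : ℕ)
    (hLU : ∀ p p', F p - F p' ≠ 0 →
      (Finset.univ.filter fun x => (U x : ℤ) ∣ F p - F p').card ≤ L)
    (hLV : ∀ p p', F p - F p' ≠ 0 →
      (Finset.univ.filter fun y => (V y : ℤ) ∣ F p - F p').card ≤ L) :
    (𝔼 x, 𝔼 y, collZ (fun p : κ × κ => (U x : ℤ) * F p.1 + (V y : ℤ) * F p.2)) ≤
      collZ F ^ 2 + (L : ℝ) / Q * collZ (fun r : κ × κ => F r.1 - F r.2) := by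
  classical
  set E : κ × κ → ℤ := fun r => F r.1 - F r.2 with hE
  have hQ : (0 : ℝ) < Q := by exact_mod_cast NeZero.pos Q
  have hconv : ∀ u v : ℤ, collZ (fun p : κ × κ => u * F p.1 + v * F p.2) =
      𝔼 r, 𝔼 s, if u * E r + v * E s = 0 then (1 : ℝ) else 0 := by
    intro u v
    unfold collZ
    simp only [← Finset.univ_product_univ, Finset.expect_product, hE]
    refine Finset.expect_congr rfl fun a _ => ?_
    rw [Finset.expect_comm]
    refine Finset.expect_congr rfl fun a' _ => Finset.expect_congr rfl fun b _ =>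
      Finset.expect_congr rfl fun b' _ => if_congr ?_ rfl rfl
    constructor <;> intro h <;> linear_combination h
  have h0 : mass E 0 = collZ F := by
    unfold mass collZ
    simp only [← Finset.univ_product_univ, Finset.expect_product, hE, sub_eq_zero]
  have hcount : ∀ (W : Fin Q → ℕ) (e : ℤ),
      (Finset.univ.filter fun x => (W x : ℤ) ∣ e).card ≤ L →
      (𝔼 x, if (W x : ℤ) ∣ e then (1 : ℝ) else 0) ≤ (L : ℝ) / Q := by
    intro W e h
    rw [Fintype.expect_eq_sum_div_card, Finset.sum_boole, Fintype.card_fin]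
    gcongr
  calc (𝔼 x, 𝔼 y, collZ (fun p : κ × κ => (U x : ℤ) * F p.1 + (V y : ℤ) * F p.2))
      ≤ 𝔼 x, 𝔼 y, (mass E 0 ^ 2 + ∑ e ∈ (Finset.univ.image E).erase 0, mass E e ^ 2 *
        (((if (V y : ℤ) ∣ e then 1 else 0) + (if (U x : ℤ) ∣ e then 1 else 0)) / 2)) := by
        refine Finset.expect_le_expect fun x _ => Finset.expect_le_expect fun y _ => ?_
        rw [hconv]
        exact cross_single E (hU x) (hV y) (hUV x y)
    _ = mass E 0 ^ 2 + ∑ e ∈ (Finset.univ.image E).erase 0, mass E e ^ 2 *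
        (((𝔼 y, if (V y : ℤ) ∣ e then 1 else 0) + (𝔼 x, if (U x : ℤ) ∣ e then 1 else 0)) / 2) := by
        simp only [Finset.expect_add_distrib, Fintype.expect_const, Finset.expect_sum_comm,
          ← Finset.mul_expect, ← Finset.expect_div]
    _ ≤ collZ F ^ 2 + ∑ e ∈ (Finset.univ.image E).erase 0, mass E e ^ 2 * ((L : ℝ) / Q) := by
        rw [h0]
        refine add_le_add le_rfl (Finset.sum_le_sum fun e he => ?_)
        refine mul_le_mul_of_nonneg_left ?_ (sq_nonneg _)
        obtain ⟨hne, hmem⟩ := Finset.mem_erase.1 he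
        obtain ⟨r, -, rfl⟩ := Finset.mem_image.1 hmem
        have a1 := hcount V (E r) (hLV r.1 r.2 hne)
        have a2 := hcount U (E r) (hLU r.1 r.2 hne)
        linarith
    _ ≤ _ := by
        rw [← Finset.sum_mul, mul_comm (∑ e ∈ _, mass E e ^ 2), collZ_eq_mass E]
        refine add_le_add le_rfl (mul_le_mul_of_nonneg_left ?_ (by positivity))
        exact Finset.sum_le_sum_of_subset_of_nonneg (Finset.erase_subset _ _)
          fun e _ _ => sq_nonneg _

end Cross

lemma moment_ineq (z l : ℝ) (hz : 0 ≤ z) (hl : 0 < l) (n : ℕ) :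
    z ^ (n + 1) ≤ z ^ (n + 2) / l + l ^ n * z := by
  rcases le_or_gt l z with h | h
  · have : z ^ (n + 1) ≤ z ^ (n + 2) / l := by
      rw [le_div_iff₀ hl, pow_succ z (n + 1)]
      exact mul_le_mul_of_nonneg_left h (by positivity)
    nlinarith [pow_pos hl n]
  · have : z ^ (n + 1) ≤ l ^ n * z := by
      rw [pow_succ]; gcongr
    have : 0 ≤ z ^ (n + 2) / l := by positivity
    linarith

lemma expect_fin_succ {α : Type*} [Fintype α] {i : ℕ} (f : (Fin (i + 1) → α) → ℝ) :
    (𝔼 d, f d) = 𝔼 d' : Fin i → α, 𝔼 a : α, f (Fin.snoc d' a) := by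
  rw [← Fintype.expect_equiv (Fin.snocEquiv fun _ => α) (fun p => f (Fin.snoc p.2 p.1)) f
    (fun _ => rfl), ← Finset.univ_product_univ, Finset.expect_product, Finset.expect_comm]

namespace Pools

variable {P Q : ℕ} (π : Pools P Q)

lemma abs_tsum_le {i : ℕ} (hi : i ≤ P) (δ : Choice P Q i) (k : ℕ) (h : Fin k → Word P i) :
    0 ≤ π.tsum hi δ k h ∧ π.tsum hi δ k h ≤ (k : ℤ) * (2 * π.B : ℤ) ^ (i + 1) := by
  refine ⟨Finset.sum_nonneg fun j _ => Int.natCast_nonneg _, ?_⟩
  calc π.tsum hi δ k h ≤ ∑ _j : Fin k, (2 * π.B : ℤ) ^ (i + 1) :=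
        Finset.sum_le_sum fun j _ => by exact_mod_cast π.val_le hi δ (h j)
    _ = _ := by simp

lemma q_nonneg {i : ℕ} (hi : i ≤ P) (k : ℕ) : 0 ≤ π.q hi k :=
  Finset.expect_nonneg fun δ _ => Finset.expect_nonneg fun a _ =>
    Finset.expect_nonneg fun b _ => by split_ifs <;> norm_num

lemma val_snoc {i : ℕ} (hi : i + 1 ≤ P) (a : Fin P → Fin Q) (d : Fin i → Bool → Fin Q)
    (p : Bool → Fin Q) (ω : Word P i) (b : Bool) :
    π.val hi (a, Fin.snoc d p) (ω.1, Fin.snoc ω.2 b) =
      π.el (Sum.inr (⟨i, hi⟩, b), p b) * π.val (Nat.le_of_succ_le hi) (a, d) ω := by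
  unfold val
  rw [Fin.prod_univ_castSucc]
  simp only [Fin.snoc_castSucc, Fin.snoc_last]
  have h1 : Fin.castLE hi (Fin.last i) = (⟨i, hi⟩ : Fin P) := rfl
  have h2 : ∀ j : Fin i, Fin.castLE hi j.castSucc = Fin.castLE (Nat.le_of_succ_le hi) j :=
    fun j => rfl
  rw [h1]
  simp only [h2]
  ring

end Pools

end Vale.Agent.P012
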