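import Vale.Agent.P012.Fourier

/-!
Random products of primes, one prime from each slot.
-/

open Finset
open scoped BigOperators ComplexConjugate

namespace Vale.Agent.P012

/-- The probability that two independent samples of `f` are equal. -/
noncomputable def collZ {ι : Type*} [Fintype ι] (f : ι → ℤ) : ℝ :=
  𝔼 i, 𝔼 i', if f i = f i' then 1 else 0

lemma coll_eq_collZ {ι : Type*} [Fintype ι] {M : ℕ} (f : ι → ℤ) (H : ℤ)
    (hf : ∀ i, |f i| ≤ H) (hM : 2 * H < (M : ℤ)) : coll M f = collZ f := by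
  refine Finset.expect_congr rfl fun i _ => Finset.expect_congr rfl fun i' _ => ?_
  refine if_congr ⟨fun h => ?_, fun h => by rw [h]⟩ rfl rfl
  rw [ZMod.intCast_eq_intCast_iff_dvd_sub] at h
  have h1 := abs_le.1 (hf i)
  have h2 := abs_le.1 (hf i')
  have := Int.eq_zero_of_abs_lt_dvd h (by rw [abs_lt]; constructor <;> linarith)
  linarith

lemma collZ_scale {ι : Type*} [Fintype ι] (f : ι → ℤ) {u : ℤ} (hu : u ≠ 0) :
    collZ (fun i => u * f i) = collZ f := by
  simp only [collZ, mul_right_inj' hu]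

lemma collZ_of_injective {ι : Type*} [Fintype ι] (f : ι → ℤ) (hf : Function.Injective f) :
    collZ f = 1 / (Fintype.card ι : ℝ) := by
  classical
  have h : ∀ i i', (if f i = f i' then (1 : ℝ) else 0) = if i = i' then 1 else 0 :=
    fun i i' => if_congr hf.eq_iff rfl rfl
  simp only [collZ, h, Fintype.expect_eq_sum_div_card, Finset.sum_ite_eq, Finset.mem_univ,
    if_true, Finset.sum_const, Finset.card_univ, nsmul_eq_mul]
  rcases Nat.eq_zero_or_pos (Fintype.card ι) with h0 | h0
  · simp [h0]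
  · field_simp

/-- A slot: either one of the `P` choices of the first factor or one of the `2P` other slots. -/
abbrev Slot (P : ℕ) := Fin P ⊕ (Fin P × Bool)

/-- Disjoint pools of `Q` primes, one pool for every slot, all in a short interval
`[B, B + w)`. -/
structure Pools (P Q : ℕ) where
  B : ℕ
  w : ℕ
  el : Slot P × Fin Q → ℕ
  inj : Function.Injective el
  prime : ∀ x, (el x).Prime
  lo : ∀ x, B ≤ el x
  hi : ∀ x, el x < B + w
  hw : w ≤ B
  hB : 2 ≤ B

/-- A choice of one prime for each of the slots in the first `i` levels. -/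
abbrev Choice (P Q i : ℕ) := (Fin P → Fin Q) × (Fin i → Bool → Fin Q)

/-- A way of forming one product. -/
abbrev Word (P i : ℕ) := Fin P × (Fin i → Bool)

namespace Pools

variable {P Q : ℕ} (π : Pools P Q)

/-- The product belonging to a word. -/
def val {i : ℕ} (hi : i ≤ P) (δ : Choice P Q i) (ω : Word P i) : ℕ :=
  π.el (Sum.inl ω.1, δ.1 ω.1) *
    ∏ j, π.el (Sum.inr (Fin.castLE hi j, ω.2 j), δ.2 j (ω.2 j))

/-- A sum of `k` products. -/
def tsum {i : ℕ} (hi : i ≤ P) (δ : Choice P Q i) (k : ℕ) (h : Fin k → Word P i) : ℤ :=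
  ∑ j, (π.val hi δ (h j) : ℤ)

/-- Average collision probability of sums of `k` products after `i` levels. -/
noncomputable def q {i : ℕ} (hi : i ≤ P) (k : ℕ) : ℝ :=
  𝔼 δ : Choice P Q i, collZ (π.tsum hi δ k)

lemma el_pos (x : Slot P × Fin Q) : 0 < π.el x := (π.prime x).pos

lemma el_le (x : Slot P × Fin Q) : π.el x ≤ 2 * π.B := by
  have := π.hi x; have := π.hw; omega

lemma val_le {i : ℕ} (hi : i ≤ P) (δ : Choice P Q i) (ω : Word P i) :
    π.val hi δ ω ≤ (2 * π.B) ^ (i + 1) := by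
  unfold val
  rw [pow_succ']
  refine Nat.mul_le_mul (π.el_le _) ?_
  refine (Finset.prod_le_pow_card _ _ _ fun j _ => π.el_le _).trans ?_
  simp

lemma val_injective {i : ℕ} (hi : i ≤ P) (δ : Choice P Q i) :
    Function.Injective (π.val hi δ) := by
  intro ω ω' h
  have key : ∀ x : Slot P × Fin Q, π.el x ∣ π.val hi δ ω' →
      x = (Sum.inl ω'.1, δ.1 ω'.1) ∨
      ∃ j, x = (Sum.inr (Fin.castLE hi j, ω'.2 j), δ.2 j (ω'.2 j)) := by
    intro x hx
    unfold val at hx
    rcases (π.prime x).prime.dvd_mul.1 hx with hx | hx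
    · exact Or.inl (π.inj ((Nat.prime_dvd_prime_iff_eq (π.prime _) (π.prime _)).1 hx))
    · rcases (π.prime x).prime.dvd_finset_prod_iff _ |>.1 hx with ⟨j, -, hj⟩
      exact Or.inr ⟨j, π.inj ((Nat.prime_dvd_prime_iff_eq (π.prime _) (π.prime _)).1 hj)⟩
  refine Prod.ext ?_ (funext fun j => ?_)
  · rcases key (Sum.inl ω.1, δ.1 ω.1) (h ▸ dvd_mul_right _ _) with h1 | ⟨j, h1⟩
    · exact Sum.inl_injective (Prod.ext_iff.1 h1).1
    · simp at h1
  · rcases key (Sum.inr (Fin.castLE hi j, ω.2 j), δ.2 j (ω.2 j))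
      (h ▸ (Dvd.dvd.mul_left (Finset.dvd_prod_of_mem _ (Finset.mem_univ j)) _)) with h1 | ⟨j', h1⟩
    · simp at h1
    · have h2 := Sum.inr_injective (Prod.ext_iff.1 h1).1
      simp only [Prod.mk.injEq, Fin.castLE_inj] at h2
      obtain ⟨rfl, h3⟩ := h2
      exact h3

lemma collZ_val {i : ℕ} (hi : i ≤ P) (δ : Choice P Q i) :
    collZ (fun ω => (π.val hi δ ω : ℤ)) = 1 / ((P : ℝ) * 2 ^ i) := by
  have hinj : Function.Injective (fun ω => (π.val hi δ ω : ℤ)) :=
    Nat.cast_injective.comp (π.val_injective hi δ)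
  rw [collZ_of_injective _ hinj]
  simp

/-- Few primes of one slot divide a given nonzero integer. -/
lemma card_dvd_le (s : Slot P) {e : ℤ} (he : e ≠ 0) {L : ℕ}
    (hL : e.natAbs < π.B ^ (L + 1)) :
    (Finset.univ.filter fun x : Fin Q => (π.el (s, x) : ℤ) ∣ e).card ≤ L := by
  classical
  set F := Finset.univ.filter fun x : Fin Q => (π.el (s, x) : ℤ) ∣ e with hF
  by_contra hc
  have h1 : (∏ p ∈ F.image fun x => π.el (s, x), p) ∣ e.natAbs := by
    refine Finset.prod_primes_dvd _ ?_ ?_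
    · intro p hp
      obtain ⟨x, -, rfl⟩ := Finset.mem_image.1 hp
      exact (π.prime _).prime
    · intro p hp
      obtain ⟨x, hx, rfl⟩ := Finset.mem_image.1 hp
      rw [hF, Finset.mem_filter] at hx
      exact Int.natCast_dvd.1 hx.2
  have hinj : Set.InjOn (fun x => π.el (s, x)) F := fun x _ y _ h => by simpa using π.inj h
  rw [Finset.prod_image hinj] at h1
  have h2 : π.B ^ F.card ≤ ∏ x ∈ F, π.el (s, x) :=
    Finset.pow_card_le_prod _ _ _ fun x _ => π.lo _
  have h3 := Nat.le_of_dvd (Int.natAbs_pos.2 he) h1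
  have h4 : π.B ^ (L + 1) ≤ π.B ^ F.card := Nat.pow_le_pow_right (by have := π.hB; omega) (by omega)
  omega

end Pools

end Vale.Agent.P012
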