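import Vale.Agent.P012.Transfer

/-!
A bounded number of randomly dilated copies of a spread-out block fill a positive proportion
of an interval.
-/

open Finset
open scoped BigOperators

namespace Vale.Agent.P012

variable {R U : ℕ}

/-- Residue vectors annihilated by `d` and vanishing at `i`. -/
lemma ker_count (α : ℕ) [NeZero α] (d : Fin R → ℤ) (i : Fin R) (hi : (d i : ZMod α) = 0)
    (x : Fin R → ℤ) (hx : ∑ r, x r * d r = 1) :
    (Finset.univ.filter fun z : Fin R → ZMod α => z i = 0 ∧ ∑ r, z r * (d r : ZMod α) = 0).card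
      * α ^ 2 ≤ α ^ R := by
  classical
  set S := Finset.univ.filter fun z : Fin R → ZMod α => z i = 0 ∧ ∑ r, z r * (d r : ZMod α) = 0
    with hS
  have hcast : ∑ r, (x r : ZMod α) * (d r : ZMod α) = 1 := by
    have := congrArg (fun n : ℤ => (n : ZMod α)) hx
    simpa using this
  have h := Finset.card_le_card_of_injOn (s := S ×ˢ (Finset.univ : Finset (ZMod α × ZMod α)))
    (t := (Finset.univ : Finset (Fin R → ZMod α)))
    (fun q r => q.1 r + q.2.1 * (x r : ZMod α) + if r = i then q.2.2 else 0)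
    (fun q _ => Finset.mem_coe.2 (Finset.mem_univ _))
    (fun q hq q' hq' heq => by
      obtain ⟨hq1, hq2⟩ := (Finset.mem_filter.1 (Finset.mem_product.1 hq).1).2
      obtain ⟨hq1', hq2'⟩ := (Finset.mem_filter.1 (Finset.mem_product.1 hq').1).2
      have hval : ∀ p : (Fin R → ZMod α) × (ZMod α × ZMod α), ∑ r, p.1 r * (d r : ZMod α) = 0 →
          ∑ r, (p.1 r + p.2.1 * (x r : ZMod α) + if r = i then p.2.2 else 0) * (d r : ZMod α)
            = p.2.1 := by
        intro p hp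
        simp only [add_mul, Finset.sum_add_distrib, hp, zero_add, mul_assoc, ← Finset.mul_sum,
          hcast, mul_one, ite_mul, zero_mul, Finset.sum_ite_eq', Finset.mem_univ, if_true, hi,
          mul_zero, add_zero]
      have ht : q.2.1 = q'.2.1 := by
        rw [← hval q hq2, ← hval q' hq2']
        exact Finset.sum_congr rfl fun r _ => congrArg (· * (d r : ZMod α)) (congrFun heq r)
      have hu : q.2.2 = q'.2.2 := by
        have := congrFun heq i
        simpa [hq1, hq1', ht] using this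
      refine Prod.ext (funext fun r => ?_) (Prod.ext ht hu)
      have := congrFun heq r
      simpa [ht, hu] using this)
  simpa [Finset.card_product, ZMod.card, sq] using h

/-- Few dilations kill a given nonzero vector. -/
lemma kill_count (D : Fin R → ℤ) (i : Fin R) (hne : D i ≠ 0)
    (hmax : ∀ r, (D r).natAbs ≤ (D i).natAbs) (hA : (D i).natAbs ≤ U) :
    U * (D i).natAbs *
        (Finset.univ.filter fun w : Fin R → Fin U => ∑ r, ((U : ℤ) + (w r : ℕ)) * D r = 0).card ≤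
      (Finset.univ.gcd fun r => (D r).natAbs) * (2 ^ R * U ^ R) := by
  classical
  set g := Finset.univ.gcd (fun r => (D r).natAbs) with hg
  have hgd : ∀ r, g ∣ (D r).natAbs := fun r => Finset.gcd_dvd (Finset.mem_univ r)
  have hA0 : 0 < (D i).natAbs := Int.natAbs_pos.2 hne
  have hg0 : 0 < g := Nat.pos_of_dvd_of_pos (hgd i) hA0
  have hgz : ∀ r, (g : ℤ) ∣ D r := fun r => Int.natCast_dvd.2 (hgd r)
  choose d hd using hgz
  set α := (d i).natAbs with hα
  have hAα : (D i).natAbs = g * α := by rw [hd i, Int.natAbs_mul, Int.natAbs_natCast]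
  have hα0 : 0 < α := by
    rcases Nat.eq_zero_or_pos α with h0 | h0
    · rw [h0, mul_zero] at hAα; omega
    · exact h0
  have hαU : α ≤ U := le_trans (Nat.le_mul_of_pos_left _ hg0) (hAα ▸ hA)
  haveI : NeZero α := ⟨hα0.ne'⟩
  have hgcd1 : (Finset.univ.gcd fun r => (d r).natAbs) = 1 := by
    have h1 : g = g * Finset.univ.gcd (fun r => (d r).natAbs) := by
      calc g = Finset.univ.gcd (fun r => g * (d r).natAbs) := by
            refine Finset.gcd_congr rfl fun r _ => ?_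
            rw [hd r, Int.natAbs_mul, Int.natAbs_natCast]
        _ = _ := by rw [Finset.gcd_mul_left]; simp
    nlinarith
  obtain ⟨x, hx⟩ : ∃ x : Fin R → ℤ, ∑ r, x r * d r = 1 := by
    obtain ⟨c, hc⟩ := (Finset.univ : Finset (Fin R)).gcd_eq_sum_mul d
    have h1 : (Finset.univ : Finset (Fin R)).gcd d = 1 := by
      have h2 : IsUnit ((Finset.univ : Finset (Fin R)).gcd d) := by
        rw [Int.isUnit_iff_natAbs_eq]
        refine Nat.dvd_one.1 (hgcd1 ▸ Finset.dvd_gcd fun r hr => ?_)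
        exact Int.natAbs_dvd_natAbs.2 (Finset.gcd_dvd hr)
      rw [← Finset.normalize_gcd, normalize_eq_one.2 h2]
    exact ⟨c, by rw [← h1, hc]; exact Finset.sum_congr rfl fun r _ => mul_comm _ _⟩
  have hdi : (d i : ZMod α) = 0 := by
    rw [ZMod.intCast_zmod_eq_zero_iff_dvd, hα]; exact Int.natAbs_dvd.2 dvd_rfl
  set K := Finset.univ.filter fun z : Fin R → ZMod α => z i = 0 ∧ ∑ r, z r * (d r : ZMod α) = 0
  set W := Finset.univ.filter fun w : Fin R → Fin U => ∑ r, ((U : ℤ) + (w r : ℕ)) * D r = 0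
  have hW : ∀ w ∈ W, ∑ r, ((U : ℤ) + (w r : ℕ)) * d r = 0 := by
    intro w hw
    have h0 := (Finset.mem_filter.1 hw).2
    have : (g : ℤ) * ∑ r, ((U : ℤ) + (w r : ℕ)) * d r = 0 := by
      rw [Finset.mul_sum, ← h0]
      exact Finset.sum_congr rfl fun r _ => by rw [hd r]; ring
    exact (mul_eq_zero.1 this).resolve_left (by exact_mod_cast hg0.ne')
  let lim : Fin R → Finset ℕ := fun r => Finset.range (if r = i then 1 else U / α + 1)
  have hinj := Finset.card_le_card_of_injOn (s := W) (t := K ×ˢ Fintype.piFinset lim)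
    (fun w => (fun r => if r = i then 0 else ((w r : ℕ) : ZMod α) + (U : ZMod α),
      fun r => if r = i then 0 else (w r : ℕ) / α))
    (fun w hw => by
      simp only [Finset.coe_product, Set.mem_prod, Finset.mem_coe, K, Finset.mem_filter,
        Finset.mem_univ, true_and, Fintype.mem_piFinset, lim, Finset.mem_range, if_true]
      refine ⟨?_, fun r => ?_⟩
      · have h0 := congrArg (fun n : ℤ => (n : ZMod α)) (hW w hw)
        push_cast at h0
        rw [← h0]
        refine Finset.sum_congr rfl fun r _ => ?_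
        by_cases hr : r = i
        · subst hr; simp [hdi]
        · rw [if_neg hr]; ring
      · by_cases hr : r = i
        · simp [hr]
        · rw [if_neg hr, if_neg hr]
          exact Nat.lt_succ_of_le (Nat.div_le_div_right (w r).2.le))
    (fun w hw w' hw' heq => by
      simp only [Prod.mk.injEq] at heq
      have hoff : ∀ r, r ≠ i → w r = w' r := by
        intro r hr
        have h1 := congrFun heq.1 r
        have h2 := congrFun heq.2 r
        rw [if_neg hr, if_neg hr] at h1 h2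
        have h3 := add_right_cancel h1
        rw [ZMod.natCast_eq_natCast_iff'] at h3
        exact Fin.ext (by rw [← Nat.div_add_mod (w r : ℕ) α, ← Nat.div_add_mod (w' r : ℕ) α, h2, h3])
      have e : ∑ r, (((w r : ℕ) : ℤ) - ((w' r : ℕ) : ℤ)) * d r = 0 := by
        have : ∑ r, ((((U : ℤ) + (w r : ℕ)) * d r) - (((U : ℤ) + (w' r : ℕ)) * d r)) = 0 := by
          rw [Finset.sum_sub_distrib, hW w hw, hW w' hw', sub_zero]
        rw [← this]; exact Finset.sum_congr rfl fun r _ => by ring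
      rw [Finset.sum_eq_single i (fun r _ hr => by rw [hoff r hr]; ring) (by simp)] at e
      have hdi0 : d i ≠ 0 := Int.natAbs_pos.1 hα0
      have hwi : w i = w' i :=
        Fin.ext (by have := (mul_eq_zero.1 e).resolve_right hdi0; omega)
      funext r
      by_cases hr : r = i
      · rw [hr]; exact hwi
      · exact hoff r hr)
  rw [Finset.card_product, Fintype.card_piFinset] at hinj
  have hprod : ∏ r, (lim r).card = (U / α + 1) ^ (R - 1) := by
    simp only [lim, Finset.card_range]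
    rw [← Finset.mul_prod_erase Finset.univ _ (Finset.mem_univ i), if_pos rfl, one_mul,
      Finset.prod_congr rfl (fun r hr => if_neg (Finset.ne_of_mem_erase hr)),
      Finset.prod_const, Finset.card_erase_of_mem (Finset.mem_univ i)]
    simp
  rw [hprod] at hinj
  have hK := ker_count α d i hdi x hx
  have hq : (U / α + 1) * α ≤ 2 * U := by
    have := Nat.div_mul_le_self U α; rw [add_mul, one_mul]; omega
  obtain ⟨R', rfl⟩ : ∃ R', R = R' + 1 := ⟨R - 1, by have := i.2; omega⟩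
  simp only [Nat.add_sub_cancel] at hinj
  refine Nat.le_of_mul_le_mul_right ?_ (pow_pos hα0 (R' + 1))
  calc U * (D i).natAbs * W.card * α ^ (R' + 1)
      ≤ U * (D i).natAbs * (K.card * (U / α + 1) ^ R') * α ^ (R' + 1) := by gcongr
    _ = U * g * (K.card * α ^ 2) * ((U / α + 1) * α) ^ R' := by
        rw [hAα, mul_pow]; ring
    _ ≤ U * g * α ^ (R' + 1) * (2 * U) ^ R' := by gcongr
    _ = g * (2 ^ R' * U ^ (R' + 1)) * α ^ (R' + 1) := by rw [mul_pow]; ring
    _ ≤ g * (2 ^ (R' + 1) * U ^ (R' + 1)) * α ^ (R' + 1) := by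
        gcongr <;> omega

variable {Δ Ω : Type*} [Fintype Δ] [Fintype Ω]

lemma expect_pi_prod {α : Type*} [Fintype α] {n : ℕ} (F : Fin n → α → ℝ) :
    (𝔼 f : Fin n → α, ∏ r, F r (f r)) = ∏ r, 𝔼 a, F r a := by
  simp only [Fintype.expect_eq_sum_div_card]
  rw [← Fintype.prod_sum F, Finset.prod_div_distrib]
  simp [Finset.prod_const]

lemma indep (F : Δ → Ω → Ω → ℝ) (R : ℕ) :
    (𝔼 δ : Fin R → Δ, 𝔼 a : Fin R → Ω, 𝔼 b : Fin R → Ω, ∏ r, F (δ r) (a r) (b r)) =
      (𝔼 δ, 𝔼 a, 𝔼 b, F δ a b) ^ R := by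
  calc (𝔼 δ : Fin R → Δ, 𝔼 a : Fin R → Ω, 𝔼 b : Fin R → Ω, ∏ r, F (δ r) (a r) (b r))
      = 𝔼 δ : Fin R → Δ, 𝔼 a : Fin R → Ω, ∏ r, 𝔼 b, F (δ r) (a r) b := by
        refine Finset.expect_congr rfl fun δ _ => Finset.expect_congr rfl fun a _ => ?_
        exact expect_pi_prod fun r b => F (δ r) (a r) b
    _ = 𝔼 δ : Fin R → Δ, ∏ r, 𝔼 a, 𝔼 b, F (δ r) a b := by
        refine Finset.expect_congr rfl fun δ _ => ?_
        exact expect_pi_prod fun r a => 𝔼 b, F (δ r) a b
    _ = ∏ _r : Fin R, 𝔼 δ, 𝔼 a, 𝔼 b, F δ a b := expect_pi_prod fun _ δ => 𝔼 a, 𝔼 b, F δ a b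
    _ = _ := by simp

/-- The dilated combination. -/
def comb (X : Δ → Ω → ℤ) (δ : Fin R → Δ) (w : Fin R → Fin U) (ω : Fin R → Ω) : ℤ :=
  ∑ r, ((U : ℤ) + (w r : ℕ)) * X (δ r) (ω r)

lemma pointwise (hU : 0 < U) (D : Fin R → ℤ) (hD : ∀ r, (D r).natAbs < U) :
    (𝔼 w : Fin R → Fin U, if ∑ r, ((U : ℤ) + (w r : ℕ)) * D r = 0 then (1 : ℝ) else 0) ≤
      (∏ r, if D r = 0 then (1 : ℝ) else 0) + (2 : ℝ) ^ (R + 1) / (U : ℝ) ^ 2 *
        ∑ g ∈ Finset.Icc 1 U, ∑ j ∈ Finset.range (Nat.log 2 U + 1), (g : ℝ) * 2 ^ j *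
          ∏ r, (if (g : ℤ) ∣ D r ∧ (D r).natAbs ≤ U / 2 ^ j then (1 : ℝ) else 0) := by
  classical
  have : Nonempty (Fin U) := ⟨⟨0, hU⟩⟩
  have hnn : ∀ g j : ℕ, (0 : ℝ) ≤ (g : ℝ) * 2 ^ j *
      ∏ r, (if (g : ℤ) ∣ D r ∧ (D r).natAbs ≤ U / 2 ^ j then (1 : ℝ) else 0) := fun g j =>
    mul_nonneg (by positivity) (Finset.prod_nonneg fun r _ => by split_ifs <;> norm_num)
  have hsum : (0 : ℝ) ≤ (2 : ℝ) ^ (R + 1) / (U : ℝ) ^ 2 *
        ∑ g ∈ Finset.Icc 1 U, ∑ j ∈ Finset.range (Nat.log 2 U + 1), (g : ℝ) * 2 ^ j *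
          ∏ r, (if (g : ℤ) ∣ D r ∧ (D r).natAbs ≤ U / 2 ^ j then (1 : ℝ) else 0) :=
    mul_nonneg (by positivity) (Finset.sum_nonneg fun g _ => Finset.sum_nonneg fun j _ => hnn g j)
  by_cases hz : ∀ r, D r = 0
  · refine le_trans ?_ (le_add_of_nonneg_right hsum)
    simp [hz]
  push Not at hz
  obtain ⟨r0, hr0⟩ := hz
  obtain ⟨i, -, hmax⟩ := Finset.exists_max_image (Finset.univ : Finset (Fin R))
    (fun r => (D r).natAbs) ⟨r0, Finset.mem_univ _⟩
  have hA0 : 0 < (D i).natAbs :=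
    lt_of_lt_of_le (Int.natAbs_pos.2 hr0) (hmax r0 (Finset.mem_univ _))
  have hi0 : D i ≠ 0 := Int.natAbs_pos.1 hA0
  rw [Finset.prod_eq_zero (Finset.mem_univ i) (if_neg hi0), zero_add]
  set g := Finset.univ.gcd (fun r => (D r).natAbs) with hg
  set A := (D i).natAbs with hA
  have hgA : g ∣ A := Finset.gcd_dvd (Finset.mem_univ i)
  have hg0 : 0 < g := Nat.pos_of_dvd_of_pos hgA hA0
  have hgU : g ≤ U := (Nat.le_of_dvd hA0 hgA).trans (hD i).le
  set j := Nat.log 2 (U / A) with hj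
  have hq : 0 < U / A := Nat.div_pos (hD i).le hA0
  have hj1 : 2 ^ j ≤ U / A := Nat.pow_log_le_self _ hq.ne'
  have hj2 : U / A < 2 ^ (j + 1) := Nat.lt_pow_succ_log_self (by norm_num) _
  have hjr : j ∈ Finset.range (Nat.log 2 U + 1) :=
    Finset.mem_range.2 (Nat.lt_succ_of_le (Nat.log_mono_right (Nat.div_le_self _ _)))
  have hAj : A ≤ U / 2 ^ j := by
    rw [Nat.le_div_iff_mul_le (by positivity), mul_comm]
    exact (Nat.mul_le_mul_right _ hj1).trans (Nat.div_mul_le_self _ _)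
  have hUA : U < 2 ^ (j + 1) * A := (Nat.div_lt_iff_lt_mul hA0).1 hj2
  have hprod : ∏ r, (if (g : ℤ) ∣ D r ∧ (D r).natAbs ≤ U / 2 ^ j then (1 : ℝ) else 0) = 1 :=
    Finset.prod_eq_one fun r _ => if_pos ⟨Int.natCast_dvd.2 (Finset.gcd_dvd (Finset.mem_univ r)),
      (hmax r (Finset.mem_univ r)).trans hAj⟩
  refine le_trans ?_ (mul_le_mul_of_nonneg_left
    (le_trans (Finset.single_le_sum (fun j' _ => hnn g j') hjr)
      (Finset.single_le_sum (f := fun g' : ℕ => ∑ j' ∈ Finset.range (Nat.log 2 U + 1), (g' : ℝ) * 2 ^ j' *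
          ∏ r, (if (g' : ℤ) ∣ D r ∧ (D r).natAbs ≤ U / 2 ^ j' then (1 : ℝ) else 0))
        (fun g' _ => Finset.sum_nonneg fun j' _ => hnn g' j') (Finset.mem_Icc.2 ⟨hg0, hgU⟩)))
    (by positivity))
  rw [hprod, mul_one]
  have hk : U * A * (Finset.univ.filter fun w : Fin R → Fin U =>
      ∑ r, ((U : ℤ) + (w r : ℕ)) * D r = 0).card ≤ g * (2 ^ R * U ^ R) :=
    kill_count D i hi0 (fun r => hmax r (Finset.mem_univ r)) (hD i).le
  rw [Fintype.expect_eq_sum_div_card, Finset.sum_boole, Fintype.card_fun, Fintype.card_fin,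
    Fintype.card_fin]
  set N := (Finset.univ.filter fun w : Fin R → Fin U =>
    ∑ r, ((U : ℤ) + (w r : ℕ)) * D r = 0).card
  have hUr : (0 : ℝ) < U := by exact_mod_cast hU
  rw [Nat.cast_pow, div_le_iff₀ (by positivity)]
  have key : N * U ^ 2 ≤ 2 ^ (R + 1) * (g * 2 ^ j) * U ^ R := by
    calc N * U ^ 2 ≤ N * U * (2 ^ (j + 1) * A) := by
          rw [sq, ← mul_assoc]; exact Nat.mul_le_mul_left _ hUA.le
      _ = 2 ^ (j + 1) * (U * A * N) := by ring
      _ ≤ 2 ^ (j + 1) * (g * (2 ^ R * U ^ R)) := Nat.mul_le_mul_left _ hk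
      _ = _ := by ring
  have keyR : (N : ℝ) * (U : ℝ) ^ 2 ≤ 2 ^ (R + 1) * ((g : ℝ) * 2 ^ j) * (U : ℝ) ^ R := by
    exact_mod_cast key
  calc (N : ℝ) = (N : ℝ) * (U : ℝ) ^ 2 / (U : ℝ) ^ 2 := by field_simp
    _ ≤ 2 ^ (R + 1) * ((g : ℝ) * 2 ^ j) * (U : ℝ) ^ R / (U : ℝ) ^ 2 :=
        div_le_div_of_nonneg_right keyR (by positivity)
    _ = _ := by ring

/-- The second moment bound. -/
theorem dilation [Nonempty Δ] [Nonempty Ω] (X : Δ → Ω → ℤ) (m : ℕ) (K : ℝ) (hK : 0 ≤ K)
    (hU : 0 < U)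
    (hX : ∀ δ a b, (X δ a - X δ b).natAbs < U)
    (hmod : ∀ g : ℕ, 0 < g → g ≤ U → (𝔼 δ, coll g (X δ)) ^ m * (g : ℝ) ≤ K)
    (hclose : ∀ j : ℕ, 2 ^ j ≤ U → (𝔼 δ, closeP (U / 2 ^ j) (X δ)) ^ m * (2 : ℝ) ^ j ≤ K) :
    ∃ (δ : Fin (6 * m) → Δ) (w : Fin (6 * m) → Fin U),
      collZ (comb X δ w) ≤ (64 * K ^ 6 + 2 ^ (6 * m + 1) * (4 * K ^ 6)) / (U : ℝ) ^ 2 := by
  classical
  set R := 6 * m with hR
  have : Nonempty (Fin U) := ⟨⟨0, hU⟩⟩
  have hUr : (0 : ℝ) < U := by exact_mod_cast hU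
  set bound := (64 * K ^ 6 + 2 ^ (R + 1) * (4 * K ^ 6)) / (U : ℝ) ^ 2 with hb
  suffices h : (𝔼 δ : Fin R → Δ, 𝔼 w : Fin R → Fin U, collZ (comb X δ w)) ≤ bound by
    by_contra hcon
    push Not at hcon
    have h1 : bound < 𝔼 δ : Fin R → Δ, 𝔼 w : Fin R → Fin U, collZ (comb X δ w) := by
      refine (Finset.expect_const Finset.univ_nonempty bound).symm.trans_lt
        (Finset.expect_lt_expect (fun δ _ => ?_) ⟨Classical.arbitrary _, Finset.mem_univ _, ?_⟩)
      · refine (Finset.expect_const Finset.univ_nonempty bound).symm.trans_le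
          (Finset.expect_le_expect fun w _ => (hcon δ w).le)
      · refine (Finset.expect_const Finset.univ_nonempty bound).symm.trans_lt
          (Finset.expect_lt_expect (fun w _ => (hcon _ w).le)
            ⟨Classical.arbitrary _, Finset.mem_univ _, hcon _ _⟩)
    linarith
  -- per `(g, j)` probability
  let π : ℕ → ℕ → ℝ := fun g j => 𝔼 δ, 𝔼 a, 𝔼 b,
    if (g : ℤ) ∣ (X δ a - X δ b) ∧ (X δ a - X δ b).natAbs ≤ U / 2 ^ j then (1 : ℝ) else 0
  let π0 : ℝ := 𝔼 δ, 𝔼 a, 𝔼 b, if X δ a - X δ b = 0 then (1 : ℝ) else 0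
  have hπnn : ∀ g j, 0 ≤ π g j := fun g j => Finset.expect_nonneg fun _ _ =>
    Finset.expect_nonneg fun _ _ => Finset.expect_nonneg fun _ _ => by split_ifs <;> norm_num
  have hπ1 : ∀ g j, π g j ≤ 𝔼 δ, coll g (X δ) := fun g j => by
    refine Finset.expect_le_expect fun δ _ => Finset.expect_le_expect fun a _ =>
      Finset.expect_le_expect fun b _ => ?_
    by_cases h : (g : ℤ) ∣ (X δ a - X δ b) ∧ (X δ a - X δ b).natAbs ≤ U / 2 ^ j
    · rw [if_pos h, if_pos ((ZMod.intCast_eq_intCast_iff_dvd_sub _ _ _).2 (dvd_sub_comm.1 h.1))]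
    · rw [if_neg h]; split_ifs <;> norm_num
  have hπ2 : ∀ g j, π g j ≤ 𝔼 δ, closeP (U / 2 ^ j) (X δ) := fun g j => by
    refine Finset.expect_le_expect fun δ _ => Finset.expect_le_expect fun a _ =>
      Finset.expect_le_expect fun b _ => ?_
    by_cases h : (g : ℤ) ∣ (X δ a - X δ b) ∧ (X δ a - X δ b).natAbs ≤ U / 2 ^ j
    · rw [if_pos h, if_pos h.2]
    · rw [if_neg h]; split_ifs <;> norm_num
  have hterm : ∀ g j : ℕ, 0 < g → g ≤ U → 2 ^ j ≤ U →
      (g : ℝ) * 2 ^ j * π g j ^ R ≤ K ^ 6 * ((1 / (g : ℝ) ^ 2) * (1 / 4 : ℝ) ^ j) := by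
    intro g j hg hgU hj
    have hgr : (0 : ℝ) < g := by exact_mod_cast hg
    have h1 : π g j ^ (2 * m) * ((g : ℝ) * 2 ^ j) ≤ K ^ 2 := by
      calc π g j ^ (2 * m) * ((g : ℝ) * 2 ^ j) = (π g j ^ m * g) * (π g j ^ m * 2 ^ j) := by ring
        _ ≤ K * K := mul_le_mul
            ((mul_le_mul_of_nonneg_right (pow_le_pow_left₀ (hπnn g j) (hπ1 g j) m) hgr.le).trans
              (hmod g hg hgU))
            ((mul_le_mul_of_nonneg_right (pow_le_pow_left₀ (hπnn g j) (hπ2 g j) m)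
              (by positivity)).trans (hclose j hj))
            (mul_nonneg (pow_nonneg (hπnn g j) _) (by positivity)) hK
        _ = _ := by ring
    have h2 : (π g j ^ (2 * m) * ((g : ℝ) * 2 ^ j)) ^ 3 ≤ (K ^ 2) ^ 3 :=
      pow_le_pow_left₀ (mul_nonneg (pow_nonneg (hπnn g j) _) (by positivity)) h1 3
    have h4 : (1 / 4 : ℝ) ^ j = 1 / ((2 : ℝ) ^ j) ^ 2 := by
      rw [← pow_mul, mul_comm j 2, pow_mul, one_div_pow]; norm_num
    rw [h4]
    calc (g : ℝ) * 2 ^ j * π g j ^ R
        = (π g j ^ (2 * m) * ((g : ℝ) * 2 ^ j)) ^ 3 * (1 / ((g : ℝ) * 2 ^ j) ^ 2) := by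
          rw [hR]; field_simp; ring
      _ ≤ (K ^ 2) ^ 3 * (1 / ((g : ℝ) * 2 ^ j) ^ 2) := by gcongr
      _ = _ := by rw [← pow_mul, mul_pow]; field_simp
  calc (𝔼 δ : Fin R → Δ, 𝔼 w : Fin R → Fin U, collZ (comb X δ w))
      = 𝔼 δ : Fin R → Δ, 𝔼 a : Fin R → Ω, 𝔼 b : Fin R → Ω, 𝔼 w : Fin R → Fin U,
          if ∑ r, ((U : ℤ) + (w r : ℕ)) * (X (δ r) (a r) - X (δ r) (b r)) = 0 then (1 : ℝ) else 0 := by
        refine Finset.expect_congr rfl fun δ _ => ?_
        unfold collZ
        rw [Finset.expect_comm]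
        refine Finset.expect_congr rfl fun a _ => ?_
        rw [Finset.expect_comm]
        refine Finset.expect_congr rfl fun b _ => Finset.expect_congr rfl fun w _ => ?_
        refine if_congr ?_ rfl rfl
        simp only [comb, mul_sub, Finset.sum_sub_distrib, sub_eq_zero]
    _ ≤ 𝔼 δ : Fin R → Δ, 𝔼 a : Fin R → Ω, 𝔼 b : Fin R → Ω,
          ((∏ r, if X (δ r) (a r) - X (δ r) (b r) = 0 then (1 : ℝ) else 0) +
            (2 : ℝ) ^ (R + 1) / (U : ℝ) ^ 2 * ∑ g ∈ Finset.Icc 1 U,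
              ∑ j ∈ Finset.range (Nat.log 2 U + 1), (g : ℝ) * 2 ^ j *
                ∏ r, (if (g : ℤ) ∣ (X (δ r) (a r) - X (δ r) (b r)) ∧
                  (X (δ r) (a r) - X (δ r) (b r)).natAbs ≤ U / 2 ^ j then (1 : ℝ) else 0)) :=
        Finset.expect_le_expect fun δ _ => Finset.expect_le_expect fun a _ =>
          Finset.expect_le_expect fun b _ => pointwise hU _ fun r => hX _ _ _
    _ = π0 ^ R + (2 : ℝ) ^ (R + 1) / (U : ℝ) ^ 2 * ∑ g ∈ Finset.Icc 1 U,
          ∑ j ∈ Finset.range (Nat.log 2 U + 1), (g : ℝ) * 2 ^ j * π g j ^ R := by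
        simp only [Finset.expect_add_distrib, ← Finset.mul_expect, Finset.expect_sum_comm,
          indep (fun δ a b => if X δ a - X δ b = 0 then (1 : ℝ) else 0) R]
        refine congrArg₂ _ rfl (congrArg _ (Finset.sum_congr rfl fun g _ =>
          Finset.sum_congr rfl fun j _ => ?_))
        rw [indep (fun δ a b => if (g : ℤ) ∣ (X δ a - X δ b) ∧
          (X δ a - X δ b).natAbs ≤ U / 2 ^ j then (1 : ℝ) else 0) R]
    _ ≤ 64 * K ^ 6 / (U : ℝ) ^ 2 + (2 : ℝ) ^ (R + 1) / (U : ℝ) ^ 2 * (4 * K ^ 6) := by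
        refine add_le_add ?_ (mul_le_mul_of_nonneg_left ?_ (by positivity))
        · set J := Nat.log 2 U with hJ
          have hJ1 : 2 ^ J ≤ U := Nat.pow_log_le_self _ hU.ne'
          have hJ2 : U < 2 ^ (J + 1) := Nat.lt_pow_succ_log_self (by norm_num) _
          have hp : π0 ≤ 𝔼 δ, closeP (U / 2 ^ J) (X δ) := by
            refine Finset.expect_le_expect fun δ _ => Finset.expect_le_expect fun a _ =>
              Finset.expect_le_expect fun b _ => ?_
            by_cases h : X δ a - X δ b = 0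
            · rw [if_pos h, if_pos (by rw [h]; simp)]
            · rw [if_neg h]; split_ifs <;> norm_num
          have hp0 : 0 ≤ π0 := Finset.expect_nonneg fun _ _ =>
            Finset.expect_nonneg fun _ _ => Finset.expect_nonneg fun _ _ => by split_ifs <;> norm_num
          have h2 : π0 ^ m * (U : ℝ) ≤ 2 * K := by
            have hUJ : (U : ℝ) ≤ 2 * 2 ^ J := by
              rw [← pow_succ']; exact_mod_cast hJ2.le
            calc π0 ^ m * (U : ℝ) ≤ π0 ^ m * (2 * 2 ^ J) := by gcongr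
              _ = 2 * (π0 ^ m * 2 ^ J) := by ring
              _ ≤ 2 * ((𝔼 δ, closeP (U / 2 ^ J) (X δ)) ^ m * 2 ^ J) := by gcongr
              _ ≤ 2 * K := by linarith [hclose J hJ1]
          have h3 : (π0 ^ m * (U : ℝ)) ^ 6 ≤ (2 * K) ^ 6 :=
            pow_le_pow_left₀ (by positivity) h2 6
          rw [le_div_iff₀ (by positivity)]
          calc π0 ^ R * (U : ℝ) ^ 2 ≤ π0 ^ R * (U : ℝ) ^ 6 := by
                refine mul_le_mul_of_nonneg_left (pow_le_pow_right₀ ?_ (by norm_num)) (by positivity)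
                exact_mod_cast hU
            _ = (π0 ^ m * (U : ℝ)) ^ 6 := by rw [hR]; ring
            _ ≤ _ := h3.trans (le_of_eq (by ring))
        · calc ∑ g ∈ Finset.Icc 1 U, ∑ j ∈ Finset.range (Nat.log 2 U + 1), (g : ℝ) * 2 ^ j * π g j ^ R
              ≤ ∑ g ∈ Finset.Icc 1 U, ∑ j ∈ Finset.range (Nat.log 2 U + 1),
                  K ^ 6 * ((1 / (g : ℝ) ^ 2) * (1 / 4 : ℝ) ^ j) := by
                refine Finset.sum_le_sum fun g hg => Finset.sum_le_sum fun j hj => ?_
                obtain ⟨h1, h2⟩ := Finset.mem_Icc.1 hg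
                refine hterm g j h1 h2 ?_
                exact (Nat.pow_le_pow_right (by norm_num)
                  (Nat.lt_succ_iff.1 (Finset.mem_range.1 hj))).trans (Nat.pow_log_le_self _ hU.ne')
            _ = K ^ 6 * ((∑ g ∈ Finset.Icc 1 U, 1 / (g : ℝ) ^ 2) *
                  ∑ j ∈ Finset.range (Nat.log 2 U + 1), (1 / 4 : ℝ) ^ j) := by
                rw [Finset.sum_mul_sum, Finset.mul_sum]
                exact Finset.sum_congr rfl fun g _ => by rw [Finset.mul_sum]
            _ ≤ K ^ 6 * (2 * 2) := by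
                refine mul_le_mul_of_nonneg_left (mul_le_mul ?_ ?_ (by positivity) (by norm_num))
                  (by positivity)
                · have : ∀ n : ℕ, 1 ≤ n →
                      ∑ g ∈ Finset.Icc 1 n, 1 / (g : ℝ) ^ 2 ≤ 2 - 1 / (n : ℝ) := by
                    intro n hn
                    induction n, hn using Nat.le_induction with
                    | base => norm_num
                    | succ n hn ih =>
                      rw [Finset.sum_Icc_succ_top (by omega)]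
                      have hnr : (1 : ℝ) ≤ n := by exact_mod_cast hn
                      have e : 1 / ((n + 1 : ℕ) : ℝ) ^ 2 ≤ 1 / (n : ℝ) - 1 / ((n + 1 : ℕ) : ℝ) := by
                        push_cast
                        rw [div_sub_div _ _ (by linarith) (by linarith),
                          div_le_div_iff₀ (by positivity) (by positivity)]
                        nlinarith
                      linarith
                  exact (this U hU).trans (by linarith [show (0 : ℝ) ≤ 1 / (U : ℝ) by positivity])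
                · have h := geom_sum_Ico_le_of_lt_one (x := (1 / 4 : ℝ)) (m := 0)
                    (n := Nat.log 2 U + 1) (by norm_num) (by norm_num)
                  rw [← Finset.range_eq_Ico] at h
                  exact h.trans (by norm_num)
            _ = 4 * K ^ 6 := by ring
    _ = bound := by rw [hb]; ring

end Vale.Agent.P012
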