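import Mathlib

/-!
Finite Fourier analysis for collision probabilities modulo an integer.
-/

open Finset
open scoped BigOperators ComplexConjugate

namespace Vale.Agent.P012

variable {ι κ : Type*} [Fintype ι] [Fintype κ]

/-- The probability that two independent samples of `f` agree modulo `M`. -/
noncomputable def coll (M : ℕ) (f : ι → ℤ) : ℝ :=
  𝔼 i, 𝔼 i', if ((f i : ℤ) : ZMod M) = (f i' : ZMod M) then 1 else 0

/-- Normalised exponential sum of `f` modulo `M`. -/
noncomputable def chSum (M : ℕ) [NeZero M] (f : ι → ℤ) (x : ZMod M) : ℂ :=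
  𝔼 i, ZMod.stdAddChar ((f i : ZMod M) * x)

variable {M : ℕ} [NeZero M]

lemma coe_norm_sq (z : ℂ) : ((‖z‖ ^ 2 : ℝ) : ℂ) = z * conj z := by
  rw [Complex.mul_conj, Complex.normSq_eq_norm_sq]

lemma chSum_norm_sq (f : ι → ℤ) :
    (𝔼 x : ZMod M, ‖chSum M f x‖ ^ 2) = coll M f := by
  apply Complex.ofReal_injective
  calc ((𝔼 x : ZMod M, ‖chSum M f x‖ ^ 2 : ℝ) : ℂ)
      = 𝔼 x : ZMod M, chSum M f x * conj (chSum M f x) := by
        rw [Complex.ofReal_expect]; exact Finset.expect_congr rfl fun x _ => coe_norm_sq _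
    _ = 𝔼 x : ZMod M, 𝔼 i, 𝔼 i', ZMod.stdAddChar (x * ((f i : ZMod M) - (f i' : ZMod M))) := by
        refine Finset.expect_congr rfl fun x _ => ?_
        simp only [chSum, map_expect, Finset.expect_mul_expect]
        refine Finset.expect_congr rfl fun i _ => Finset.expect_congr rfl fun i' _ => ?_
        rw [← AddChar.map_neg_eq_conj, ← AddChar.map_add_eq_mul]
        congr 1; ring
    _ = 𝔼 i, 𝔼 i', 𝔼 x : ZMod M,
          ZMod.stdAddChar (x * ((f i : ZMod M) - (f i' : ZMod M))) := by
        rw [Finset.expect_comm]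
        exact Finset.expect_congr rfl fun i _ => Finset.expect_comm _ _ _
    _ = _ := by
        rw [coll, Complex.ofReal_expect]
        refine Finset.expect_congr rfl fun i _ => ?_
        rw [Complex.ofReal_expect]
        refine Finset.expect_congr rfl fun i' _ => ?_
        rw [Fintype.expect_eq_sum_div_card,
          AddChar.sum_mulShift _ (ZMod.isPrimitive_stdAddChar M)]
        have hM : (M : ℂ) ≠ 0 := Nat.cast_ne_zero.2 (NeZero.ne M)
        by_cases h : (f i : ZMod M) = (f i' : ZMod M)
        · simp [h, ZMod.card, hM]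
        · simp [h, sub_eq_zero]

lemma chSum_scale (f : ι → ℤ) (u : ℤ) (x : ZMod M) :
    chSum M (fun i => u * f i) x = chSum M f ((u : ZMod M) * x) := by
  unfold chSum
  refine Finset.expect_congr rfl fun i _ => ?_
  congr 1; push_cast; ring

lemma chSum_prod (f : ι → ℤ) (g : κ → ℤ) (x : ZMod M) :
    chSum M (fun p : ι × κ => f p.1 + g p.2) x = chSum M f x * chSum M g x := by
  unfold chSum
  rw [Fintype.expect_mul_expect, ← Finset.univ_product_univ, Finset.expect_product]
  refine Finset.expect_congr rfl fun i _ => Finset.expect_congr rfl fun j _ => ?_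
  rw [← AddChar.map_add_eq_mul]; push_cast; rw [add_mul]

lemma chSum_tuple {n : ℕ} (f : Fin n → ι → ℤ) (x : ZMod M) :
    chSum M (fun h : Fin n → ι => ∑ j, f j (h j)) x = ∏ j, chSum M (f j) x := by
  unfold chSum
  have key : ∀ h : Fin n → ι, ZMod.stdAddChar (((∑ j, f j (h j) : ℤ) : ZMod M) * x)
      = ∏ j, ZMod.stdAddChar ((f j (h j) : ZMod M) * x) := by
    intro h
    push_cast
    rw [Finset.sum_mul]
    exact map_prod (ZMod.stdAddChar (N := M)).toMonoidHom
      (fun j => Multiplicative.ofAdd (((f j (h j) : ZMod M) * x))) Finset.univ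
  simp only [key, Fintype.expect_eq_sum_div_card]
  rw [← Fintype.prod_sum (fun j i => ZMod.stdAddChar ((f j i : ZMod M) * x)),
    Finset.prod_div_distrib]
  simp [Fintype.card_fun, Finset.prod_const]

lemma chSum_sum_pow {n : ℕ} (f : ι → ℤ) (x : ZMod M) :
    chSum M (fun h : Fin n → ι => ∑ j, f (h j)) x = chSum M f x ^ n := by
  rw [chSum_tuple (fun _ => f)]; simp

lemma chSum_neg (f : ι → ℤ) (x : ZMod M) :
    chSum M (fun i => - f i) x = conj (chSum M f x) := by
  simp only [chSum, map_expect]
  refine Finset.expect_congr rfl fun i _ => ?_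
  rw [← AddChar.map_neg_eq_conj]; congr 1; push_cast; ring

lemma norm_chSum_le_one [Nonempty ι] (f : ι → ℤ) (x : ZMod M) : ‖chSum M f x‖ ≤ 1 := by
  unfold chSum
  rw [Fintype.expect_eq_sum_div_card, norm_div, Complex.norm_natCast,
    div_le_one (by exact_mod_cast Fintype.card_pos)]
  refine (norm_sum_le _ _).trans ?_
  simp [AddChar.norm_apply]

end Vale.Agent.P012
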