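import Vale.Agent.P012.Recursion

/-!
Power saving after `i` levels.
-/

open Finset
open scoped BigOperators

namespace Vale.Agent.P012

/-- The numerical conditions relating the parameters. -/
structure Params {P Q : ℕ} (π : Pools P Q) (t : ℕ) : Prop where
  two_le : 2 ≤ t
  hPt : 2 ^ (8 * t) ≤ P
  hQt : (2 * P + 3) * 2 ^ (8 * t) ≤ Q
  hBt : 4 * t ≤ π.B

variable {P Q t : ℕ} {π : Pools P Q}

lemma Params.P_pos (h : Params π t) : 0 < P := lt_of_lt_of_le (Nat.two_pow_pos _) h.hPt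

lemma Params.Q_pos (h : Params π t) : 0 < Q :=
  lt_of_lt_of_le (Nat.mul_pos (by omega) (Nat.two_pow_pos _)) h.hQt

lemma q_bound (h : Params π t) : ∀ (i : ℕ) (hi : i ≤ P),
    π.q hi (4 * t) ≤ ((1 / 2 : ℝ) ^ t) ^ i := by
  haveI : NeZero Q := ⟨h.Q_pos.ne'⟩
  intro i
  induction i with
  | zero => intro hi; simpa using π.q_le_one h.P_pos hi (4 * t)
  | succ i ih =>
    intro hi
    have ht := h.two_le
    have hB := π.hB
    have hBt := h.hBt
    set L := 2 * i + 3 with hL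
    have hLb : (4 * t) * (2 * π.B) ^ (i + 1) < π.B ^ (L + 1) := by
      calc (4 * t) * (2 * π.B) ^ (i + 1) ≤ π.B * (π.B * π.B) ^ (i + 1) := by
            gcongr
        _ = π.B ^ (2 * i + 3) := by rw [← pow_two, ← pow_mul, ← pow_succ']; congr 1
        _ < π.B ^ (L + 1) := Nat.pow_lt_pow_right (by omega) (by omega)
    have hstep := π.q_step h.P_pos (t := t) (by omega) hi L hLb (i / 2)
    set x : ℝ := (1 / 2) ^ t with hx
    set r : ℝ := 1 / 2 with hr
    have hPpos : (0 : ℝ) < P := by exact_mod_cast h.P_pos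
    have hQpos : (0 : ℝ) < Q := by exact_mod_cast h.Q_pos
    have hP8 : (2 : ℝ) ^ (8 * t) ≤ P := by exact_mod_cast h.hPt
    have h44 : r ^ (4 * t) * 2 ^ (4 * t) = 1 := by rw [← mul_pow, hr]; norm_num
    have h88 : r ^ (8 * t) * 2 ^ (8 * t) = 1 := by rw [← mul_pow, hr]; norm_num
    -- the prime divisor term
    have t1 : (2 : ℝ) ^ (4 * t) * ((L : ℝ) / Q) ≤ r ^ (4 * t) := by
      have hLQ : (L : ℝ) * 2 ^ (8 * t) ≤ Q := by
        have : L * 2 ^ (8 * t) ≤ Q :=
          le_trans (Nat.mul_le_mul_right _ (by omega)) h.hQt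
        exact_mod_cast this
      have h1 : (L : ℝ) / Q ≤ r ^ (8 * t) := by
        rw [div_le_iff₀ hQpos]
        calc (L : ℝ) = r ^ (8 * t) * ((L : ℝ) * 2 ^ (8 * t)) := by linear_combination -(L : ℝ) * h88
          _ ≤ _ := mul_le_mul_of_nonneg_left hLQ (by positivity)
      calc (2 : ℝ) ^ (4 * t) * ((L : ℝ) / Q) ≤ 2 ^ (4 * t) * r ^ (8 * t) := by gcongr
        _ = r ^ (4 * t) := by
            rw [show 8 * t = 4 * t + 4 * t by ring, pow_add]
            linear_combination r ^ (4 * t) * h44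
    have hinv : 1 / (P : ℝ) ≤ r ^ (8 * t) := by
      rw [hr, one_div_pow]; gcongr
    have hj : (2 : ℝ) ^ (i / 2) ≤ 2 ^ i := pow_le_pow_right₀ (by norm_num) (Nat.div_le_self _ _)
    have t2 : (2 : ℝ) ^ (4 * t) * 2 ^ (i / 2) / ((P : ℝ) * 2 ^ i) ≤ r ^ (4 * t) := by
      calc (2 : ℝ) ^ (4 * t) * 2 ^ (i / 2) / ((P : ℝ) * 2 ^ i)
          ≤ 2 ^ (4 * t) * 2 ^ i / ((P : ℝ) * 2 ^ i) := by gcongr
        _ = 2 ^ (4 * t) * (1 / (P : ℝ)) := by field_simp
        _ ≤ 2 ^ (4 * t) * r ^ (8 * t) := by gcongr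
        _ = r ^ (4 * t) := by
            rw [show 8 * t = 4 * t + 4 * t by ring, pow_add]
            linear_combination r ^ (4 * t) * h44
    have t3 : (2 : ℝ) ^ (4 * t) * (r ^ (i / 2)) ^ (4 * t - 2) / ((P : ℝ) * 2 ^ i) ^ 2
        ≤ r ^ (t * (i + 1) + 1) := by
      have e : 1 / ((P : ℝ) * 2 ^ i) ^ 2 ≤ (r ^ (8 * t + i)) ^ 2 := by
        rw [← one_div_pow]
        refine pow_le_pow_left₀ (by positivity) ?_ 2
        calc 1 / ((P : ℝ) * 2 ^ i) = (1 / (P : ℝ)) * r ^ i := by rw [hr, one_div_pow]; field_simp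
          _ ≤ r ^ (8 * t) * r ^ i := by gcongr
          _ = _ := (pow_add _ _ _).symm
      calc (2 : ℝ) ^ (4 * t) * (r ^ (i / 2)) ^ (4 * t - 2) / ((P : ℝ) * 2 ^ i) ^ 2
          ≤ 2 ^ (4 * t) * (r ^ (i / 2)) ^ (4 * t - 2) * (r ^ (8 * t + i)) ^ 2 := by
            rw [div_eq_mul_one_div]; gcongr
        _ = r ^ (12 * t + (i / 2) * (4 * t - 2) + 2 * i) := by
            rw [← pow_mul, ← pow_mul, show (8 * t + i) * 2 = 4 * t + (12 * t + 2 * i) by ring,
              pow_add r (4 * t), pow_add r (12 * t) (2 * i),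
              pow_add r (12 * t + i / 2 * (4 * t - 2)), pow_add r (12 * t)]
            linear_combination r ^ (12 * t) * r ^ (i / 2 * (4 * t - 2)) * r ^ (2 * i) * h44
        _ ≤ _ := by
            refine pow_le_pow_of_le_one (by positivity) (by rw [hr]; norm_num) ?_
            obtain ⟨s, hs⟩ : ∃ s, 4 * t - 2 = s := ⟨_, rfl⟩
            rcases Nat.even_or_odd' i with ⟨m, rfl | rfl⟩
            · rw [Nat.mul_div_cancel_left m (by norm_num), hs]
              nlinarith [show s ≥ 2 * t by omega]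
            · rw [show (2 * m + 1) / 2 = m by omega, hs]
              nlinarith [show s ≥ 2 * t by omega]
    have hxr : r ^ (4 * t) ≤ r ^ (3 * t) :=
      pow_le_pow_of_le_one (by positivity) (by rw [hr]; norm_num) (by omega)
    have h4 : 4 * r ^ (3 * t) ≤ x / 2 := by
      have : r ^ (3 * t) ≤ r ^ (t + 4) :=
        pow_le_pow_of_le_one (by positivity) (by rw [hr]; norm_num) (by omega)
      have e : r ^ (t + 4) = x / 16 := by rw [pow_add, hx, hr]; ring
      have hx0 : 0 ≤ x := by rw [hx]; positivity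
      linarith
    have e2 : r ^ (t * (i + 1) + 1) = x ^ (i + 1) / 2 := by
      rw [pow_succ r, pow_mul, hx, hr]; ring
    calc π.q hi (4 * t) ≤ _ := hstep
      _ ≤ π.q (Nat.le_of_succ_le hi) (4 * t) * (4 * r ^ (3 * t)) + r ^ (t * (i + 1) + 1) := by
          refine add_le_add (mul_le_mul_of_nonneg_left ?_ (π.q_nonneg _ _)) t3
          linarith
      _ ≤ x ^ i * (x / 2) + x ^ (i + 1) / 2 := by
          rw [e2]
          refine add_le_add (mul_le_mul (ih _) h4 (by positivity) (by positivity)) le_rfl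
      _ = x ^ (i + 1) := by ring

end Vale.Agent.P012
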