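import Vale.Agent.P012.Collision

/-!
The recursion: each further level costs a factor `2 ^ (-t)` in collision probability.
-/

open Finset
open scoped BigOperators ComplexConjugate

namespace Vale.Agent.P012.Pools

variable {P Q : ℕ} (π : Pools P Q)

section Step

variable {M : ℕ} [NeZero M]

lemma chSum_word_succ {i : ℕ} (hi : i + 1 ≤ P) (a : Fin P → Fin Q) (d : Fin i → Bool → Fin Q)
    (p : Bool → Fin Q) (x : ZMod M) :
    chSum M (fun ω => (π.val hi (a, Fin.snoc d p) ω : ℤ)) x =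
      (chSum M (fun ω => (π.val (Nat.le_of_succ_le hi) (a, d) ω : ℤ))
          ((π.el (Sum.inr (⟨i, hi⟩, true), p true) : ZMod M) * x) +
        chSum M (fun ω => (π.val (Nat.le_of_succ_le hi) (a, d) ω : ℤ))
          ((π.el (Sum.inr (⟨i, hi⟩, false), p false) : ZMod M) * x)) / 2 := by
  let e : Word P i × Bool ≃ Word P (i + 1) :=
    { toFun := fun q => (q.1.1, Fin.snoc q.1.2 q.2)
      invFun := fun w => ((w.1, Fin.init w.2), w.2 (Fin.last i))
      left_inv := fun q => by simp [Fin.init_snoc, Fin.snoc_last]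
      right_inv := fun w => by simp [Fin.snoc_init_self] }
  unfold chSum
  rw [← Fintype.expect_equiv e _ _ (fun _ => rfl), ← Finset.univ_product_univ,
    Finset.expect_product]
  have key : ∀ (ω : Word P i) (b : Bool), (((π.val hi (a, Fin.snoc d p) (e (ω, b)) : ℕ) : ℤ) : ZMod M) * x
      = (((π.val (Nat.le_of_succ_le hi) (a, d) ω : ℕ) : ℤ) : ZMod M) *
          ((π.el (Sum.inr (⟨i, hi⟩, b), p b) : ZMod M) * x) := by
    intro ω b
    show (((π.val hi (a, Fin.snoc d p) (ω.1, Fin.snoc ω.2 b) : ℕ) : ℤ) : ZMod M) * x = _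
    rw [π.val_snoc]; push_cast; ring
  simp only [key]
  rw [Finset.expect_comm, Fintype.expect_eq_sum_div_card, Fintype.sum_bool, Fintype.card_bool]
  norm_num

lemma avg_norm_pow {i : ℕ} (hi : i ≤ P) (δ : Choice P Q i) (k : ℕ) :
    (𝔼 x : ZMod M, ‖chSum M (fun ω => (π.val hi δ ω : ℤ)) x‖ ^ (2 * k)) =
      coll M (π.tsum hi δ k) := by
  rw [← chSum_norm_sq]
  refine Finset.expect_congr rfl fun x _ => ?_
  unfold tsum
  rw [chSum_sum_pow (n := k) (fun ω => (π.val hi δ ω : ℤ)) x, norm_pow, ← pow_mul]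
  congr 1; ring

lemma avg_norm_pow_scale {i : ℕ} (hi : i ≤ P) (δ : Choice P Q i) (k : ℕ) {u : ℕ} (hu : 0 < u)
    (hu' : u ≤ 2 * π.B) (hM : 2 * ((k : ℤ) * (2 * π.B : ℤ) ^ (i + 2)) < (M : ℤ)) :
    (𝔼 x : ZMod M, ‖chSum M (fun ω => (π.val hi δ ω : ℤ)) ((u : ZMod M) * x)‖ ^ (2 * k)) =
      collZ (π.tsum hi δ k) := by
  have h1 : (𝔼 x : ZMod M, ‖chSum M (fun ω => (π.val hi δ ω : ℤ)) ((u : ZMod M) * x)‖ ^ (2 * k)) =
      coll M (fun h => (u : ℤ) * π.tsum hi δ k h) := by
    rw [← chSum_norm_sq]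
    refine Finset.expect_congr rfl fun x _ => ?_
    rw [chSum_scale]
    unfold tsum
    rw [chSum_sum_pow (n := k) (fun ω => (π.val hi δ ω : ℤ)), norm_pow, ← pow_mul,
      Int.cast_natCast]
    congr 1; ring
  rw [h1, coll_eq_collZ _ ((k : ℤ) * (2 * π.B : ℤ) ^ (i + 2)) (fun h => ?_) hM,
    collZ_scale _ (by exact_mod_cast hu.ne')]
  obtain ⟨h0, h2⟩ := π.abs_tsum_le hi δ k h
  have hu2 : (u : ℤ) ≤ 2 * π.B := by exact_mod_cast hu'
  rw [abs_of_nonneg (by positivity)]
  calc (u : ℤ) * π.tsum hi δ k h ≤ (2 * π.B) * ((k : ℤ) * (2 * π.B : ℤ) ^ (i + 1)) :=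
        mul_le_mul hu2 h2 h0 (by positivity)
    _ = _ := by ring

end Step

lemma q_le_one [NeZero Q] (hP : 0 < P) {i : ℕ} (hi : i ≤ P) (k : ℕ) : π.q hi k ≤ 1 := by
  have : Nonempty (Fin P) := ⟨⟨0, hP⟩⟩
  refine Finset.expect_le Finset.univ_nonempty fun δ _ => ?_
  refine Finset.expect_le Finset.univ_nonempty fun a _ => ?_
  refine Finset.expect_le Finset.univ_nonempty fun b _ => ?_
  split_ifs <;> norm_num

/-- One further level. -/
lemma q_step [NeZero Q] (hP : 0 < P) {i t : ℕ} (ht : 1 ≤ t) (hi : i + 1 ≤ P) (L : ℕ)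
    (hL : (4 * t) * (2 * π.B) ^ (i + 1) < π.B ^ (L + 1)) (j : ℕ) :
    π.q hi (4 * t) ≤ π.q (Nat.le_of_succ_le hi) (4 * t) *
        (2 * (1 / 2) ^ (3 * t) + 2 ^ (4 * t) * ((L : ℝ) / Q) +
          2 ^ (4 * t) * 2 ^ j / ((P : ℝ) * 2 ^ i)) +
      2 ^ (4 * t) * ((1 / 2) ^ j) ^ (4 * t - 2) / ((P : ℝ) * 2 ^ i) ^ 2 := by
  set hi' := Nat.le_of_succ_le hi with hhi'
  set M := 2 * (4 * t * (2 * π.B) ^ (i + 2)) + 1 with hM
  have hM' : 2 * (((4 * t : ℕ) : ℤ) * (2 * π.B : ℤ) ^ (i + 2)) < (M : ℤ) := by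
    rw [hM]; push_cast; linarith
  haveI : NeZero M := ⟨by omega⟩
  have hB := π.hB
  -- rewrite the new collision probability
  have hnew : π.q hi (4 * t) = 𝔼 a : Fin P → Fin Q, 𝔼 d : Fin i → Bool → Fin Q,
      𝔼 p : Bool → Fin Q, 𝔼 x : ZMod M,
        ‖chSum M (fun ω => (π.val hi (a, Fin.snoc d p) ω : ℤ)) x‖ ^ (8 * t) := by
    unfold q
    rw [← Finset.univ_product_univ, Finset.expect_product]
    refine Finset.expect_congr rfl fun a _ => ?_
    rw [expect_fin_succ]
    refine Finset.expect_congr rfl fun d _ => Finset.expect_congr rfl fun p _ => ?_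
    rw [show 8 * t = 2 * (4 * t) by ring, π.avg_norm_pow,
      coll_eq_collZ _ (((4 * t : ℕ) : ℤ) * (2 * π.B : ℤ) ^ (i + 2)) (fun h => ?_) hM']
    obtain ⟨h0, h2⟩ := π.abs_tsum_le hi (a, Fin.snoc d p) (4 * t) h
    rw [abs_of_nonneg h0]; exact h2
  have hold : π.q hi' (4 * t) = 𝔼 a : Fin P → Fin Q, 𝔼 d : Fin i → Bool → Fin Q,
      collZ (π.tsum hi' (a, d) (4 * t)) := by
    unfold q
    rw [← Finset.univ_product_univ, Finset.expect_product]
  have hP' : (0 : ℝ) < P := by exact_mod_cast hP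
  set e : ℝ := 1 / ((P : ℝ) * 2 ^ i) with he
  set l : ℝ := (1 / 2) ^ j with hl
  set c1 : ℝ := (1 / 2) ^ (3 * t) with hc1
  -- the bound for a fixed choice at the old levels
  have main : ∀ a d, (𝔼 p : Bool → Fin Q, 𝔼 x : ZMod M,
        ‖chSum M (fun ω => (π.val hi (a, Fin.snoc d p) ω : ℤ)) x‖ ^ (8 * t)) ≤
      collZ (π.tsum hi' (a, d) (4 * t)) * (2 * c1 + 2 ^ (4 * t) * ((L : ℝ) / Q) +
        2 ^ (4 * t) * (e / l)) + 2 ^ (4 * t) * (e ^ 2 * l ^ (4 * t - 2)) := by
    intro a d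
    set f : Word P i → ℤ := fun ω => (π.val hi' (a, d) ω : ℤ) with hf
    set c : ℝ := collZ (π.tsum hi' (a, d) (4 * t)) with hc
    let U : Fin Q → ℕ := fun x => π.el (Sum.inr (⟨i, hi⟩, true), x)
    let V : Fin Q → ℕ := fun y => π.el (Sum.inr (⟨i, hi⟩, false), y)
    have hscale : ∀ (u : ℕ), 0 < u → u ≤ 2 * π.B →
        (𝔼 x : ZMod M, ‖chSum M f ((u : ZMod M) * x)‖ ^ (8 * t)) = c := by
      intro u h1 h2
      rw [show 8 * t = 2 * (4 * t) by ring]
      exact π.avg_norm_pow_scale hi' (a, d) (4 * t) h1 h2 hM'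
    let G : (Fin (2 * t) → Word P i) → ℤ := π.tsum hi' (a, d) (2 * t)
    have hG : ∀ h, 0 ≤ G h ∧ G h ≤ ((2 * t : ℕ) : ℤ) * (2 * π.B : ℤ) ^ (i + 1) :=
      π.abs_tsum_le hi' (a, d) (2 * t)
    have hcross : ∀ u v : ℕ, u ≤ 2 * π.B → v ≤ 2 * π.B →
        (𝔼 x : ZMod M, ‖chSum M f ((u : ZMod M) * x)‖ ^ (4 * t) *
          ‖chSum M f ((v : ZMod M) * x)‖ ^ (4 * t)) =
        collZ (fun p : (Fin (2 * t) → Word P i) × (Fin (2 * t) → Word P i) =>
          (u : ℤ) * G p.1 + (v : ℤ) * G p.2) := by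
      intro u v hu hv
      rw [← coll_eq_collZ (M := M) _ (((4 * t : ℕ) : ℤ) * (2 * π.B : ℤ) ^ (i + 2)) (fun p => ?_) hM',
        ← chSum_norm_sq]
      · refine Finset.expect_congr rfl fun x _ => ?_
        have := chSum_prod (M := M) (fun h => (u : ℤ) * G h) (fun h => (v : ℤ) * G h) x
        rw [this, chSum_scale, chSum_scale]
        simp only [G]
        unfold tsum
        rw [chSum_sum_pow (n := 2 * t) f, chSum_sum_pow (n := 2 * t) f]
        simp only [Int.cast_natCast, norm_mul, norm_pow]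
        ring
      · obtain ⟨a0, a1⟩ := hG p.1
        obtain ⟨b0, b1⟩ := hG p.2
        have hu' : (u : ℤ) ≤ 2 * π.B := by exact_mod_cast hu
        have hv' : (v : ℤ) ≤ 2 * π.B := by exact_mod_cast hv
        rw [abs_of_nonneg (by positivity)]
        calc (u : ℤ) * G p.1 + (v : ℤ) * G p.2
            ≤ (2 * π.B) * (((2 * t : ℕ) : ℤ) * (2 * π.B : ℤ) ^ (i + 1))
              + (2 * π.B) * (((2 * t : ℕ) : ℤ) * (2 * π.B : ℤ) ^ (i + 1)) :=
              add_le_add (mul_le_mul hu' a1 a0 (by positivity))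
                (mul_le_mul hv' b1 b0 (by positivity))
          _ = _ := by push_cast; ring
    have hdiff : collZ (fun r : (Fin (2 * t) → Word P i) × (Fin (2 * t) → Word P i) =>
        G r.1 - G r.2) = c := by
      rw [← hscale 1 one_pos (by omega),
        ← coll_eq_collZ (M := M) _ (((4 * t : ℕ) : ℤ) * (2 * π.B : ℤ) ^ (i + 2)) (fun p => ?_) hM',
        ← chSum_norm_sq]
      · refine Finset.expect_congr rfl fun x _ => ?_
        have := chSum_prod (M := M) G (fun h => - G h) x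
        simp only [← sub_eq_add_neg] at this
        rw [this, chSum_neg]
        simp only [G]
        unfold tsum
        rw [chSum_sum_pow (n := 2 * t) f]
        simp only [Nat.cast_one, one_mul, norm_mul, RCLike.norm_conj, norm_pow]
        ring
      · obtain ⟨a0, a1⟩ := hG p.1
        obtain ⟨b0, b1⟩ := hG p.2
        have : ((2 * t : ℕ) : ℤ) * (2 * π.B : ℤ) ^ (i + 1) ≤
            ((4 * t : ℕ) : ℤ) * (2 * π.B : ℤ) ^ (i + 2) := by
          gcongr <;> omega
        rw [abs_le]; constructor <;> linarith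
    have he1 : (𝔼 x : ZMod M, ‖chSum M f x‖ ^ 2) = e := by
      rw [chSum_norm_sq, coll_eq_collZ _ (((4 * t : ℕ) : ℤ) * (2 * π.B : ℤ) ^ (i + 2)) (fun w => ?_) hM']
      · exact π.collZ_val hi' (a, d)
      · rw [hf, Nat.abs_cast]
        calc ((π.val hi' (a, d) w : ℕ) : ℤ) ≤ (2 * π.B : ℤ) ^ (i + 1) := by
              exact_mod_cast π.val_le hi' (a, d) w
          _ ≤ 1 * (2 * π.B : ℤ) ^ (i + 2) := by
              rw [one_mul]; gcongr <;> omega
          _ ≤ _ := by gcongr; omega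
    have hmid : collZ G ^ 2 ≤ e / l * c + e ^ 2 * l ^ (4 * t - 2) := by
      have hG1 : collZ G = 𝔼 x : ZMod M, ‖chSum M f x‖ ^ (4 * t) := by
        rw [show 4 * t = 2 * (2 * t) by ring, π.avg_norm_pow hi' (a, d) (2 * t),
          coll_eq_collZ _ (((4 * t : ℕ) : ℤ) * (2 * π.B : ℤ) ^ (i + 2)) (fun h => ?_) hM']
        obtain ⟨a0, a1⟩ := hG h
        refine (abs_of_nonneg a0).le.trans (a1.trans ?_)
        gcongr <;> omega
      rw [hG1]
      obtain ⟨n, hn⟩ : ∃ n, 4 * t = n + 2 := ⟨4 * t - 2, by omega⟩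
      have hCS : (𝔼 x : ZMod M, ‖chSum M f x‖ ^ (4 * t)) ^ 2 ≤
          (𝔼 x : ZMod M, ‖chSum M f x‖ ^ 2) * 𝔼 x : ZMod M, (‖chSum M f x‖ ^ 2) ^ (n + 1) := by
        have := Finset.sum_mul_sq_le_sq_mul_sq Finset.univ (fun x : ZMod M => ‖chSum M f x‖)
          (fun x : ZMod M => ‖chSum M f x‖ ^ (n + 1))
        simp only [Fintype.expect_eq_sum_div_card]
        rw [div_pow, div_mul_div_comm, ← sq]
        refine div_le_div_of_nonneg_right ?_ (sq_nonneg _)
        convert this using 3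
        · rw [hn]; ring
        · ring
      have hl0 : 0 < l := by rw [hl]; positivity
      have hmom : (𝔼 x : ZMod M, (‖chSum M f x‖ ^ 2) ^ (n + 1)) ≤ c / l + l ^ n * e := by
        calc (𝔼 x : ZMod M, (‖chSum M f x‖ ^ 2) ^ (n + 1))
            ≤ 𝔼 x : ZMod M, ((‖chSum M f x‖ ^ 2) ^ (n + 2) / l + l ^ n * ‖chSum M f x‖ ^ 2) :=
              Finset.expect_le_expect fun x _ => moment_ineq _ _ (sq_nonneg _) hl0 n
          _ = c / l + l ^ n * e := by
              rw [Finset.expect_add_distrib, ← Finset.expect_div, ← Finset.mul_expect, he1,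
                ← hscale 1 one_pos (by omega)]
              simp only [Nat.cast_one, one_mul, ← pow_mul]
              rw [show 2 * (n + 2) = 8 * t by omega]
      refine hCS.trans ?_
      rw [he1, show 4 * t - 2 = n by omega]
      calc e * (𝔼 x : ZMod M, (‖chSum M f x‖ ^ 2) ^ (n + 1)) ≤ e * (c / l + l ^ n * e) :=
            mul_le_mul_of_nonneg_left hmom (by rw [he]; positivity)
        _ = _ := by ring
    calc (𝔼 p : Bool → Fin Q, 𝔼 x : ZMod M,
          ‖chSum M (fun ω => (π.val hi (a, Fin.snoc d p) ω : ℤ)) x‖ ^ (8 * t))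
        ≤ 𝔼 p : Bool → Fin Q, (c1 * (c + c) + 2 ^ (4 * t) *
          collZ (fun q : (Fin (2 * t) → Word P i) × (Fin (2 * t) → Word P i) =>
          (U (p true) : ℤ) * G q.1 + (V (p false) : ℤ) * G q.2)) := by
          refine Finset.expect_le_expect fun p _ => ?_
          calc (𝔼 x : ZMod M, ‖chSum M (fun ω => (π.val hi (a, Fin.snoc d p) ω : ℤ)) x‖ ^ (8 * t))
              ≤ 𝔼 x : ZMod M, (c1 * (‖chSum M f ((U (p true) : ZMod M) * x)‖ ^ (8 * t) +
                ‖chSum M f ((V (p false) : ZMod M) * x)‖ ^ (8 * t)) + 2 ^ (4 * t) *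
                (‖chSum M f ((U (p true) : ZMod M) * x)‖ ^ (4 * t) *
                ‖chSum M f ((V (p false) : ZMod M) * x)‖ ^ (4 * t))) := by
                refine Finset.expect_le_expect fun x _ => ?_
                rw [π.chSum_word_succ hi a d p x, norm_div, Complex.norm_ofNat]
                refine le_trans (pow_le_pow_left₀ (by positivity) ?_ _)
                  (split_ineq _ _ (norm_nonneg _) (norm_nonneg _) t)
                gcongr
                exact norm_add_le _ _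
            _ = _ := by
                rw [Finset.expect_add_distrib, ← Finset.mul_expect, ← Finset.mul_expect,
                  Finset.expect_add_distrib, hscale _ (π.el_pos _) (π.el_le _),
                  hscale _ (π.el_pos _) (π.el_le _), hcross _ _ (π.el_le _) (π.el_le _)]
      _ = c1 * (c + c) + 2 ^ (4 * t) * 𝔼 x : Fin Q, 𝔼 y : Fin Q,
          collZ (fun q : (Fin (2 * t) → Word P i) × (Fin (2 * t) → Word P i) =>
          (U x : ℤ) * G q.1 + (V y : ℤ) * G q.2) := by
          rw [Finset.expect_add_distrib, Fintype.expect_const, ← Finset.mul_expect]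
          congr 2
          rw [Fintype.expect_equiv (Equiv.boolArrowEquivProd (Fin Q))
            (fun p : Bool → Fin Q => collZ (fun q : (Fin (2 * t) → Word P i) × (Fin (2 * t) → Word P i) =>
              (U (p true) : ℤ) * G q.1 + (V (p false) : ℤ) * G q.2))
            (fun yx => collZ (fun q : (Fin (2 * t) → Word P i) × (Fin (2 * t) → Word P i) =>
              (U yx.2 : ℤ) * G q.1 + (V yx.1 : ℤ) * G q.2))
            (fun p => rfl),
            ← Finset.univ_product_univ, Finset.expect_product, Finset.expect_comm]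
      _ ≤ c1 * (c + c) + 2 ^ (4 * t) * (collZ G ^ 2 + (L : ℝ) / Q * c) := by
          refine add_le_add le_rfl (mul_le_mul_of_nonneg_left ?_ (by positivity))
          have hlt : ∀ p p', (G p - G p').natAbs < π.B ^ (L + 1) := by
            intro p p'
            obtain ⟨a0, a1⟩ := hG p
            obtain ⟨b0, b1⟩ := hG p'
            have e1 : (((G p - G p').natAbs : ℕ) : ℤ) ≤
                ((2 * t * (2 * π.B) ^ (i + 1) : ℕ) : ℤ) := by
              rw [Int.natCast_natAbs, abs_le]; push_cast; push_cast at a1 b1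
              constructor <;> linarith
            have e2 : 2 * t * (2 * π.B) ^ (i + 1) ≤ 4 * t * (2 * π.B) ^ (i + 1) := by
              gcongr; omega
            have e3 : (G p - G p').natAbs ≤ 2 * t * (2 * π.B) ^ (i + 1) := by exact_mod_cast e1
            omega
          refine (cross_bound G U V (fun _ => π.prime _) (fun _ => π.prime _)
            (fun x y h => by simpa using π.inj h) L
            (fun p p' hne => π.card_dvd_le _ hne (hlt p p'))
            (fun p p' hne => π.card_dvd_le _ hne (hlt p p'))).trans ?_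
          rw [hdiff]
      _ ≤ c1 * (c + c) + 2 ^ (4 * t) * (e / l * c + e ^ 2 * l ^ (4 * t - 2) + (L : ℝ) / Q * c) := by
          gcongr
      _ = _ := by ring
  rw [hnew]
  refine (Finset.expect_le_expect fun a _ => Finset.expect_le_expect fun d _ => main a d).trans ?_
  simp only [Finset.expect_add_distrib, ← Finset.expect_mul, Fintype.expect_const]
  rw [← hold]
  refine le_of_eq ?_
  rw [he, hl, hc1, one_div_pow 2 j]
  field_simp

end Vale.Agent.P012.Pools
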