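import Vale.Agent.P012.QBound

/-!
Splitting a product into a prefix and a suffix of levels.
-/

open Finset
open scoped BigOperators

namespace Vale.Agent.P012

/-- The levels `≥ i`. -/
abbrev Hi (P i : ℕ) := {j : Fin P // ¬ (j : ℕ) < i}

/-- Functions on the levels split at level `i`. -/
def glue {P i : ℕ} (hi : i ≤ P) (α : Type*) : (Fin i → α) × (Hi P i → α) ≃ (Fin P → α) where
  toFun p j := if h : (j : ℕ) < i then p.1 ⟨j, h⟩ else p.2 ⟨j, h⟩
  invFun f := (fun j => f (Fin.castLE hi j), fun j => f j.1)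
  left_inv p := by
    refine Prod.ext (funext fun j => ?_) (funext fun j => ?_)
    · simp [j.2]
    · simp [j.2]
  right_inv f := by
    funext j
    by_cases h : (j : ℕ) < i <;> simp [h]

lemma pow_spread {B w : ℕ} : ∀ n : ℕ, 2 * n * w ≤ B →
    (B + w) ^ n * B ≤ B ^ n * (B + 2 * n * w) := by
  intro n
  induction n with
  | zero => simp
  | succ n ih =>
    intro h
    have h' : 2 * n * w ≤ B := le_trans (Nat.mul_le_mul_right _ (by omega)) h
    have step : (B + 2 * n * w) * (B + w) ≤ B * (B + 2 * (n + 1) * w) := by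
      have := Nat.mul_le_mul_right w h'
      calc (B + 2 * n * w) * (B + w) = B * B + B * (2 * n * w) + B * w + 2 * n * w * w := by ring
        _ ≤ B * B + B * (2 * n * w) + B * w + B * w := by omega
        _ = _ := by ring
    calc (B + w) ^ (n + 1) * B = ((B + w) ^ n * B) * (B + w) := by ring
      _ ≤ B ^ n * (B + 2 * n * w) * (B + w) := Nat.mul_le_mul_right _ (ih h')
      _ = B ^ n * ((B + 2 * n * w) * (B + w)) := by ring
      _ ≤ B ^ n * (B * (B + 2 * (n + 1) * w)) := Nat.mul_le_mul_left _ step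
      _ = _ := by ring

namespace Pools

variable {P Q : ℕ} (π : Pools P Q)

/-- The product over the levels `≥ i`. -/
def suf {i : ℕ} (d : Hi P i → Bool → Fin Q) (s : Hi P i → Bool) : ℕ :=
  ∏ j, π.el (Sum.inr (j.1, s j), d j (s j))

/-- All primes chosen at the levels `≥ i`. -/
def sufAll {i : ℕ} (d : Hi P i → Bool → Fin Q) : ℕ :=
  ∏ z : Hi P i × Bool, π.el (Sum.inr (z.1.1, z.2), d z.1 z.2)

lemma val_glue {i : ℕ} (hi : i ≤ P) (a : Fin P → Fin Q) (d : Fin i → Bool → Fin Q)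
    (d' : Hi P i → Bool → Fin Q) (h : Fin P) (ω : Fin i → Bool) (s : Hi P i → Bool) :
    π.val le_rfl (a, glue hi _ (d, d')) (h, glue hi _ (ω, s)) =
      π.suf d' s * π.val hi (a, d) (h, ω) := by
  unfold val suf
  rw [← Fintype.prod_subtype_mul_prod_subtype (fun j : Fin P => (j : ℕ) < i)]
  have h1 : (∏ j : {j : Fin P // (j : ℕ) < i},
      π.el (Sum.inr (Fin.castLE le_rfl j.1, glue hi _ (ω, s) j.1), glue hi _ (d, d') j.1 (glue hi _ (ω, s) j.1))) =
      ∏ j, π.el (Sum.inr (Fin.castLE hi j, ω j), d j (ω j)) := by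
    let e : {j : Fin P // (j : ℕ) < i} ≃ Fin i :=
      { toFun := fun j => ⟨j.1, j.2⟩
        invFun := fun j => ⟨Fin.castLE hi j, j.2⟩
        left_inv := fun j => rfl
        right_inv := fun j => rfl }
    refine Fintype.prod_equiv e _ _ fun j => ?_
    simp [glue, j.2, e, Fin.castLE]
  have h2 : (∏ j : Hi P i,
      π.el (Sum.inr (Fin.castLE le_rfl j.1, glue hi _ (ω, s) j.1), glue hi _ (d, d') j.1 (glue hi _ (ω, s) j.1))) =
      ∏ j : Hi P i, π.el (Sum.inr (j.1, s j), d' j (s j)) :=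
    Finset.prod_congr rfl fun j _ => by simp [glue, j.2, Fin.castLE]
  simp only [h1, h2]
  ring

lemma suf_dvd_sufAll {i : ℕ} (d : Hi P i → Bool → Fin Q) (s : Hi P i → Bool) :
    π.suf d s ∣ π.sufAll d := by
  unfold suf sufAll
  rw [← Finset.univ_product_univ, Finset.prod_product]
  refine Finset.prod_dvd_prod_of_dvd _ _ fun j _ => ?_
  rw [Fintype.prod_bool]
  cases h : s j <;> simp

lemma le_suf {i : ℕ} (hi : i ≤ P) (d : Hi P i → Bool → Fin Q) (s : Hi P i → Bool) :
    π.B ^ (P - i) ≤ π.suf d s := by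
  refine le_trans (le_of_eq ?_) (Finset.pow_card_le_prod _ _ _ fun j _ => π.lo _)
  rw [Finset.card_univ, Fintype.card_subtype_compl]
  congr 1
  rw [Fintype.card_congr (
    { toFun := fun j => ⟨j.1, j.2⟩
      invFun := fun j => ⟨Fin.castLE hi j, j.2⟩
      left_inv := fun j => rfl
      right_inv := fun j => rfl } : {j : Fin P // (j : ℕ) < i} ≃ Fin i)]
  simp

lemma le_val {i : ℕ} (hi : i ≤ P) (δ : Choice P Q i) (ω : Word P i) :
    π.B ^ (i + 1) ≤ π.val hi δ ω := by
  unfold val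
  rw [pow_succ']
  refine Nat.mul_le_mul (π.lo _) ?_
  refine le_trans (le_of_eq ?_) (Finset.pow_card_le_prod _ _ _ fun j _ => π.lo _)
  simp

/-- Sums of `k` products differ by less than `B ^ (i+1)`. -/
lemma tsum_diff {i k : ℕ} (hi : i ≤ P) (hk : k * (2 * (P + 1) * π.w) < π.B) (δ : Choice P Q i)
    (h h' : Fin k → Word P i) :
    (π.tsum hi δ k h - π.tsum hi δ k h').natAbs < π.B ^ (i + 1) := by
  rcases Nat.eq_zero_or_pos k with rfl | hk0
  · simp [tsum, pow_pos (show 0 < π.B by have := π.hB; omega)]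
  have hw : 2 * (i + 1) * π.w ≤ π.B := by
    have : 2 * (i + 1) * π.w ≤ 2 * (P + 1) * π.w := Nat.mul_le_mul_right _ (by omega)
    have : 2 * (P + 1) * π.w ≤ k * (2 * (P + 1) * π.w) := Nat.le_mul_of_pos_left _ hk0
    omega
  have up : ∀ ω, π.val hi δ ω ≤ (π.B + π.w) ^ (i + 1) := by
    intro ω
    unfold val
    rw [pow_succ']
    refine Nat.mul_le_mul (π.hi _).le ?_
    refine (Finset.prod_le_pow_card _ _ _ fun j _ => (π.hi _).le).trans ?_
    simp
  have b1 : ∀ g : Fin k → Word P i, (k : ℤ) * (π.B : ℤ) ^ (i + 1) ≤ π.tsum hi δ k g ∧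
      π.tsum hi δ k g ≤ (k : ℤ) * ((π.B : ℤ) + π.w) ^ (i + 1) := by
    intro g
    constructor
    · calc (k : ℤ) * (π.B : ℤ) ^ (i + 1) = ∑ _j : Fin k, (π.B : ℤ) ^ (i + 1) := by simp
        _ ≤ _ := Finset.sum_le_sum fun j _ => by exact_mod_cast π.le_val hi δ (g j)
    · calc π.tsum hi δ k g ≤ ∑ _j : Fin k, ((π.B : ℤ) + π.w) ^ (i + 1) :=
            Finset.sum_le_sum fun j _ => by exact_mod_cast up (g j)
        _ = _ := by simp
  have key : k * (π.B + π.w) ^ (i + 1) < k * π.B ^ (i + 1) + π.B ^ (i + 1) := by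
    refine Nat.lt_of_mul_lt_mul_right (a := π.B) ?_
    calc k * (π.B + π.w) ^ (i + 1) * π.B = k * ((π.B + π.w) ^ (i + 1) * π.B) := by ring
      _ ≤ k * (π.B ^ (i + 1) * (π.B + 2 * (i + 1) * π.w)) :=
          Nat.mul_le_mul_left _ (pow_spread _ hw)
      _ = k * π.B ^ (i + 1) * π.B + π.B ^ (i + 1) * (k * (2 * (i + 1) * π.w)) := by ring
      _ < k * π.B ^ (i + 1) * π.B + π.B ^ (i + 1) * π.B := by
          refine Nat.add_lt_add_left (Nat.mul_lt_mul_of_pos_left ?_
            (pow_pos (by have := π.hB; omega) _)) _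
          refine lt_of_le_of_lt ?_ hk
          gcongr
      _ = _ := by ring
  have keyZ : (k : ℤ) * ((π.B : ℤ) + π.w) ^ (i + 1) <
      (k : ℤ) * (π.B : ℤ) ^ (i + 1) + (π.B : ℤ) ^ (i + 1) := by exact_mod_cast key
  obtain ⟨a1, a2⟩ := b1 h
  obtain ⟨c1, c2⟩ := b1 h'
  have : (((π.tsum hi δ k h - π.tsum hi δ k h').natAbs : ℕ) : ℤ) < ((π.B ^ (i + 1) : ℕ) : ℤ) := by
    rw [Int.natCast_natAbs, abs_lt]; push_cast
    constructor <;> linarith
  exact_mod_cast this

end Pools

end Vale.Agent.P012
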