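import Vale.Agent.P012.Split

/-!
Equidistribution modulo every `g` and at every real scale, deduced from the power saving.
-/

open Finset
open scoped BigOperators

namespace Vale.Agent.P012

variable {ι : Type*} [Fintype ι]

/-- The probability that two independent samples of `f` are within `T`. -/
noncomputable def closeP (T : ℕ) (f : ι → ℤ) : ℝ :=
  𝔼 i, 𝔼 i', if (f i - f i').natAbs ≤ T then 1 else 0

lemma coll_le_one {M : ℕ} [Nonempty ι] (f : ι → ℤ) : coll M f ≤ 1 := by
  refine Finset.expect_le Finset.univ_nonempty fun a _ => ?_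
  refine Finset.expect_le Finset.univ_nonempty fun b _ => ?_
  split_ifs <;> norm_num

lemma coll_nonneg {M : ℕ} (f : ι → ℤ) : 0 ≤ coll M f :=
  Finset.expect_nonneg fun _ _ => Finset.expect_nonneg fun _ _ => by split_ifs <;> norm_num

lemma closeP_le_one {T : ℕ} [Nonempty ι] (f : ι → ℤ) : closeP T f ≤ 1 := by
  refine Finset.expect_le Finset.univ_nonempty fun a _ => ?_
  refine Finset.expect_le Finset.univ_nonempty fun b _ => ?_
  split_ifs <;> norm_num

lemma closeP_nonneg {T : ℕ} (f : ι → ℤ) : 0 ≤ closeP T f :=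
  Finset.expect_nonneg fun _ _ => Finset.expect_nonneg fun _ _ => by split_ifs <;> norm_num

/-- Scaling by `c` cannot create collisions modulo `g` between close integers. -/
lemma coll_scale_le {g : ℕ} (hg : 0 < g) (f : ι → ℤ) (c : ℕ) (H : ℕ)
    (hf : ∀ i i', (f i - f i').natAbs < H) (hc : Nat.gcd g c * H ≤ g) :
    coll g (fun i => (c : ℤ) * f i) = collZ f := by
  refine Finset.expect_congr rfl fun i _ => Finset.expect_congr rfl fun i' _ => ?_
  refine if_congr ⟨fun h => ?_, fun h => by simp [h]⟩ rfl rfl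
  rw [ZMod.intCast_eq_intCast_iff_dvd_sub, ← mul_sub, Int.natCast_dvd, Int.natAbs_mul,
    Int.natAbs_natCast] at h
  have hd : g ∣ Nat.gcd g c * (f i' - f i).natAbs := by
    rw [← Nat.gcd_mul_right]
    exact Nat.dvd_gcd (dvd_mul_right _ _) h
  have h2 : Nat.gcd g c * (f i' - f i).natAbs < g :=
    lt_of_lt_of_le (Nat.mul_lt_mul_of_pos_left (hf i' i) (Nat.gcd_pos_of_pos_left _ hg)) hc
  have h3 := Nat.eq_zero_of_dvd_of_lt hd h2
  rcases Nat.mul_eq_zero.1 h3 with h4 | h4
  · exact absurd h4 (Nat.gcd_pos_of_pos_left _ hg).ne'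
  · omega

lemma abs_fin_sub_lt {L : ℕ} (x y : Fin L) : |((x : ℕ) : ℤ) - ((y : ℕ) : ℤ)| < L := by
  have := x.2; have := y.2
  rw [abs_lt]; constructor <;> omega

/-- Closeness is detected by collisions of `a + f` with `a` uniform on an interval. -/
lemma closeP_le_coll {T M : ℕ} (f : ι → ℤ)
    (hM : ∀ p p', ((2 * T + 1 : ℕ) : ℤ) + |f p - f p'| < M) :
    closeP T f ≤ 2 * ((2 * T + 1 : ℕ) : ℝ) *
      coll M (fun p : Fin (2 * T + 1) × ι => ((p.1 : ℕ) : ℤ) + f p.2) := by
  classical
  set L := 2 * T + 1 with hL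
  have hcoll : coll M (fun p : Fin L × ι => ((p.1 : ℕ) : ℤ) + f p.2) = 𝔼 p, 𝔼 p',
      𝔼 q : Fin L × Fin L,
        if ((q.1 : ℕ) : ℤ) + f p = ((q.2 : ℕ) : ℤ) + f p' then (1 : ℝ) else 0 := by
    have e0 : ∀ (x y : Fin L) (p p' : ι),
        ((((x : ℕ) : ℤ) + f p : ℤ) : ZMod M) = ((((y : ℕ) : ℤ) + f p' : ℤ) : ZMod M) ↔
          ((x : ℕ) : ℤ) + f p = ((y : ℕ) : ℤ) + f p' := by
      intro x y p p'
      refine ⟨fun h => ?_, fun h => by rw [h]⟩
      rw [ZMod.intCast_eq_intCast_iff_dvd_sub] at h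
      have hlt : |((y : ℕ) : ℤ) + f p' - (((x : ℕ) : ℤ) + f p)| < M := by
        have h1 := abs_lt.1 (abs_fin_sub_lt y x)
        have h2 := hM p' p
        have h3 := abs_nonneg (f p' - f p)
        have h4 := le_abs_self (f p' - f p)
        have h5 := neg_abs_le (f p' - f p)
        rw [abs_lt]; constructor <;> linarith
      linarith [Int.eq_zero_of_abs_lt_dvd h hlt]
    unfold coll
    simp only [e0]
    simp only [← Finset.univ_product_univ, Finset.expect_product]
    rw [Finset.expect_comm]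
    refine Finset.expect_congr rfl fun p _ => ?_
    refine (Finset.expect_congr rfl fun x _ => Finset.expect_comm _ _ _).trans ?_
    exact Finset.expect_comm _ _ _
  rw [hcoll, Finset.mul_expect]
  refine Finset.expect_le_expect fun p _ => ?_
  rw [Finset.mul_expect]
  refine Finset.expect_le_expect fun p' _ => ?_
  by_cases hd : (f p - f p').natAbs ≤ T
  · rw [if_pos hd, Fintype.expect_eq_sum_div_card, Finset.sum_boole, Fintype.card_prod,
      Fintype.card_fin]
    have hsx : ∀ u : Fin (T + 1), (u : ℕ) + (f p' - f p).toNat < L ∧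
        (u : ℕ) + (f p - f p').toNat < L := fun u => by have := u.2; omega
    have hcard := Finset.card_le_card_of_injOn (s := (Finset.univ : Finset (Fin (T + 1))))
      (t := Finset.univ.filter fun q : Fin L × Fin L =>
        ((q.1 : ℕ) : ℤ) + f p = ((q.2 : ℕ) : ℤ) + f p')
      (fun u => ((⟨_, (hsx u).1⟩, ⟨_, (hsx u).2⟩) : Fin L × Fin L))
      (fun u _ => by
        simp only [Finset.coe_filter, Finset.mem_univ, true_and, Set.mem_ofPred_eq]
        push_cast; omega)
      (fun u _ v _ h => by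
        simp only [Prod.mk.injEq, Fin.mk.injEq] at h
        exact Fin.ext (by omega))
    rw [Finset.card_univ, Fintype.card_fin] at hcard
    have h1 : ((T + 1 : ℕ) : ℝ) ≤ ((Finset.univ.filter fun q : Fin L × Fin L =>
        ((q.1 : ℕ) : ℤ) + f p = ((q.2 : ℕ) : ℤ) + f p').card : ℝ) := by exact_mod_cast hcard
    have hLr : (L : ℝ) = 2 * T + 1 := by rw [hL]; push_cast; ring
    push_cast at h1
    rw [← mul_div_assoc, Nat.cast_mul, le_div_iff₀ (by rw [hLr]; positivity), one_mul, hLr]
    nlinarith [show (0 : ℝ) ≤ T from Nat.cast_nonneg T]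
  · rw [if_neg hd]
    refine mul_nonneg (by positivity) ?_
    exact Finset.expect_nonneg fun _ _ => by split_ifs <;> norm_num

/-- Adding a short interval to multiples of a large `c` separates the points. -/
lemma coll_sep {L M : ℕ} (f : ι → ℤ) (c : ℕ) (hc : L ≤ c)
    (hM : ∀ p p', (L : ℤ) + (c : ℤ) * |f p - f p'| < M) :
    coll M (fun p : Fin L × ι => ((p.1 : ℕ) : ℤ) + (c : ℤ) * f p.2) = 1 / (L : ℝ) * collZ f := by
  classical
  have key : ∀ (x y : Fin L) (p p' : ι),
      ((((x : ℕ) : ℤ) + (c : ℤ) * f p : ℤ) : ZMod M) =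
        ((((y : ℕ) : ℤ) + (c : ℤ) * f p' : ℤ) : ZMod M) ↔ (x = y ∧ f p = f p') := by
    intro x y p p'
    refine ⟨fun h => ?_, fun h => by rw [h.1, h.2]⟩
    rw [ZMod.intCast_eq_intCast_iff_dvd_sub] at h
    have h1 := abs_lt.1 (abs_fin_sub_lt y x)
    have h2 := hM p' p
    have h4 : (c : ℤ) * (f p' - f p) ≤ (c : ℤ) * |f p' - f p| :=
      mul_le_mul_of_nonneg_left (le_abs_self _) (by positivity)
    have h5 : (c : ℤ) * (-|f p' - f p|) ≤ (c : ℤ) * (f p' - f p) :=
      mul_le_mul_of_nonneg_left (neg_abs_le _) (by positivity)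
    have hlt : |((y : ℕ) : ℤ) + (c : ℤ) * f p' - (((x : ℕ) : ℤ) + (c : ℤ) * f p)| < M := by
      rw [abs_lt]; constructor <;> linarith
    have h0 := Int.eq_zero_of_abs_lt_dvd h hlt
    have hc' : (L : ℤ) ≤ (c : ℤ) := by exact_mod_cast hc
    have hf : f p = f p' := by
      rcases lt_trichotomy (f p) (f p') with hh | hh | hh
      · have : (c : ℤ) * 1 ≤ (c : ℤ) * (f p' - f p) :=
          mul_le_mul_of_nonneg_left (by omega) (by positivity)
        linarith
      · exact hh
      · have : (c : ℤ) * 1 ≤ (c : ℤ) * (f p - f p') :=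
          mul_le_mul_of_nonneg_left (by omega) (by positivity)
        linarith
    refine ⟨Fin.ext ?_, hf⟩
    rw [hf] at h0
    omega
  unfold coll collZ
  simp only [key, ite_and]
  simp only [← Finset.univ_product_univ, Finset.expect_product]
  rw [Finset.expect_comm, Finset.mul_expect]
  refine Finset.expect_congr rfl fun p _ => ?_
  simp only [Finset.mul_expect]
  rw [Finset.expect_congr rfl fun x _ => Finset.expect_comm _ _ _, Finset.expect_comm]
  refine Finset.expect_congr rfl fun p' _ => ?_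
  by_cases h : f p = f p'
  · simp [h, Fintype.expect_eq_sum_div_card]
    rcases Nat.eq_zero_or_pos L with rfl | hL
    · simp
    · field_simp
  · simp [h]

namespace Pools

variable {P Q : ℕ} (π : Pools P Q) {i : ℕ}

lemma chSum_glue {M : ℕ} [NeZero M] (hi : i ≤ P) (a : Fin P → Fin Q) (d : Fin i → Bool → Fin Q)
    (d' : Hi P i → Bool → Fin Q) (x : ZMod M) :
    chSum M (fun ω => (π.val le_rfl (a, glue hi _ (d, d')) ω : ℤ)) x =
      𝔼 s : Hi P i → Bool,
        chSum M (fun ω => (π.val hi (a, d) ω : ℤ)) ((π.suf d' s : ZMod M) * x) := by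
  unfold chSum
  let e : (Hi P i → Bool) × Word P i ≃ Word P P :=
    { toFun := fun q => (q.2.1, glue hi _ (q.2.2, q.1))
      invFun := fun w => (((glue hi _).symm w.2).2, (w.1, ((glue hi _).symm w.2).1))
      left_inv := fun q => by simp
      right_inv := fun w => by simp }
  rw [← Fintype.expect_equiv e _ _ (fun _ => rfl), ← Finset.univ_product_univ,
    Finset.expect_product]
  refine Finset.expect_congr rfl fun s _ => Finset.expect_congr rfl fun ω _ => ?_
  congr 1
  show (((π.val le_rfl (a, glue hi _ (d, d')) (ω.1, glue hi _ (ω.2, s)) : ℕ) : ℤ) : ZMod M) * x = _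
  rw [π.val_glue hi a d d' ω.1 ω.2 s]
  push_cast; ring

lemma norm_pow_glue_le {M : ℕ} [NeZero M] (hi : i ≤ P) (a : Fin P → Fin Q)
    (d : Fin i → Bool → Fin Q) (d' : Hi P i → Bool → Fin Q) (x : ZMod M) (n : ℕ) :
    ‖chSum M (fun ω => (π.val le_rfl (a, glue hi _ (d, d')) ω : ℤ)) x‖ ^ (n + 1) ≤
      𝔼 s : Hi P i → Bool,
        ‖chSum M (fun ω => (π.val hi (a, d) ω : ℤ)) ((π.suf d' s : ZMod M) * x)‖ ^ (n + 1) := by
  rw [π.chSum_glue hi, Fintype.expect_eq_sum_div_card, Fintype.expect_eq_sum_div_card,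
    norm_div, Complex.norm_natCast]
  set m := (Fintype.card (Hi P i → Bool) : ℝ) with hm
  have hm0 : 0 < m := by rw [hm]; exact_mod_cast Fintype.card_pos
  rw [div_pow, div_le_div_iff₀ (by positivity) hm0]
  refine le_trans (mul_le_mul_of_nonneg_right (pow_le_pow_left₀ (norm_nonneg _) (norm_sum_le _ _) _)
    hm0.le) ?_
  refine le_trans (mul_le_mul_of_nonneg_right
    (pow_sum_le_card_mul_sum_pow (fun s _ => norm_nonneg _) n) hm0.le) (le_of_eq ?_)
  rw [Finset.card_univ, ← hm]; ring

variable {E : Type*} [Fintype E] [Nonempty E]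

/-- The collision probability modulo `g`, after conditioning on the suffix. -/
lemma coll_glue_le {g : ℕ} [NeZero g] (hi : i ≤ P) (a : Fin P → Fin Q)
    (d : Fin i → Bool → Fin Q) (d' : Hi P i → Bool → Fin Q) {k : ℕ} (hk : 1 ≤ k) (τ : E → ℤ) :
    coll g (fun p : (Fin k → Word P P) × E => π.tsum le_rfl (a, glue hi _ (d, d')) k p.1 + τ p.2) ≤
      𝔼 s : Hi P i → Bool, coll g (fun h => (π.suf d' s : ℤ) * π.tsum hi (a, d) k h) := by
  obtain ⟨n, hn⟩ : ∃ n, 2 * k = n + 1 := ⟨2 * k - 1, by omega⟩
  rw [← chSum_norm_sq]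
  calc (𝔼 x : ZMod g, ‖chSum g (fun p : (Fin k → Word P P) × E =>
        π.tsum le_rfl (a, glue hi _ (d, d')) k p.1 + τ p.2) x‖ ^ 2)
      ≤ 𝔼 x : ZMod g,
        ‖chSum g (fun ω => (π.val le_rfl (a, glue hi _ (d, d')) ω : ℤ)) x‖ ^ (n + 1) := by
        refine Finset.expect_le_expect fun x _ => ?_
        rw [chSum_prod]
        unfold tsum
        rw [chSum_sum_pow (n := k) (fun ω => (π.val le_rfl (a, glue hi _ (d, d')) ω : ℤ)), norm_mul,
          mul_pow, norm_pow, ← pow_mul, show k * 2 = n + 1 by omega]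
        exact mul_le_of_le_one_right (by positivity)
          (pow_le_one₀ (norm_nonneg _) (norm_chSum_le_one _ _))
    _ ≤ 𝔼 x : ZMod g, 𝔼 s : Hi P i → Bool,
        ‖chSum g (fun ω => (π.val hi (a, d) ω : ℤ)) ((π.suf d' s : ZMod g) * x)‖ ^ (n + 1) :=
        Finset.expect_le_expect fun x _ => π.norm_pow_glue_le hi a d d' x n
    _ = _ := by
        rw [Finset.expect_comm]
        refine Finset.expect_congr rfl fun s _ => ?_
        rw [← chSum_norm_sq]
        refine Finset.expect_congr rfl fun x _ => ?_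
        rw [chSum_scale]
        unfold tsum
        rw [chSum_sum_pow (n := k) (fun ω => (π.val hi (a, d) ω : ℤ)), norm_pow, ← pow_mul,
          Int.cast_natCast, show k * 2 = n + 1 by omega]

lemma expect_glue (hi : i ≤ P) (F : Choice P Q P → ℝ) :
    (𝔼 δ, F δ) = 𝔼 a : Fin P → Fin Q, 𝔼 d' : Hi P i → Bool → Fin Q,
      𝔼 d : Fin i → Bool → Fin Q, F (a, glue hi _ (d, d')) := by
  rw [← Finset.univ_product_univ, Finset.expect_product]
  refine Finset.expect_congr rfl fun a _ => ?_
  rw [← Fintype.expect_equiv (glue hi (Bool → Fin Q)) _ _ (fun _ => rfl),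
    ← Finset.univ_product_univ, Finset.expect_product, Finset.expect_comm]

/-- Collisions modulo a large `g`. -/
lemma coll_big [NeZero Q] {k : ℕ} (hP : 0 < P) (hk : 1 ≤ k) (hi : i ≤ P)
    (hw : k * (2 * (P + 1) * π.w) < π.B) {g : ℕ} [NeZero g] (τ : E → ℤ) :
    (𝔼 δ : Choice P Q P, coll g (fun p : (Fin k → Word P P) × E => π.tsum le_rfl δ k p.1 + τ p.2))
      ≤ π.q hi k +
        𝔼 d' : Hi P i → Bool → Fin Q,
          if Nat.gcd g (π.sufAll d') * π.B ^ (i + 1) ≤ g then 0 else 1 := by
  have : Nonempty (Fin P) := ⟨⟨0, hP⟩⟩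
  have hg : 0 < g := NeZero.pos g
  rw [expect_glue hi]
  have step : ∀ (a : Fin P → Fin Q) (d' : Hi P i → Bool → Fin Q) (d : Fin i → Bool → Fin Q),
      coll g (fun p : (Fin k → Word P P) × E =>
        π.tsum le_rfl (a, glue hi _ (d, d')) k p.1 + τ p.2) ≤
      collZ (π.tsum hi (a, d) k) +
        (if Nat.gcd g (π.sufAll d') * π.B ^ (i + 1) ≤ g then 0 else 1) := by
    intro a d' d
    by_cases h : Nat.gcd g (π.sufAll d') * π.B ^ (i + 1) ≤ g
    · rw [if_pos h, add_zero]
      refine (π.coll_glue_le hi a d d' hk τ).trans ?_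
      refine Finset.expect_le Finset.univ_nonempty fun s _ => ?_
      rw [coll_scale_le hg _ _ (π.B ^ (i + 1)) (π.tsum_diff hi hw (a, d))]
      refine le_trans (Nat.mul_le_mul_right _ ?_) h
      exact Nat.le_of_dvd (Nat.gcd_pos_of_pos_left _ hg)
        (Nat.gcd_dvd_gcd_of_dvd_right _ (π.suf_dvd_sufAll d' s))
    · rw [if_neg h]
      refine le_trans (coll_le_one _) (le_add_of_nonneg_left ?_)
      exact Finset.expect_nonneg fun _ _ => Finset.expect_nonneg fun _ _ => by
        split_ifs <;> norm_num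
  refine (Finset.expect_le_expect fun a _ => Finset.expect_le_expect fun d' _ =>
    Finset.expect_le_expect fun d _ => step a d' d).trans (le_of_eq ?_)
  simp only [Finset.expect_add_distrib, Fintype.expect_const]
  unfold q
  rw [← Finset.univ_product_univ, Finset.expect_product]

/-- The bad event for `g` is rare. -/
lemma bad_bound [NeZero Q] {g L W e : ℕ} (hg : 0 < g) (hgL : g < π.B ^ (L + 1)) (hW : 1 ≤ W)
    (hie : i + 1 ≤ e / 2) (hge : π.B ^ e ≤ g) (hWL : 2 * P * (W * L) ≤ Q) :
    ((W : ℝ) ^ (e / 4)) *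
      (𝔼 d' : Hi P i → Bool → Fin Q,
        if Nat.gcd g (π.sufAll d') * π.B ^ (i + 1) ≤ g then (0 : ℝ) else 1) ≤ 3 := by
  classical
  have hQ : (0 : ℝ) < Q := by exact_mod_cast NeZero.pos Q
  have hB := π.hB
  let hit : Hi P i × Bool → Fin Q → Prop := fun z x => π.el (Sum.inr (z.1.1, z.2), x) ∣ g
  let wt : Hi P i × Bool → Fin Q → ℝ := fun z x => if hit z x then (W : ℝ) else 1
  -- pointwise
  have point : ∀ d' : Hi P i → Bool → Fin Q,
      ((W : ℝ) ^ (e / 4)) * (if Nat.gcd g (π.sufAll d') * π.B ^ (i + 1) ≤ g then (0 : ℝ) else 1) ≤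
        ∏ z : Hi P i × Bool, wt z (d' z.1 z.2) := by
    intro d'
    have hW1 : (1 : ℝ) ≤ W := by exact_mod_cast hW
    have hwt : ∀ z x, 1 ≤ wt z x := fun z x => by
      simp only [wt]; split_ifs <;> linarith
    by_cases h : Nat.gcd g (π.sufAll d') * π.B ^ (i + 1) ≤ g
    · rw [if_pos h, mul_zero]
      exact Finset.prod_nonneg fun z _ => le_trans zero_le_one (hwt _ _)
    rw [if_neg h, mul_one]
    set F := Finset.univ.filter fun z : Hi P i × Bool => hit z (d' z.1 z.2) with hF
    have hprod : ∏ z : Hi P i × Bool, wt z (d' z.1 z.2) = (W : ℝ) ^ F.card := by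
      simp only [wt, hF]
      rw [Finset.prod_ite, Finset.prod_const, Finset.prod_const, one_pow, mul_one]
    rw [hprod]
    refine pow_le_pow_right₀ hW1 ?_
    have h1 : Nat.gcd g (π.sufAll d') ≤ π.B ^ (2 * F.card) := by
      have hdvd : Nat.gcd g (π.sufAll d') ∣
          ∏ z : Hi P i × Bool, Nat.gcd g (π.el (Sum.inr (z.1.1, z.2), d' z.1 z.2)) := by
        unfold sufAll
        induction (Finset.univ : Finset (Hi P i × Bool)) using Finset.induction_on with
        | empty => simp
        | insert z s hz ih =>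
          rw [Finset.prod_insert hz, Finset.prod_insert hz]
          exact (Nat.gcd_mul_right_dvd_mul_gcd _ _ _).trans (mul_dvd_mul_left _ ih)
      refine le_trans (Nat.le_of_dvd (Finset.prod_pos fun z _ => Nat.gcd_pos_of_pos_left _ hg) hdvd) ?_
      rw [← Finset.prod_filter_mul_prod_filter_not Finset.univ
        (fun z : Hi P i × Bool => hit z (d' z.1 z.2))]
      rw [Finset.prod_eq_one (s := Finset.univ.filter fun z : Hi P i × Bool => ¬ hit z (d' z.1 z.2))]
      · rw [mul_one, pow_mul]
        refine Finset.prod_le_pow_card _ _ _ fun z _ => ?_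
        refine le_trans (Nat.le_of_dvd (π.el_pos _) (Nat.gcd_dvd_right _ _)) ((π.el_le _).trans ?_)
        nlinarith
      · intro z hz
        exact Nat.Coprime.gcd_eq_one
          (((π.prime _).coprime_iff_not_dvd.2 (Finset.mem_filter.1 hz).2).symm)
    have h2 : π.B ^ e < π.B ^ (2 * F.card + (i + 1)) := by
      rw [pow_add]
      exact lt_of_le_of_lt hge (lt_of_lt_of_le (not_le.1 h) (Nat.mul_le_mul_right _ h1))
    have h3 := (Nat.pow_lt_pow_iff_right (by omega : 1 < π.B)).1 h2
    omega
  -- average of one factor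
  have one : ∀ z, (𝔼 x, wt z x) ≤ 1 + (W : ℝ) * L / Q := by
    intro z
    have hc : (Finset.univ.filter (hit z)).card ≤ L := by
      have := π.card_dvd_le (Sum.inr (z.1.1, z.2)) (e := (g : ℤ)) (by exact_mod_cast hg.ne')
        (by simpa using hgL)
      simpa [hit, Int.natCast_dvd_natCast] using this
    rw [Fintype.expect_eq_sum_div_card, Fintype.card_fin, div_le_iff₀ hQ]
    simp only [wt]
    rw [Finset.sum_ite, Finset.sum_const, Finset.sum_const, nsmul_eq_mul, nsmul_eq_mul, mul_one]
    rw [add_mul, one_mul, div_mul_cancel₀ _ hQ.ne']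
    have e1 : ((Finset.univ.filter fun x => ¬ hit z x).card : ℝ) ≤ Q := by
      exact_mod_cast (Finset.card_le_univ _).trans (by simp)
    have e2 : ((Finset.univ.filter (hit z)).card : ℝ) * W ≤ (W : ℝ) * L := by
      rw [mul_comm]; gcongr
    linarith
  calc ((W : ℝ) ^ (e / 4)) * (𝔼 d' : Hi P i → Bool → Fin Q,
        if Nat.gcd g (π.sufAll d') * π.B ^ (i + 1) ≤ g then (0 : ℝ) else 1)
      ≤ 𝔼 d' : Hi P i → Bool → Fin Q, ∏ z : Hi P i × Bool, wt z (d' z.1 z.2) := by
        rw [Finset.mul_expect]; exact Finset.expect_le_expect fun d' _ => point d'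
    _ = 𝔼 f : Hi P i × Bool → Fin Q, ∏ z, wt z (f z) :=
        Fintype.expect_equiv (Equiv.curry (Hi P i) Bool (Fin Q)).symm _ _ fun d' => rfl
    _ = ∏ z : Hi P i × Bool, 𝔼 x, wt z x := by
        simp only [Fintype.expect_eq_sum_div_card]
        rw [← Fintype.prod_sum wt, Finset.prod_div_distrib]
        simp [Fintype.card_fun, Finset.prod_const]
    _ ≤ ∏ _z : Hi P i × Bool, (1 + (W : ℝ) * L / Q) := by
        refine Finset.prod_le_prod (fun z _ => ?_) fun z _ => one z
        exact Finset.expect_nonneg fun x _ => by simp only [wt]; split_ifs <;> positivity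
    _ ≤ (1 + (W : ℝ) * L / Q) ^ (2 * P) := by
        rw [Finset.prod_const, Finset.card_univ, Fintype.card_prod, Fintype.card_bool]
        refine pow_le_pow_right₀ (le_add_of_nonneg_right (by positivity)) ?_
        have : Fintype.card (Hi P i) ≤ P := (Fintype.card_subtype_le _).trans (by simp)
        omega
    _ ≤ 3 := by
        have h1 : (1 + (W : ℝ) * L / Q) ≤ Real.exp ((W : ℝ) * L / Q) := by
          linarith [Real.add_one_le_exp ((W : ℝ) * L / Q)]
        refine (pow_le_pow_left₀ (by positivity) h1 _).trans ?_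
        rw [← Real.exp_nat_mul]
        refine le_trans (Real.exp_le_exp.2 (?_ : _ ≤ (1 : ℝ))) Real.exp_one_lt_three.le
        rw [← mul_div_assoc, div_le_one hQ]
        exact_mod_cast hWL

/-- Closeness at a small scale. -/
lemma closeP_big [NeZero Q] {k T : ℕ} (hP : 0 < P) (hk : 1 ≤ k) (hi : i ≤ P)
    (hT : 2 * T < π.B ^ (P - i)) (τ : E → ℤ) :
    (𝔼 δ : Choice P Q P,
      closeP T (fun p : (Fin k → Word P P) × E => π.tsum le_rfl δ k p.1 + τ p.2)) ≤
      2 * π.q hi k := by
  set L := 2 * T + 1 with hL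
  rw [expect_glue hi]
  have step : ∀ (a : Fin P → Fin Q) (d' : Hi P i → Bool → Fin Q) (d : Fin i → Bool → Fin Q),
      closeP T (fun p : (Fin k → Word P P) × E =>
        π.tsum le_rfl (a, glue hi _ (d, d')) k p.1 + τ p.2) ≤
      2 * collZ (π.tsum hi (a, d) k) := by
    intro a d' d
    set F := fun p : (Fin k → Word P P) × E =>
        π.tsum le_rfl (a, glue hi _ (d, d')) k p.1 + τ p.2 with hF
    set G := π.tsum hi (a, d) k with hG
    -- a modulus exceeding everything
    obtain ⟨M, hM1, hM2⟩ : ∃ M : ℕ, (∀ p p', (L : ℤ) + |F p - F p'| < M) ∧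
        (∀ (s : Hi P i → Bool) h h', (L : ℤ) + (π.suf d' s : ℤ) * |G h - G h'| < M) := by
      refine ⟨L + (∑ p, ∑ p', (F p - F p').natAbs) +
        (∑ s, ∑ h, ∑ h', π.suf d' s * (G h - G h').natAbs) + 1, fun p p' => ?_, fun s h h' => ?_⟩
      · have h1 : (F p - F p').natAbs ≤ ∑ p, ∑ p', (F p - F p').natAbs :=
          le_trans (Finset.single_le_sum (f := fun q => (F p - F q).natAbs) (fun _ _ => Nat.zero_le _)
            (Finset.mem_univ p')) (Finset.single_le_sum (f := fun r => ∑ q, (F r - F q).natAbs)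
            (fun _ _ => Nat.zero_le _) (Finset.mem_univ p))
        rw [← Int.natCast_natAbs]; omega
      · have h1 : π.suf d' s * (G h - G h').natAbs ≤
            ∑ s, ∑ h, ∑ h', π.suf d' s * (G h - G h').natAbs :=
          le_trans (le_trans (Finset.single_le_sum (f := fun q => π.suf d' s * (G h - G q).natAbs)
            (fun _ _ => Nat.zero_le _) (Finset.mem_univ h')) (Finset.single_le_sum
            (f := fun r => ∑ q, π.suf d' s * (G r - G q).natAbs)
            (fun _ _ => Nat.zero_le _) (Finset.mem_univ h))) (Finset.single_le_sum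
            (f := fun u => ∑ r, ∑ q, π.suf d' u * (G r - G q).natAbs)
            (fun _ _ => Nat.zero_le _) (Finset.mem_univ s))
        rw [← Int.natCast_natAbs, ← Nat.cast_mul]; omega
    haveI : NeZero M := ⟨by
      rintro rfl
      obtain ⟨p⟩ := (inferInstance : Nonempty (Hi P i → Bool))
      obtain ⟨q⟩ := (inferInstance : Nonempty (Fin k → Fin i → Bool))
      have := hM2 p (fun j => (⟨0, hP⟩, q j)) (fun j => (⟨0, hP⟩, q j))
      simp at this
      omega⟩
    obtain ⟨n, hn⟩ : ∃ n, 2 * k = n + 1 := ⟨2 * k - 1, by omega⟩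
    let A : Fin L → ℤ := fun a => (a : ℕ)
    have low : closeP T F ≤
        2 * L * coll M (fun p : Fin L × ((Fin k → Word P P) × E) => A p.1 + F p.2) :=
      closeP_le_coll F hM1
    have up : coll M (fun p : Fin L × ((Fin k → Word P P) × E) => A p.1 + F p.2) ≤
        (1 / (L : ℝ)) * collZ G := by
      rw [← chSum_norm_sq]
      calc (𝔼 x : ZMod M, ‖chSum M (fun p : Fin L × ((Fin k → Word P P) × E) => A p.1 + F p.2) x‖ ^ 2)
          ≤ 𝔼 x : ZMod M, ‖chSum M A x‖ ^ 2 * 𝔼 s : Hi P i → Bool,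
            ‖chSum M (fun ω => (π.val hi (a, d) ω : ℤ)) ((π.suf d' s : ZMod M) * x)‖ ^ (n + 1) := by
            refine Finset.expect_le_expect fun x _ => ?_
            rw [chSum_prod, norm_mul, mul_pow]
            refine mul_le_mul_of_nonneg_left ?_ (by positivity)
            refine le_trans ?_ (π.norm_pow_glue_le hi a d d' x n)
            rw [hF, chSum_prod]
            unfold tsum
            rw [chSum_sum_pow (n := k) (fun ω => (π.val le_rfl (a, glue hi _ (d, d')) ω : ℤ)), norm_mul,
              mul_pow, norm_pow, ← pow_mul, show k * 2 = n + 1 by omega]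
            exact mul_le_of_le_one_right (by positivity)
              (pow_le_one₀ (norm_nonneg _) (norm_chSum_le_one _ _))
        _ = 𝔼 s : Hi P i → Bool,
            coll M (fun p : Fin L × (Fin k → Word P i) => A p.1 + (π.suf d' s : ℤ) * G p.2) := by
            simp only [Finset.mul_expect]
            rw [Finset.expect_comm]
            refine Finset.expect_congr rfl fun s _ => ?_
            rw [← chSum_norm_sq]
            refine Finset.expect_congr rfl fun x _ => ?_
            have hsp := chSum_prod (M := M) A (fun h => (π.suf d' s : ℤ) * G h) x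
            rw [hsp, chSum_scale, hG]
            unfold tsum
            rw [chSum_sum_pow (n := k) (fun ω => (π.val hi (a, d) ω : ℤ)), norm_mul, mul_pow,
              norm_pow, ← pow_mul, Int.cast_natCast, show k * 2 = n + 1 by omega]
        _ ≤ _ := by
            refine Finset.expect_le Finset.univ_nonempty fun s _ => le_of_eq ?_
            refine coll_sep G (π.suf d' s) ?_ (hM2 s)
            have := π.le_suf hi d' s; omega
    have hL0 : (0 : ℝ) < L := by rw [hL]; positivity
    calc closeP T F ≤ 2 * L * ((1 / (L : ℝ)) * collZ G) :=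
          low.trans (mul_le_mul_of_nonneg_left up (by positivity))
      _ = 2 * collZ G := by field_simp
  refine (Finset.expect_le_expect fun a _ => Finset.expect_le_expect fun d' _ =>
    Finset.expect_le_expect fun d _ => step a d' d).trans (le_of_eq ?_)
  simp only [← Finset.mul_expect, Fintype.expect_const]
  unfold q
  rw [← Finset.univ_product_univ, Finset.expect_product]

end Pools

end Vale.Agent.P012
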